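import Vale.Agent.P232.Classify.Seq

/-!
# P232: along each axis a minimiser has a gap or is flat
-/

noncomputable section

open MeasureTheory Filter Topology Set

namespace Vale.Agent.P232.Classify

variable {f : (Fin 3 → ℝ) → ℝ} {u : ℕ → (Fin 3 → ℝ) → ℝ} {v : ℝ}

/-- The slices of the limit across the axis `i` all have area `v`. -/
def Flat (v : ℝ) (f : (Fin 3 → ℝ) → ℝ) (i : Fin 3) : Prop :=
  ∀ u, MinSeq v f u → Tendsto (fun n => flat v (u n) i) atTop (𝓝 0)

theorem tendsto_zero_of_eventually_le {a : ℕ → ℝ} (h0 : ∀ n, 0 ≤ a n)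
    (h : ∀ κ : ℝ, 0 < κ → ∀ᶠ n in atTop, a n ≤ κ) : Tendsto a atTop (𝓝 0) := by
  refine Metric.tendsto_nhds.2 fun ε hε => ?_
  filter_upwards [h (ε / 2) (half_pos hε)] with n hn
  rw [Real.dist_eq, sub_zero, abs_of_nonneg (h0 n)]
  linarith

/-- Flatness depends only on the limit. -/
theorem flat_of_one (h : MinSeq v f u) {i : Fin 3}
    (h0 : Tendsto (fun n => flat v (u n) i) atTop (𝓝 0)) : Flat v f i := by
  intro w hw
  have hs := h0.add (hw.lim.add h.lim)
  simp only [add_zero] at hs
  refine squeeze_zero (fun n => flat_nonneg _ _ _) (fun n => ?_) hs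
  refine (flat_le_add (hw.adm n) (h.adm n) v i).trans (add_le_add le_rfl ?_)
  rw [← integral_add (hw.integrableOn_diff n) (h.integrableOn_diff n)]
  refine setIntegral_mono_on
    (integrableOn_box ((hw.adm n).smooth.continuous.sub (h.adm n).smooth.continuous).abs)
    ((hw.integrableOn_diff n).add (h.integrableOn_diff n)) measurableSet_box fun x _ => ?_
  show |w n x - u n x| ≤ |w n x - f x| + |u n x - f x|
  rw [abs_sub_comm (u n x) (f x)]
  exact abs_sub_le _ _ _

/-- The hypotheses of the flatness criteria hold eventually. -/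
theorem MinSeq.eventually_near (h : MinSeq v f u) {δ : ℝ} (hδ : 0 < δ) :
    ∀ᶠ n in atTop, |mean (u n) - v| ≤ δ ∧ dfct (u n) ≤ δ ∧ energy (u n) ≤ canonical v + δ := by
  filter_upwards [h.mean_tendsto.eventually (Metric.closedBall_mem_nhds v hδ),
    h.dfct_tendsto.eventually (eventually_le_nhds hδ), h.energy_le δ hδ] with n h1 h2 h3
  exact ⟨by simpa [Real.dist_eq] using h1, h2, h3⟩

/-- Off the middle range an axis without cuts is flat. -/
theorem flat_of_row (hR : RowFlat) (h : MinSeq v f u)
    (hv : v < 262 / 1000 ∨ 365 / 1000 < v) {i : Fin 3}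
    (hn : ∀ᶠ n in atTop, ¬ Cuttable (u n) i) : Flat v f i := by
  refine flat_of_one h (tendsto_zero_of_eventually_le (fun n => flat_nonneg _ _ _) fun κ hκ => ?_)
  obtain ⟨δ, hδ, hrow⟩ := hR v h.v_pos (hv.imp_right fun h' => ⟨h', h.v_le⟩) κ hκ
  filter_upwards [hn, h.eventually_near hδ] with n hc ⟨h1, h2, h3⟩
  exact (hrow (u n) i (h.adm n) ((h.mean_le n).trans h.v_le) h1 h2 h3).resolve_left hc

theorem integral_sq_sub {w : (Fin 3 → ℝ) → ℝ} (hw : Adm w) (v : ℝ) (i : Fin 3) :
    ∫ z in (0 : ℝ)..1, (area w i z - v) ^ 2 = spread w i - 2 * v * mean w + v ^ 2 := by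
  have hc := area_continuous hw i
  have e : ∀ z, (area w i z - v) ^ 2 = area w i z ^ 2 - 2 * v * area w i z + v ^ 2 :=
    fun z => by ring
  simp only [e]
  rw [intervalIntegral.integral_add (f := fun z => area w i z ^ 2 - 2 * v * area w i z)
      (((hc.pow 2).sub (hc.const_mul _)).intervalIntegrable _ _)
      intervalIntegrable_const,
    intervalIntegral.integral_sub (f := fun z => area w i z ^ 2)
      ((hc.pow 2).intervalIntegrable _ _) ((hc.const_mul _).intervalIntegrable _ _),
    intervalIntegral.integral_const_mul, intervalIntegral.integral_const, integral_area hw i,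
    spread]
  simp

/-- The mean distance of the slice areas is controlled by that of a more spread function. -/
theorem flat_le_of_spread {a b : (Fin 3 → ℝ) → ℝ} (ha : Adm a) (hb : Adm b)
    (hm : mean b = mean a) {i : Fin 3} {δ κ : ℝ} (hv : v ∈ Icc (0 : ℝ) 1) (hκ : 0 < κ)
    (hs : spread a i ≤ spread b i + δ) (hb' : flat v b i + δ ≤ κ ^ 2) :
    flat v a i ≤ κ := by
  have hca := area_continuous ha i
  have hcb := area_continuous hb i
  have hQ : ∫ z in (0 : ℝ)..1, (area b i z - v) ^ 2 ≤ flat v b i := by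
    refine intervalIntegral.integral_mono_on zero_le_one
      (((hcb.sub continuous_const).pow 2).intervalIntegrable _ _)
      ((hcb.sub continuous_const).abs.intervalIntegrable _ _) fun z _ => ?_
    have hz : area b i z ∈ Icc (0 : ℝ) 1 := mean_mem (hb.slice i z)
    rw [← sq_abs, sq]
    exact mul_le_of_le_one_left (abs_nonneg _)
      (abs_le.2 ⟨by linarith [hz.1, hv.2], by linarith [hz.2, hv.1]⟩)
  rw [integral_sq_sub hb v i, hm] at hQ
  have hA := integral_sq_sub ha v i
  have hF : flat v a i ≤ ∫ z in (0 : ℝ)..1, (κ / 2 + 1 / (2 * κ) * (area a i z - v) ^ 2) := by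
    refine intervalIntegral.integral_mono_on zero_le_one
      ((hca.sub continuous_const).abs.intervalIntegrable _ _)
      ((continuous_const.add (((hca.sub continuous_const).pow 2).const_mul _)).intervalIntegrable
        _ _) fun z _ => ?_
    rw [← sub_nonneg]
    have e : κ / 2 + 1 / (2 * κ) * (area a i z - v) ^ 2 - |area a i z - v| =
        1 / (2 * κ) * (|area a i z - v| - κ) ^ 2 := by
      rw [← sq_abs (area a i z - v)]; field_simp; ring
    rw [e]
    positivity
  rw [intervalIntegral.integral_add (f := fun _ => κ / 2)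
    (g := fun z => 1 / (2 * κ) * (area a i z - v) ^ 2) intervalIntegrable_const
    ((((hca.sub continuous_const).pow 2).const_mul _).intervalIntegrable _ _),
    intervalIntegral.integral_const_mul, intervalIntegral.integral_const, hA, sub_zero,
    one_smul] at hF
  have hb2 : 1 / (2 * κ) * (spread a i - 2 * v * mean a + v ^ 2) ≤ 1 / (2 * κ) * κ ^ 2 :=
    mul_le_mul_of_nonneg_left (by linarith) (by positivity)
  have e2 : 1 / (2 * κ) * κ ^ 2 = κ / 2 := by field_simp
  linarith

/-- In the middle range some axis is flat. -/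
theorem exists_flat (hW : WindowFlat) (hS : SymSpread) (h : MinSeq v f u)
    (hv0 : 262 / 1000 ≤ v) (hv1 : v ≤ 365 / 1000) : ∃ i, Flat v f i := by
  choose w hw hsym hm hd hE hs using fun n : ℕ =>
    hS (u n) (h.adm n) (1 / (n + 1 : ℝ)) (by positivity)
  have key : ∀ κ : ℝ, 0 < κ → ∀ᶠ n in atTop, ∃ i, flat v (u n) i ≤ κ := by
    intro κ hκ
    obtain ⟨δ, hδ, hflat⟩ := hW v hv0 hv1 (κ ^ 2 / 2) (by positivity)
    filter_upwards [h.eventually_near (half_pos hδ),
      tendsto_one_div_add_atTop_nhds_zero_nat.eventually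
        (eventually_le_nhds (show (0 : ℝ) < min (δ / 2) (κ ^ 2 / 2) by positivity))]
      with n ⟨h1, h2, h3⟩ hn
    have hn1 := hn.trans (min_le_left _ _)
    have hn2 := hn.trans (min_le_right _ _)
    obtain ⟨i, hi⟩ := hflat (w n) (hw n) (hsym n) (by rw [hm n]; linarith)
      (by linarith [hd n]) (by linarith [hE n])
    exact ⟨i, flat_le_of_spread (h.adm n) (hw n) (hm n) ⟨by linarith, by linarith⟩ hκ (hs n i)
      (by linarith)⟩
  obtain ⟨i, hi⟩ : ∃ i, ∀ κ : ℝ, 0 < κ → ∃ᶠ n in atTop, flat v (u n) i ≤ κ := by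
    by_contra hno
    push Not at hno
    choose κ hκ hev using hno
    have hsmall := key (Finset.univ.inf' Finset.univ_nonempty κ)
      ((Finset.lt_inf'_iff _).2 fun i _ => hκ i)
    obtain ⟨n, ⟨i, hi⟩, hn⟩ := (hsmall.and (eventually_all.2 hev)).exists
    linarith [hn i, Finset.inf'_le κ (Finset.mem_univ i)]
  obtain ⟨φ, hφ, hle⟩ := extraction_forall_of_frequently
    (P := fun k n => flat v (u n) i ≤ 1 / (k + 1 : ℝ)) fun k => hi _ (by positivity)
  exact ⟨i, flat_of_one (h.comp hφ)
    (squeeze_zero (fun _ => flat_nonneg _ _ _) hle tendsto_one_div_add_atTop_nhds_zero_nat)⟩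

/-- In the middle range the cut with rate `7` is always allowed. -/
theorem cuttable_of_canCut {w : (Fin 3 → ℝ) → ℝ} {i : Fin 3} (hm : 259 / 1000 ≤ mean w)
    (h : CanCut (area w i) 7 (1 / 100)) : Cuttable w i := by
  have hs : Real.sqrt (1 / 100 : ℝ) = 1 / 10 := by
    rw [show (1 / 100 : ℝ) = (1 / 10) ^ 2 by norm_num, Real.sqrt_sq (by norm_num)]
  refine ⟨7, 1 / 100, by norm_num, by norm_num, by norm_num, ?_, ?_, h⟩
  · rw [hs]
    linarith [Real.one_le_sqrt.2 (show (1 : ℝ) ≤ Real.pi by linarith [Real.pi_gt_three])]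
  · have htp : canonical (mean w) ≤ tubePer (mean w) := (min_le_left _ _).trans (min_le_right _ _)
    have hsq : Real.sqrt (Real.pi * mean w) * (2 * (1 + 1 / 10 ^ 6)) ≤ 7 * mean w := by
      rw [← le_div_iff₀ (by norm_num), Real.sqrt_le_left (by positivity), div_pow,
        le_div_iff₀ (by norm_num)]
      have hp := Real.pi_lt_d4
      have h1 : Real.pi * mean w * (2 * (1 + 1 / 10 ^ 6)) ^ 2 ≤ 31416 / 10000 * mean w * (41 / 10) :=
        mul_le_mul (mul_le_mul_of_nonneg_right (by linarith) (by linarith)) (by norm_num)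
          (by positivity) (by linarith)
      nlinarith
    refine (mul_le_mul_of_nonneg_right htp (by norm_num)).trans (le_trans (le_of_eq ?_) hsq)
    unfold tubePer
    ring

/-- In the middle range an axis without cuts has no thin slice, so that it is flat. -/
theorem flat_of_window (hW : WindowFlat) (hS : SymSpread) (hRow : WindowRowStrict) (hI : InvFlat)
    (hO : OtherAxis) (h : MinSeq v f u) (hv0 : 262 / 1000 ≤ v) (hv1 : v ≤ 365 / 1000) {j : Fin 3}
    (hn : ∀ᶠ n in atTop, ¬ Cuttable (u n) j) : Flat v f j := by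
  obtain ⟨i, hi⟩ := exists_flat hW hS h hv0 hv1
  by_cases hij : i = j
  · exact hij ▸ hi
  have hcan : Tendsto (fun n => canonical (mean (u n))) atTop (𝓝 (canonical v)) :=
    (continuous_canonical.tendsto v).comp h.mean_tendsto
  have hthick : ∀ᶠ n in atTop, ∀ z, 16 / 10000 ≤ area (u n) j z := by
    filter_upwards [hn, h.eventually_near (show (0 : ℝ) < 1 / 10 ^ 10 by norm_num),
      hcan.eventually (eventually_ge_nhds
        (show canonical v - 1 / 10 ^ 10 < canonical v by linarith)),
      h.err_tendsto.eventually (eventually_le_nhds (show (0 : ℝ) < 1 / 10 ^ 10 by norm_num))]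
      with n hc ⟨h1, _, h3⟩ h4 h5
    by_contra hthin
    push Not at hthin
    obtain ⟨z, hz⟩ := hthin
    have hm := abs_le.1 h1
    have := hRow (u n) (h.adm n) j
      (fun hcc => hc (cuttable_of_canCut (by linarith) hcc))
      (by linarith) (by linarith) ⟨z, hz.le⟩
    linarith
  obtain ⟨N, hN⟩ := eventually_atTop.1 hthick
  have hφ : StrictMono fun n => n + N := fun a b hab => Nat.add_lt_add_right hab N
  have h' := h.comp hφ
  exact flat_of_one h' (hO v f _ h' (by linarith) i j hij (hI v f _ h' i (hi _ h')) _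
    (by norm_num) fun n z => hN (n + N) (Nat.le_add_left N n) z)

/-- An axis without cuts is flat, at every volume. -/
theorem flat_of_no_cut (hR : RowFlat) (hW : WindowFlat) (hS : SymSpread) (hRow : WindowRowStrict)
    (hI : InvFlat) (hO : OtherAxis) (h : MinSeq v f u) {i : Fin 3}
    (hn : ∀ᶠ n in atTop, ¬ Cuttable (u n) i) : Flat v f i := by
  by_cases hv : v < 262 / 1000 ∨ 365 / 1000 < v
  · exact flat_of_row hR h hv hn
  · push Not at hv
    exact flat_of_window hW hS hRow hI hO h hv.1 hv.2 hn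

/-- A minimising sequence may be taken with a gap across every axis which is not flat. -/
theorem exists_gaps (hR : RowFlat) (hW : WindowFlat) (hS : SymSpread) (hRow : WindowRowStrict)
    (hI : InvFlat) (hO : OtherAxis) (hL : Lower) (hC : CutStep) (h : MinSeq v f u) :
    ∃ w, MinSeq v f w ∧ ∀ i, ¬ Flat v f i → ∀ n, HasGap (w n) i := by
  suffices ∀ s : Finset (Fin 3), ∃ w, MinSeq v f w ∧
      ∀ i ∈ s, ¬ Flat v f i → ∀ n, HasGap (w n) i by
    obtain ⟨w, hw, hg⟩ := this Finset.univ
    exact ⟨w, hw, fun i => hg i (Finset.mem_univ i)⟩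
  intro s
  induction s using Finset.induction with
  | empty => exact ⟨u, h, by simp⟩
  | insert i s _ ih =>
    obtain ⟨w, hw, hg⟩ := ih
    by_cases hF : Flat v f i
    · refine ⟨w, hw, fun k hk hk' => ?_⟩
      rcases Finset.mem_insert.1 hk with rfl | hk
      exacts [absurd hF hk', hg k hk hk']
    have hfr : ∃ᶠ n in atTop, Cuttable (w n) i :=
      (not_eventually.1 fun hn => hF (flat_of_no_cut hR hW hS hRow hI hO hw hn)).mono
        fun n hn => not_not.1 hn
    obtain ⟨φ, hφ, hc⟩ := extraction_of_frequently_atTop hfr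
    obtain ⟨z, hz, hle, hgap⟩ := exists_cut hL hC (hw.comp hφ) hc
    refine ⟨z, hz, fun k hk hk' n => ?_⟩
    rcases Finset.mem_insert.1 hk with rfl | hk
    exacts [hgap n, HasGap.of_le (hz.adm n) (hle n) (hg k hk hk' (φ n))]

end Vale.Agent.P232.Classify
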