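import Vale.Agent.P232.Classify.BallProfile
import Vale.Agent.P232.Sobolev

/-!
# P232: gaps across all axes leave the second moment of a ball
-/

noncomputable section

open MeasureTheory Filter Topology Set Real

namespace Vale.Agent.P232.Classify

/-- A plane function with a band on both axes. -/
theorem plane_gaps {v : (Fin 2 → ℝ) → ℝ} (hv : Adm v)
    (hgap : ∀ k, ∃ a b : ℝ, a < b ∧ ∀ x : Fin 2 → ℝ, x k ∈ Ioo a b → v x = 0) :
    2 * Real.sqrt π * Real.sqrt (mean v - dfct v) ≤ energy v := by
  choose a b hab hzero using hgap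
  set c : Fin 2 → ℝ := fun i => (a i + b i) / 2 with hc
  obtain ⟨δ, hδ, hδle⟩ : ∃ δ > (0 : ℝ), ∀ i, δ ≤ (b i - a i) / 2 :=
    ⟨Finset.univ.inf' Finset.univ_nonempty fun i => (b i - a i) / 2,
      (Finset.lt_inf'_iff _).2 fun i _ => by linarith [hab i],
      fun i => Finset.inf'_le _ (Finset.mem_univ i)⟩
  set w := fun x => v (x + c) with hw
  have hwA : Adm w := hv.shift c
  obtain ⟨g, hg, hgs, hgnn, hgint, hggrad⟩ :=
    exists_ext hwA.smooth hwA.per (fun x => (hwA.mem x).1) hδ fun i x hx => by
      refine hzero i _ ?_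
      have h := hδle i
      rw [abs_lt] at hx
      simp only [mem_Ioo, Pi.add_apply, hc]
      constructor <;> linarith
  have h := sobolevPlane g hg hgs hgnn
  rw [hggrad, hgint (fun t => t ^ 2) (zero_pow two_ne_zero)] at h
  rw [← energy_shift hv c, ← mean_shift hv c, ← dfct_shift hv c]
  refine le_trans (le_of_eq ?_) h
  have i2 : IntegrableOn (fun x => w x * (1 - w x)) (box 2) :=
    integrableOn_box (hwA.smooth.continuous.mul (continuous_const.sub hwA.smooth.continuous))
  have i1 : IntegrableOn w (box 2) := integrableOn_box hwA.smooth.continuous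
  rw [mean, dfct, ← integral_sub (f := fun x => w x) (g := fun x => w x * (1 - w x)) i1 i2]
  congr 2
  refine setIntegral_congr_fun measurableSet_box fun x _ => ?_
  ring

theorem slice_gaps {u : (Fin 3 → ℝ) → ℝ} (hu : Adm u) (i : Fin 3)
    (hgap : ∀ k, k ≠ i → HasGap u k) (z : ℝ) :
    2 * Real.sqrt π * Real.sqrt (area u i z - dfct (slice u i z)) ≤ energy (slice u i z) := by
  refine plane_gaps (hu.slice i z) fun k => ?_
  obtain ⟨a, b, hab, h⟩ := hgap _ (Fin.succAbove_ne i k)
  exact ⟨a, b, hab, fun x hx => h _ (by rwa [Fin.insertNth_apply_succAbove])⟩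

/-- A slice of small measure sits in a gap. -/
theorem area_zero {u : (Fin 3 → ℝ) → ℝ} {i : Fin 3} (h : HasGap u i) : ∃ z, area u i z = 0 := by
  obtain ⟨a, b, hab, h⟩ := h
  refine ⟨(a + b) / 2, ?_⟩
  have e : ∀ y : Fin 2 → ℝ, u (i.insertNth ((a + b) / 2) y) = 0 := fun y =>
    h _ (by rw [Fin.insertNth_apply_same]; constructor <;> linarith)
  simp [area, mean, slice, e]

namespace Ball

/-- The reduced energy is at most the energy. -/
theorem rho_le {u : (Fin 3 → ℝ) → ℝ} (hu : Adm u) (i : Fin 3)
    (hgap : ∀ k, k ≠ i → HasGap u k) {s : ℝ} (hs : 0 < s) :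
    ∫ z in (0 : ℝ)..1, rho (area u i z) (slope u i z) ≤
      energy u + 2 * Real.sqrt π * (dfct u / (2 * s) + s / 2) := by
  set G : ℝ → ℝ := fun z => ∫ y in box 2, grad u (i.insertNth z y) with hG
  have hGc : Continuous G := continuous_sliceInt (continuous_grad hu.smooth) i
  have hdc := continuous_dfct_slice hu i
  have hsc : Continuous (slope u i) := continuous_sliceInt (continuous_pd hu.smooth i) i
  have hpt : ∀ z, rho (area u i z) (slope u i z) ≤
      G z + 2 * Real.sqrt π * (dfct (slice u i z) / (2 * s) + s / 2) := by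
    intro z
    have hS := hu.slice i z
    set d := dfct (slice u i z) with hd
    have hd0 : 0 ≤ d := dfct_nonneg hS
    set p := slope u i z with hp
    set F := 2 * Real.sqrt π * Real.sqrt (area u i z - d) with hF
    have hF0 : 0 ≤ F := by positivity
    have hci := ((continuous_pd hu.smooth i).comp (continuous_insert_fixed i z)).abs
    have hlin : ∀ {S T : ℝ}, 0 ≤ S → 0 ≤ T → S ^ 2 + T ^ 2 ≤ 1 → S * F + T * |p| ≤ G z := by
      intro S T hS0 hT0 hST
      refine le_trans (add_le_add (mul_le_mul_of_nonneg_left (slice_gaps hu i hgap z) hS0)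
        (mul_le_mul_of_nonneg_left abs_integral_le_integral_abs hT0)) ?_
      rw [energy, ← integral_const_mul, ← integral_const_mul,
        ← integral_add (integrableOn_box (f := fun y => S * grad (slice u i z) y)
            (continuous_const.mul (continuous_grad hS.smooth)))
          (integrableOn_box (f := fun y => T * |pd u i (i.insertNth z y)|)
            (continuous_const.mul hci))]
      exact setIntegral_box_mono ((continuous_const.mul (continuous_grad hS.smooth)).add
          (continuous_const.mul hci))
        ((continuous_grad hu.smooth).comp (continuous_insert_fixed i z))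
        fun y _ => split_le_grad hu i z y hS0 hT0 hST
    have hsum : Real.sqrt (F ^ 2 + p ^ 2) ≤ G z := by
      rcases eq_or_lt_of_le (Real.sqrt_nonneg (F ^ 2 + p ^ 2)) with h | h
      · rw [← h]; exact setIntegral_nonneg measurableSet_box fun y _ => grad_nonneg _ _
      set q := Real.sqrt (F ^ 2 + p ^ 2) with hq
      have hq2 : q ^ 2 = F ^ 2 + p ^ 2 := Real.sq_sqrt (by positivity)
      refine le_trans (le_of_eq ?_) (hlin (S := F / q) (T := |p| / q) (by positivity)
        (by positivity) (by
          rw [div_pow, div_pow, sq_abs, ← add_div, ← hq2, div_self (by positivity)]))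
      field_simp
      rw [hq2, sq_abs]
    have hd1 : Real.sqrt d ≤ d / (2 * s) + s / 2 := by
      rw [Real.sqrt_le_left (by positivity)]
      have := sq_nonneg (d / (2 * s) - s / 2)
      have e : (d / (2 * s)) * (s / 2) = d / 4 := by field_simp; ring
      nlinarith
    refine le_trans ?_ (add_le_add hsum (mul_le_mul_of_nonneg_left hd1 (by positivity)))
    rw [rho, Real.sqrt_le_left (by positivity)]
    have h1 := Real.sq_sqrt (show 0 ≤ F ^ 2 + p ^ 2 by positivity)
    have h2 : (2 * Real.sqrt π * Real.sqrt d) ^ 2 = 4 * π * d := by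
      rw [mul_pow, mul_pow, Real.sq_sqrt pi_nonneg, Real.sq_sqrt hd0]; ring
    have h3 : F ^ 2 = 4 * π * max 0 (area u i z - d) := by
      rw [hF, mul_pow, mul_pow, Real.sq_sqrt pi_nonneg]
      rcases le_total 0 (area u i z - d) with h | h
      · rw [Real.sq_sqrt h, max_eq_right h]; ring
      · rw [Real.sqrt_eq_zero'.2 h, max_eq_left h]; ring
    have h4 := mul_le_mul_of_nonneg_left (le_max_right 0 (area u i z - d))
      (show 0 ≤ 4 * π by positivity)
    have h5 := mul_nonneg (Real.sqrt_nonneg (F ^ 2 + p ^ 2))
      (show 0 ≤ 2 * Real.sqrt π * Real.sqrt d by positivity)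
    nlinarith
  have hrc : Continuous fun z => rho (area u i z) (slope u i z) :=
    continuous_rho (area_continuous hu i) hsc
  have i1 : IntervalIntegrable (fun z => dfct (slice u i z) / (2 * s)) volume 0 1 :=
    (hdc.div_const _).intervalIntegrable _ _
  have i2 : IntervalIntegrable
      (fun z => 2 * Real.sqrt π * (dfct (slice u i z) / (2 * s) + s / 2)) volume 0 1 :=
    (i1.add intervalIntegrable_const).const_mul _
  refine (intervalIntegral.integral_mono_on zero_le_one (hrc.intervalIntegrable _ _)
    ((hGc.intervalIntegrable _ _).add i2) fun z _ => hpt z).trans_eq ?_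
  rw [intervalIntegral.integral_add (hGc.intervalIntegrable _ _) i2,
    intervalIntegral.integral_const_mul, intervalIntegral.integral_add i1 intervalIntegrable_const,
    intervalIntegral.integral_div, integral_dfct_slice hu i, energy,
    integral_box_succ (continuous_grad hu.smooth) i]
  simp [hG]

theorem ballPer_eq {r : ℝ} (hr : 0 ≤ r) : ballPer (4 / 3 * π * r ^ 3) = 4 * π * r ^ 2 := by
  rw [ballPer, show (2 / 3 : ℝ) = ((2 : ℕ) : ℝ) * (1 / 3) by norm_num,
    Real.rpow_mul (by positivity), Real.rpow_natCast, ← Real.mul_rpow (by positivity) (by positivity),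
    show 36 * π * (4 / 3 * π * r ^ 3) ^ 2 = (4 * π * r ^ 2) ^ 3 by ring, one_div]
  exact Real.pow_rpow_inv_natCast (by positivity) (by norm_num)

theorem continuous_cap (r : ℝ) : Continuous (cap r) := by unfold cap; fun_prop

/-- The second moment of the profile of a ball. -/
theorem integral_cap_moment {r c : ℝ} (hr : 0 ≤ r) (hr2 : r ≤ 1 / 2) :
    ∫ z in (0 : ℝ)..1, circDist (z - c) ^ 2 * cap r (circDist (z - c)) =
      4 / 15 * π * r ^ 5 := by
  set h : ℝ → ℝ := fun t => circDist t ^ 2 * cap r (circDist t) with hh
  have hhc : Continuous h :=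
    (continuous_circDist.pow 2).mul ((continuous_cap r).comp continuous_circDist)
  have hper : Function.Periodic h 1 := fun t => by
    simp only [hh]
    rw [show t + 1 = t + ((1 : ℤ) : ℝ) by norm_num, circDist_add_int]
  have e0 : ∫ z in (0 : ℝ)..1, circDist (z - c) ^ 2 * cap r (circDist (z - c)) =
      ∫ z in (0 : ℝ)..1, h z := by
    rw [intervalIntegral.integral_comp_sub_right h c]
    simpa [sub_eq_neg_add] using hper.intervalIntegral_add_eq (-c) 0
  have i : ∀ p q, IntervalIntegrable h volume p q := fun p q => hhc.intervalIntegrable p q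
  have e1 : ∫ z in (1 / 2 : ℝ)..1, h z = ∫ z in (0 : ℝ)..(1 / 2), h z := by
    have e : ∀ z, h (1 - z) = h z := fun z => by
      simp only [hh]
      rw [show 1 - z = -z + ((1 : ℤ) : ℝ) by push_cast; ring, circDist_add_int, circDist_neg]
    have := intervalIntegral.integral_comp_sub_left (a := (1 / 2 : ℝ)) (b := 1) h 1
    simp only [e] at this
    rw [this]
    norm_num
  have e2 : ∫ z in (0 : ℝ)..(1 / 2), h z = ∫ z in (0 : ℝ)..r, π * (r ^ 2 * z ^ 2 - z ^ 4) := by
    rw [← intervalIntegral.integral_add_adjacent_intervals (i 0 r) (i r (1 / 2))]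
    have z0 : ∫ z in r..(1 / 2 : ℝ), h z = 0 := by
      rw [intervalIntegral.integral_congr (g := fun _ => (0 : ℝ)) fun z hz => by
        rw [uIcc_of_le hr2] at hz
        simp only [hh]
        rw [circDist_of_mem ⟨hr.trans hz.1, hz.2⟩, cap,
          max_eq_left (by nlinarith [hz.1]), mul_zero, mul_zero]]
      simp
    rw [z0, add_zero]
    refine intervalIntegral.integral_congr fun z hz => ?_
    rw [uIcc_of_le hr] at hz
    simp only [hh]
    rw [circDist_of_mem ⟨hz.1, hz.2.trans hr2⟩, cap, max_eq_right (by nlinarith [hz.1, hz.2])]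
    ring
  have j1 : IntervalIntegrable (fun z : ℝ => r ^ 2 * z ^ 2) volume 0 r :=
    (continuous_const.mul (continuous_pow 2)).intervalIntegrable _ _
  rw [e0, ← intervalIntegral.integral_add_adjacent_intervals (i 0 (1 / 2)) (i (1 / 2) 1), e1, e2,
    intervalIntegral.integral_const_mul, intervalIntegral.integral_sub j1
      ((continuous_pow 4).intervalIntegrable _ _),
    intervalIntegral.integral_const_mul, integral_pow, integral_pow]
  ring

end Ball

/-- Gaps across all axes leave the moment of a ball. -/
theorem ballMoment : BallMoment := by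
  intro v f u h hgap
  set r := (3 * v / (4 * π)) ^ (1 / 3 : ℝ) with hrdef
  have hv := h.v_pos
  have hr : 0 < r := Real.rpow_pos_of_pos (by positivity) _
  have hvr : v = 4 / 3 * π * r ^ 3 := by
    rw [hrdef, one_div, ← Real.rpow_natCast _ 3, ← Real.rpow_mul (by positivity)]
    norm_num
    field_simp
  have hball : ballPer v = 4 * π * r ^ 2 := by rw [hvr, Ball.ballPer_eq hr.le]
  -- close profiles on every axis
  have key : ∀ (i : Fin 3) (ε : ℝ), 0 < ε → 4 * π * r ^ 2 ≤ canonical v + ε ∧ r ≤ 1 / 2 + ε ∧
      ∃ n, ∫ x in box 3, |u n x - f x| ≤ ε ∧ ∃ c ∈ Icc (0 : ℝ) 1,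
        ∀ z, |area (u n) i z - cap r (circDist (z - c))| ≤ ε := by
    intro i ε hε
    obtain ⟨δ, hδ, H⟩ := Ball.line_ball hr (half_pos hε)
    set e := min δ (ε / 2) / 2 with he
    have he0 : 0 < e := half_pos (lt_min hδ (half_pos hε))
    have heδ : 2 * e ≤ δ := by linarith [min_le_left δ (ε / 2)]
    have heε : 2 * e ≤ ε / 2 := by linarith [min_le_right δ (ε / 2)]
    set s := e / (2 * Real.sqrt π) with hs
    have hs0 : 0 < s := by positivity
    have hd : ∀ᶠ n in atTop, dfct (u n) ≤ s ^ 2 :=
      h.dfct_tendsto.eventually_le_const (by positivity)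
    have hm : ∀ᶠ n in atTop, |mean (u n) - v| ≤ δ :=
      Filter.Tendsto.eventually_le_const hδ (show Tendsto (fun n => |mean (u n) - v|) atTop (𝓝 0) by
        simpa using (h.mean_tendsto.sub_const v).abs)
    have hl : ∀ᶠ n in atTop, ∫ x in box 3, |u n x - f x| ≤ ε := h.lim.eventually_le_const hε
    obtain ⟨n, hd, hm, hl, hE⟩ := (hd.and (hm.and (hl.and (h.energy_le e he0)))).exists
    have hA := h.adm n
    have hρ := Ball.rho_le hA i (fun k _ => hgap n k) hs0
    have hs2 : dfct (u n) / (2 * s) ≤ s / 2 := by
      rw [div_le_iff₀ (by positivity)]; linarith [hd]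
    have hse : 2 * Real.sqrt π * s = e := by rw [hs]; field_simp
    have hρ' : ∫ z in (0 : ℝ)..1, Ball.rho (area (u n) i z) (slope (u n) i z) ≤
        canonical v + 2 * e := by
      have := mul_le_mul_of_nonneg_left (add_le_add hs2 (le_refl (s / 2)))
        (show 0 ≤ 2 * Real.sqrt π by positivity)
      rw [add_halves, hse] at this
      linarith
    obtain ⟨h1, h2, c, hc, h3⟩ := H (area (u n) i) (slope (u n) i) (hasDerivAt_area hA i)
      (continuous_sliceInt (continuous_pd hA.smooth i) i) (area_periodic hA i)
      (fun z => (mean_mem (hA.slice i z)).1) (area_zero (hgap n i))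
      (by rw [integral_area hA i, ← hvr]; exact hm)
      (hρ'.trans (by linarith [show canonical v ≤ ballPer v from (min_le_left _ _).trans (min_le_left _ _)]))
    refine ⟨?_, h2.trans (by linarith), n, hl, c, hc, fun z => (h3 z).trans (by linarith)⟩
    linarith
  have hcan : ballPer v = canonical v := le_antisymm
    (le_of_forall_pos_le_add fun ε hε => hball ▸ (key 0 ε hε).1) ((min_le_left _ _).trans (min_le_left _ _))
  have hr2 : r ≤ 1 / 2 := le_of_forall_pos_le_add fun ε hε => (key 0 ε hε).2.1
  -- a best centre on every axis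
  have hJ : ∀ i, ∃ c, ∫ x in box 3, f x * circDist (x i - c) ^ 2 ≤ 4 / 15 * π * r ^ 5 := by
    intro i
    set J : ℝ → ℝ := fun c => ∫ x in box 3, f x * circDist (x i - c) ^ 2 with hJdef
    have hk : ∀ c, Continuous fun x : Fin 3 → ℝ => circDist (x i - c) ^ 2 := fun c =>
      (continuous_circDist.comp ((continuous_apply i).sub continuous_const)).pow 2
    have hb : ∀ t : ℝ, circDist t ^ 2 ∈ Icc (0 : ℝ) 1 := fun t =>
      ⟨sq_nonneg _, by nlinarith [(circDist_mem t).1, (circDist_mem t).2]⟩
    have hJc : Continuous J := by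
      refine continuous_of_dominated (bound := fun _ => (1 : ℝ))
        (fun c => h.meas.aestronglyMeasurable.mul (hk c).aestronglyMeasurable)
        (fun c => ae_of_all _ fun x => ?_) (integrableOn_box continuous_const)
        (ae_of_all _ fun x => continuous_const.mul
          ((continuous_circDist.comp (continuous_const.sub continuous_id)).pow 2))
      obtain ⟨a, b⟩ := h.mem_Icc x
      obtain ⟨p, q⟩ := hb (x i - c)
      rw [Real.norm_eq_abs, abs_of_nonneg (mul_nonneg a p)]
      exact mul_le_one₀ b p q
    obtain ⟨c₀, -, hmin⟩ := (isCompact_Icc (a := (0 : ℝ)) (b := 1)).exists_isMinOn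
      (nonempty_Icc.2 zero_le_one) hJc.continuousOn
    refine ⟨c₀, le_of_forall_pos_le_add fun ε hε => ?_⟩
    obtain ⟨-, -, n, hl, c, hc, hz⟩ := key i (ε / 2) (half_pos hε)
    have hA := h.adm n
    have iU : IntegrableOn (fun x => u n x * circDist (x i - c) ^ 2) (box 3) :=
      integrableOn_box (hA.smooth.continuous.mul (hk c))
    have iF : IntegrableOn (fun x => f x * circDist (x i - c) ^ 2) (box 3) :=
      integrableOn_mul_of_bounded (hk c) h.meas h.mem_Icc
    have h1 : J c ≤ (∫ x in box 3, u n x * circDist (x i - c) ^ 2) + ε / 2 := by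
      rw [← sub_le_iff_le_add', hJdef]
      dsimp only
      rw [← integral_sub iF iU]
      refine (setIntegral_mono_on (iF.sub iU) (h.integrableOn_diff n) measurableSet_box
        fun x _ => ?_).trans hl
      obtain ⟨p, q⟩ := hb (x i - c)
      have h3 := mul_le_mul_of_nonneg_right (le_abs_self (f x - u n x)) p
      have h4 := mul_le_of_le_one_right (abs_nonneg (f x - u n x)) q
      show f x * circDist (x i - c) ^ 2 - u n x * circDist (x i - c) ^ 2 ≤ |u n x - f x|
      rw [abs_sub_comm (u n x)]
      linarith
    have hψ : Continuous fun t => circDist (t - c) ^ 2 :=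
      (continuous_circDist.comp (continuous_id.sub continuous_const)).pow 2
    have e : ∫ x in box 3, u n x * circDist (x i - c) ^ 2 =
        ∫ z in (0 : ℝ)..1, circDist (z - c) ^ 2 * area (u n) i z := by
      rw [setIntegral_congr_fun measurableSet_box fun x _ => mul_comm (u n x) _,
        Cut.integral_axis hA.smooth.continuous hψ i]
      rfl
    have hcapc : Continuous fun z => cap r (circDist (z - c)) :=
      (Ball.continuous_cap r).comp (continuous_circDist.comp (continuous_id.sub continuous_const))
    have j1 : IntervalIntegrable (fun z => circDist (z - c) ^ 2 * area (u n) i z) volume 0 1 :=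
      (hψ.mul (area_continuous hA i)).intervalIntegrable 0 1
    have j2 : IntervalIntegrable
        (fun z => circDist (z - c) ^ 2 * cap r (circDist (z - c))) volume 0 1 :=
      (hψ.mul hcapc).intervalIntegrable 0 1
    have h2 := intervalIntegral.integral_mono_on zero_le_one j1
      (j2.add (intervalIntegrable_const (c := ε / 2)))
      fun z _ => (show circDist (z - c) ^ 2 * area (u n) i z ≤
          circDist (z - c) ^ 2 * cap r (circDist (z - c)) + ε / 2 by
        obtain ⟨p, q⟩ := hb (z - c)
        nlinarith [(abs_le.1 (hz z)).2])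
    rw [intervalIntegral.integral_add
      (f := fun z => circDist (z - c) ^ 2 * cap r (circDist (z - c))) (g := fun _ => ε / 2)
      j2 intervalIntegrable_const,
      Ball.integral_cap_moment hr.le hr2] at h2
    simp only [intervalIntegral.integral_const, sub_zero, one_smul] at h2
    have h0 : J c₀ ≤ J c := hmin hc
    rw [e] at h1
    linarith
  choose c hc using hJ
  refine ⟨hcan, r, c, hr, hr2, hvr, ?_⟩
  have hi : ∀ i, Integrable (fun x => f x * circDist (x i - c i) ^ 2) (volume.restrict (box 3)) :=
    fun i => integrableOn_mul_of_bounded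
      ((continuous_circDist.comp ((continuous_apply i).sub continuous_const)).pow 2) h.meas h.mem_Icc
  simp only [Finset.mul_sum]
  rw [integral_finsetSum _ fun i _ => hi i]
  refine (Finset.sum_le_sum fun i _ => hc i).trans_eq ?_
  simp
  ring

end Vale.Agent.P232.Classify
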