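import Vale.Agent.P232.Classify.ProfileLine
import Vale.Agent.P232.Symm.Kernel

/-!
# P232: a near equality in the calibration of the profile of a ball
-/

noncomputable section

open MeasureTheory Filter Topology Set Real

namespace Vale.Agent.P232.Classify

/-- The area of the slice of a ball of radius `r` at the distance `t` from the centre. -/
def cap (r t : ℝ) : ℝ := π * max 0 (r ^ 2 - t ^ 2)

namespace Ball

/-- A half profile of the ball, continued by constants. -/
def bump (r t : ℝ) : ℝ := π * (r ^ 2 - max 0 (min r t) ^ 2)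

/-- The weight across the slices. -/
def wt (M x : ℝ) : ℝ := Real.sqrt (1 - x / M)

/-- The density of the reduced energy. -/
def rho (x p : ℝ) : ℝ := Real.sqrt (4 * π * x + p ^ 2)

/-- The calibration. -/
def tang (M x p : ℝ) : ℝ := 2 * Real.sqrt π / Real.sqrt M * x + wt M x * |p|

/-- The defect of the calibration. -/
def cross (M x p : ℝ) : ℝ := wt M x * (2 * Real.sqrt (π * x)) - Real.sqrt (x / M) * |p|

theorem tang_cross {M x : ℝ} (p : ℝ) (hM : 0 < M) (hx : 0 ≤ x) (hxM : x ≤ M) :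
    tang M x p ^ 2 + cross M x p ^ 2 = rho x p ^ 2 := by
  have hw : wt M x ^ 2 = 1 - x / M := Real.sq_sqrt (by rw [sub_nonneg, div_le_one hM]; exact hxM)
  have hs : Real.sqrt (x / M) ^ 2 = x / M := Real.sq_sqrt (by positivity)
  have hF : (2 * Real.sqrt (π * x)) ^ 2 = 4 * π * x := by
    rw [mul_pow, Real.sq_sqrt (by positivity)]; ring
  have ht : 2 * Real.sqrt π / Real.sqrt M * x = Real.sqrt (x / M) * (2 * Real.sqrt (π * x)) := by
    rw [Real.sqrt_div hx, Real.sqrt_mul pi_nonneg]
    linear_combination (-(2 * Real.sqrt π) / Real.sqrt M) * Real.sq_sqrt hx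
  rw [tang, cross, ht, rho, Real.sq_sqrt (by positivity)]
  linear_combination ((2 * Real.sqrt (π * x)) ^ 2 + |p| ^ 2) * (hw + hs) + hF + sq_abs p

theorem tang_le {M x : ℝ} (p : ℝ) (hM : 0 < M) (hx : 0 ≤ x) (hxM : x ≤ M) :
    tang M x p ≤ rho x p := by
  have hT : 0 ≤ tang M x p := by unfold tang wt; positivity
  nlinarith [tang_cross p hM hx hxM, sq_nonneg (cross M x p),
    show 0 ≤ rho x p from Real.sqrt_nonneg _]

/-- The defect of the calibration is small with its loss. -/
theorem abs_cross_le {M x : ℝ} (p : ℝ) (hM : 0 < M) (hx : 0 ≤ x) (hxM : x ≤ M) {k : ℝ}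
    (hk : 0 < k) : |cross M x p| ≤ k * rho x p + (rho x p - tang M x p) / k := by
  have h1 := tang_cross p hM hx hxM
  have hρ : 0 ≤ rho x p := Real.sqrt_nonneg _
  have h2 := sub_nonneg.2 (tang_le p hM hx hxM)
  have hA := mul_nonneg hk.le hρ
  have hB : 0 ≤ (rho x p - tang M x p) / k := div_nonneg h2 hk.le
  refine abs_le_of_sq_le_sq ?_ (by positivity)
  have hAB : k * rho x p * ((rho x p - tang M x p) / k) = rho x p * (rho x p - tang M x p) := by
    field_simp
  nlinarith [sq_nonneg (k * rho x p), sq_nonneg ((rho x p - tang M x p) / k),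
    sq_nonneg (rho x p - tang M x p)]

variable {b b' : ℝ → ℝ} {M : ℝ}

theorem continuous_wt (hb : Continuous b) : Continuous fun z => wt M (b z) :=
  Real.continuous_sqrt.comp (continuous_const.sub (hb.div_const M))

theorem continuous_rho (hb : Continuous b) (hb' : Continuous b') :
    Continuous fun z => rho (b z) (b' z) :=
  Real.continuous_sqrt.comp ((continuous_const.mul hb).add (hb'.pow 2))

theorem continuous_tang (hb : Continuous b) (hb' : Continuous b') :
    Continuous fun z => tang M (b z) (b' z) :=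
  (continuous_const.mul hb).add ((continuous_wt hb).mul hb'.abs)

/-- The signed variation with the weight. -/
theorem ascent (hd : ∀ z, HasDerivAt b (b' z) z) (hc : Continuous b')
    (hM : 0 < M) (p q : ℝ) : ∫ z in p..q, wt M (b z) * b' z =
      2 * M / 3 * ((1 - b p / M) ^ (3 / 2 : ℝ) - (1 - b q / M) ^ (3 / 2 : ℝ)) := by
  have hbc : Continuous b := continuous_iff_continuousAt.2 fun z => (hd z).continuousAt
  have h : ∀ z, HasDerivAt (fun z => -(2 * M / 3) * (1 - b z / M) ^ (3 / 2 : ℝ))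
      (wt M (b z) * b' z) z := fun z => by
    have := ((((hd z).div_const M).const_sub 1).rpow_const (p := (3 / 2 : ℝ))
      (Or.inr (by norm_num))).const_mul (-(2 * M / 3))
    refine this.congr_deriv ?_
    rw [show (3 / 2 : ℝ) - 1 = 1 / 2 by norm_num, ← Real.sqrt_eq_rpow, wt]
    field_simp
  rw [intervalIntegral.integral_eq_sub_of_hasDerivAt (fun z _ => h z)
    (((continuous_wt hbc).mul hc).intervalIntegrable _ _)]
  ring

/-- The reduced energy, taken apart. -/
theorem calib (hd : ∀ z, HasDerivAt b (b' z) z) (hc : Continuous b')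
    (h0 : b 0 = 0) (h1 : b 1 = 0) {m : ℝ} (hm : b m = M) (hM : 0 < M) :
    2 * Real.sqrt π / Real.sqrt M * (∫ z in (0 : ℝ)..1, b z) + 4 * M / 3 +
        (∫ z in (0 : ℝ)..1, (rho (b z) (b' z) - tang M (b z) (b' z))) +
        (∫ z in (0 : ℝ)..m, wt M (b z) * (|b' z| - b' z)) +
        (∫ z in m..1, wt M (b z) * (|b' z| + b' z)) =
      ∫ z in (0 : ℝ)..1, rho (b z) (b' z) := by
  have hbc : Continuous b := continuous_iff_continuousAt.2 fun z => (hd z).continuousAt
  have iA : ∀ p q, IntervalIntegrable (fun z => wt M (b z) * |b' z|) volume p q :=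
    fun p q => ((continuous_wt hbc).mul hc.abs).intervalIntegrable p q
  have iB : ∀ p q, IntervalIntegrable (fun z => wt M (b z) * b' z) volume p q :=
    fun p q => ((continuous_wt hbc).mul hc).intervalIntegrable p q
  have iC : ∀ p q, IntervalIntegrable (fun z => 2 * Real.sqrt π / Real.sqrt M * b z) volume p q :=
    fun p q => (continuous_const.mul hbc).intervalIntegrable p q
  simp only [mul_sub, mul_add]
  rw [intervalIntegral.integral_sub ((continuous_rho hbc hc).intervalIntegrable _ _)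
      ((continuous_tang hbc hc).intervalIntegrable _ _),
    intervalIntegral.integral_sub (iA 0 m) (iB 0 m), intervalIntegral.integral_add (iA m 1) (iB m 1),
    ascent hd hc hM, ascent hd hc hM, h0, h1, hm]
  simp only [tang]
  rw [intervalIntegral.integral_add (iC 0 1) (iA 0 1),
    ← intervalIntegral.integral_add_adjacent_intervals (iA 0 m) (iA m 1),
    intervalIntegral.integral_const_mul]
  rw [zero_div, sub_zero, div_self hM.ne', sub_self, Real.one_rpow,
    Real.zero_rpow (by norm_num)]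
  ring

theorem min_max_sub {r x : ℝ} (h0 : 0 ≤ x) {η : ℝ} (hη : 0 ≤ η) (h : x ≤ r + η) :
    |x - max 0 (min r x)| ≤ η := by
  rcases le_total r x with h' | h'
  · rw [min_eq_left h', abs_le]
    rcases max_choice 0 r with e | e <;> rw [e] <;> constructor <;>
      linarith [le_max_left 0 r, le_max_right 0 r]
  · rw [min_eq_right h', max_eq_right h0]
    simpa using hη

/-- Where the radius keeps off both ends its derivative is near one. -/
theorem pointwise {r r₀ σ q x R : ℝ} (p : ℝ) (hr : 0 < r) (hq0 : 0 < q) (hσ : 0 < σ)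
    (hσr : σ < r / 4) (hr₀ : 0 < r₀) (hrr : |r₀ - r| ≤ σ / 2) (hx : 0 ≤ x)
    (hxM : x ≤ π * r₀ ^ 2) (hR : R = Real.sqrt (r₀ ^ 2 - x / π)) (hzσ : σ ≤ R)
    (hzr : R ≤ r - σ) :
    |1 - -p / (2 * π * R)| ≤
      (q * rho x p + (rho x p - tang (π * r₀ ^ 2) x p) / q) /
          (π * Real.sqrt (σ * r) * σ / (2 * r)) +
        r / (π * σ ^ 2) * (wt (π * r₀ ^ 2) x * (|p| + p)) := by
  obtain ⟨hr1, hr2⟩ := abs_le.1 hrr
  set M := π * r₀ ^ 2 with hMdef
  have hM : 0 < M := by positivity
  set κ := π * Real.sqrt (σ * r) * σ / (2 * r) with hκ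
  have hκ0 : 0 < κ := by positivity
  have hR2 : R ^ 2 = r₀ ^ 2 - x / π := by
    rw [hR, Real.sq_sqrt]
    rw [sub_nonneg, div_le_iff₀ pi_pos]; linarith
  have hRz := hσ.trans_le hzσ
  have hb : x = π * (r₀ ^ 2 - R ^ 2) := by rw [hR2]; field_simp; ring
  have hlow : σ * r / 4 ≤ r₀ ^ 2 - R ^ 2 := by nlinarith
  have hw : wt M x = R / r₀ := by
    rw [wt, ← Real.sqrt_sq (div_nonneg hRz.le hr₀.le)]
    congr 1; rw [hMdef, hb]; field_simp; ring
  have hs : Real.sqrt (x / M) = Real.sqrt x / (Real.sqrt π * r₀) := by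
    rw [Real.sqrt_div hx, hMdef, Real.sqrt_mul pi_nonneg, Real.sqrt_sq hr₀.le]
  set A := 2 * Real.sqrt π * Real.sqrt x * R / r₀ with hA
  have hU : cross M x p = A * (1 - |p| / (2 * π * R)) := by
    rw [cross, hw, hs, Real.sqrt_mul pi_nonneg, hA]
    have : (Real.sqrt π) ^ 2 = π := Real.sq_sqrt pi_nonneg
    field_simp
    rw [this]
    ring
  have hκA : κ ≤ A := by
    have h1 : Real.sqrt π * (Real.sqrt (σ * r) / 2) ≤ Real.sqrt x := by
      rw [hb, Real.sqrt_mul pi_nonneg]
      refine mul_le_mul_of_nonneg_left ?_ (Real.sqrt_nonneg _)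
      rw [Real.le_sqrt (by positivity) (by nlinarith), div_pow, Real.sq_sqrt (by positivity)]
      linarith
    calc κ = 2 * Real.sqrt π * (Real.sqrt π * (Real.sqrt (σ * r) / 2)) * σ / (2 * r) := by
          rw [hκ]
          linear_combination (-(Real.sqrt (σ * r) * σ) / (2 * r)) * Real.sq_sqrt pi_nonneg
      _ ≤ A := div_le_div₀ (by positivity) (mul_le_mul (mul_le_mul_of_nonneg_left h1
          (by positivity)) hzσ hσ.le (by positivity)) hr₀ (by linarith)
  have h1 : |1 - |p| / (2 * π * R)| ≤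
      (q * rho x p + (rho x p - tang M x p) / q) / κ := by
    rw [le_div_iff₀ hκ0, mul_comm]
    refine le_trans ?_ (abs_cross_le p hM hx hxM hq0)
    rw [hU, abs_mul, abs_of_pos (hκ0.trans_le hκA)]
    exact mul_le_mul_of_nonneg_right hκA (abs_nonneg _)
  have h2 : (|p| + p) / (2 * π * R) ≤
      r / (π * σ ^ 2) * (wt M x * (|p| + p)) := by
    have h3 : 0 ≤ |p| + p := by linarith [neg_abs_le p]
    rw [hw, show r / (π * σ ^ 2) * (R / r₀ * (|p| + p)) =
      r / (π * σ ^ 2) * (R / r₀) * (|p| + p) by ring, div_eq_inv_mul]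
    refine mul_le_mul_of_nonneg_right ?_ h3
    rw [div_mul_div_comm, inv_eq_one_div, div_le_div_iff₀ (by positivity) (by positivity)]
    calc 1 * (π * σ ^ 2 * r₀) = π * (σ ^ 2 * r₀) := by ring
      _ ≤ π * (R ^ 2 * (2 * r)) := mul_le_mul_of_nonneg_left
          (mul_le_mul (pow_le_pow_left₀ hσ.le hzσ 2) (by linarith) hr₀.le (sq_nonneg _)) pi_nonneg
      _ = r * R * (2 * π * R) := by ring
  have h3 : 1 - (-p / (2 * π * R)) = (1 - |p| / (2 * π * R)) + (|p| + p) / (2 * π * R) := by
    ring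
  rw [h3]
  refine (abs_add_le _ _).trans (add_le_add h1 ?_)
  rwa [abs_of_nonneg (div_nonneg (by linarith [neg_abs_le p]) (by positivity))]

/-- Closeness of the radii gives closeness of the areas. -/
theorem bump_close {r ε r₀ q x R t : ℝ} (hr : 0 < r) (hεr : ε ≤ r) (hr₀ : 0 < r₀) (hq : 0 ≤ q)
    (hqε : q ≤ ε) (hrr : |r₀ - r| ≤ q) (hx : 0 ≤ x) (hxM : x ≤ π * r₀ ^ 2)
    (hR : R = Real.sqrt (r₀ ^ 2 - x / π))
    (h : |max 0 (min r R) - max 0 (min r t)| ≤ ε) : |x - bump r t| ≤ 9 * π * r * ε := by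
  obtain ⟨hr1, hr2⟩ := abs_le.1 hrr
  have hR2 : R ^ 2 = r₀ ^ 2 - x / π := by
    rw [hR, Real.sq_sqrt]
    rw [sub_nonneg, div_le_iff₀ pi_pos]; linarith
  have hR0 : 0 ≤ R := hR ▸ Real.sqrt_nonneg _
  have hRr : R ≤ r₀ := hR ▸ (Real.sqrt_le_left hr₀.le).2 (by linarith [div_nonneg hx pi_nonneg])
  set c := max 0 (min r t) with hcdef
  have hc0 : 0 ≤ c := le_max_left _ _
  have hcr : c ≤ r := max_le hr.le (min_le_left _ _)
  have hRc' : |R - c| ≤ 2 * ε := by
    have h3 := min_max_sub hR0 hq (hRr.trans (by linarith : r₀ ≤ r + q))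
    linarith [abs_sub_le R (max 0 (min r R)) c]
  have e : x - bump r t = π * ((r₀ - r) * (r₀ + r) - (R - c) * (R + c)) := by
    rw [bump, ← hcdef]
    field_simp at hR2 ⊢
    linear_combination hR2
  rw [e, abs_mul, abs_of_pos pi_pos]
  refine le_trans (mul_le_mul_of_nonneg_left
    (?_ : _ ≤ ε * (3 * r) + 2 * ε * (3 * r)) pi_nonneg) (le_of_eq (by ring))
  refine (abs_sub _ _).trans (add_le_add ?_ ?_) <;> rw [abs_mul]
  · refine mul_le_mul (hrr.trans hqε) ?_ (abs_nonneg _) (hq.trans hqε)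
    rw [abs_of_pos (by linarith)]; linarith
  · refine mul_le_mul hRc' ?_ (abs_nonneg _) (by linarith)
    rw [abs_of_nonneg (by linarith)]
    linarith

/-- On the falling side a near equality follows the profile of the ball. -/
theorem side {r : ℝ} (hr : 0 < r) {ε : ℝ} (hε : 0 < ε) (hεr : ε ≤ r) :
    ∃ η, 0 < η ∧ η ≤ 1 ∧ Real.sqrt η ≤ ε ∧ ∀ (b b' : ℝ → ℝ) (m r₀ : ℝ),
      (∀ z, HasDerivAt b (b' z) z) → Continuous b' → (∀ z, 0 ≤ b z) →
      (∀ z, b z ≤ π * r₀ ^ 2) → m ∈ Icc (0 : ℝ) 1 → b m = π * r₀ ^ 2 → b 1 = 0 →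
      0 < r₀ → |r₀ - r| ≤ Real.sqrt η →
      ∫ z in (0 : ℝ)..1, rho (b z) (b' z) ≤ 4 * π * r ^ 2 + 1 →
      ∫ z in m..1, (rho (b z) (b' z) - tang (π * r₀ ^ 2) (b z) (b' z)) ≤ η →
      ∫ z in m..1, wt (π * r₀ ^ 2) (b z) * (|b' z| + b' z) ≤ η →
      ∃ L, 0 ≤ L ∧ L + r ≤ 1 - m + ε ∧
        ∀ z ∈ Icc m 1, |b z - bump r (z - m - L)| ≤ 9 * π * r * ε := by
  obtain ⟨σ, δ, hσ, hσr, hδ, hP⟩ := profileLine r hr ε hε
  set κ := π * Real.sqrt (σ * r) * σ / (2 * r) with hκ
  have hκ0 : 0 < κ := by positivity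
  set K := (4 * π * r ^ 2 + 2) / κ + r / (π * σ ^ 2) with hK
  have hK0 : 0 < K := by positivity
  set q := min (min 1 (σ / 2)) (min ε (δ / K)) with hq
  have hq0 : 0 < q := lt_min (lt_min one_pos (by linarith)) (lt_min hε (by positivity))
  have hq1 : q ≤ 1 := (min_le_left _ _).trans (min_le_left _ _)
  have hqσ : q ≤ σ / 2 := (min_le_left _ _).trans (min_le_right _ _)
  have hqε : q ≤ ε := (min_le_right _ _).trans (min_le_left _ _)
  have hqδ : q ≤ δ / K := (min_le_right _ _).trans (min_le_right _ _)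
  have hsq : Real.sqrt (q ^ 2) = q := Real.sqrt_sq hq0.le
  refine ⟨q ^ 2, by positivity, by nlinarith, hsq.trans_le hqε, ?_⟩
  intro b b' m r₀ hd hc hb0 hbM hm hbm hb1 hr₀ hrr hE hD hX
  rw [hsq] at hrr
  obtain ⟨hr1, hr2⟩ := abs_le.1 hrr
  set M := π * r₀ ^ 2 with hMdef
  have hM : 0 < M := by positivity
  have hbc : Continuous b := continuous_iff_continuousAt.2 fun z => (hd z).continuousAt
  set R : ℝ → ℝ := fun z => Real.sqrt (r₀ ^ 2 - b z / π) with hR
  have hRc : Continuous R := Real.continuous_sqrt.comp (continuous_const.sub (hbc.div_const π))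
  have harg : ∀ z, 0 ≤ r₀ ^ 2 - b z / π := fun z => by
    rw [sub_nonneg, div_le_iff₀ pi_pos]; linarith [hbM z]
  have hR2 : ∀ z, R z ^ 2 = r₀ ^ 2 - b z / π := fun z => Real.sq_sqrt (harg z)
  have hRr : ∀ z, R z ≤ r₀ := fun z => (Real.sqrt_le_left hr₀.le).2
    (by linarith [div_nonneg (hb0 z) pi_nonneg])
  set R' : ℝ → ℝ := fun z => -b' z / (2 * π * R z) with hR'
  set S := {z ∈ Icc m 1 | R z ∈ Icc σ (r - σ)} with hS
  have hSc : ContinuousOn R' S := hc.neg.continuousOn.div ((continuous_const.mul hRc).continuousOn)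
    fun z hz => by have := hσ.trans_le hz.2.1; positivity
  have hder : ∀ z ∈ Ioo m 1, R z ∈ Icc σ (r - σ) → HasDerivAt R (R' z) z := by
    intro z _ hz
    have hRz := hσ.trans_le hz.1
    refine ((((hd z).div_const π).const_sub (r₀ ^ 2)).sqrt
      (by rw [← hR2 z]; positivity)).congr_deriv ?_
    show -(b' z / π) / (2 * R z) = -b' z / (2 * π * R z)
    field_simp
  have hRm : R m ≤ σ := by
    simp only [hR, hbm]; rw [mul_div_cancel_left₀ _ pi_ne_zero]; simp [hσ.le]
  have hR1 : r - σ ≤ R 1 := by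
    simp only [hR, hb1, zero_div, sub_zero, Real.sqrt_sq hr₀.le]; linarith
  set G : ℝ → ℝ := fun z =>
    (q * rho (b z) (b' z) + (rho (b z) (b' z) - tang M (b z) (b' z)) / q) / κ +
      r / (π * σ ^ 2) * (wt M (b z) * (|b' z| + b' z)) with hG
  have hρc := continuous_rho hbc hc
  have hDc : Continuous fun z => rho (b z) (b' z) - tang M (b z) (b' z) :=
    hρc.sub (continuous_tang hbc hc)
  have hXc : Continuous fun z => wt M (b z) * (|b' z| + b' z) :=
    (continuous_wt hbc).mul (hc.abs.add hc)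
  have hGc : Continuous G :=
    (((continuous_const.mul hρc).add (hDc.div_const q)).div_const κ).add (continuous_const.mul hXc)
  have hG0 : ∀ z, 0 ≤ G z := fun z => by
    have h1 : 0 ≤ rho (b z) (b' z) := Real.sqrt_nonneg _
    have h2 := sub_nonneg.2 (tang_le (b' z) hM (hb0 z) (hbM z))
    have h3 : 0 ≤ |b' z| + b' z := by linarith [neg_abs_le (b' z)]
    have h4 : 0 ≤ wt M (b z) := Real.sqrt_nonneg _
    simp only [hG]
    positivity
  have hpt : ∀ z ∈ S, |1 - R' z| ≤ G z := fun z hz =>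
    pointwise (b' z) hr hq0 hσ hσr hr₀ (abs_le.2 ⟨by linarith, by linarith⟩)
      (hb0 z) (hbM z) rfl hz.2.1 hz.2.2
  have hSm : IsCompact S := isCompact_Icc.of_isClosed_subset
    (isClosed_Icc.inter (isClosed_Icc.preimage hRc)) fun z hz => hz.1
  have hint : ∫ z in S, |1 - R' z| ≤ δ := by
    refine (setIntegral_mono_on ((continuousOn_const.sub hSc).abs.integrableOn_compact hSm)
      (hGc.continuousOn.integrableOn_compact hSm) hSm.measurableSet hpt).trans ?_
    refine (setIntegral_mono_set (hGc.continuousOn.integrableOn_compact isCompact_Icc)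
      (ae_of_all _ hG0) (LE.le.eventuallyLE fun z (hz : z ∈ S) => hz.1)).trans ?_
    rw [integral_Icc_eq_integral_Ioc, ← intervalIntegral.integral_of_le hm.2]
    simp only [hG]
    have i1 : IntervalIntegrable (fun z => q * rho (b z) (b' z)) volume m 1 :=
      (continuous_const.mul hρc).intervalIntegrable _ _
    have i2 : IntervalIntegrable
        (fun z => (rho (b z) (b' z) - tang M (b z) (b' z)) / q) volume m 1 :=
      (hDc.div_const q).intervalIntegrable _ _
    have i3 : IntervalIntegrable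
        (fun z => r / (π * σ ^ 2) * (wt M (b z) * (|b' z| + b' z))) volume m 1 :=
      (continuous_const.mul hXc).intervalIntegrable _ _
    rw [intervalIntegral.integral_add ((i1.add i2).div_const κ) i3,
      intervalIntegral.integral_div, intervalIntegral.integral_add i1 i2,
      intervalIntegral.integral_div, intervalIntegral.integral_const_mul,
      intervalIntegral.integral_const_mul]
    have hρ1 : ∫ z in m..1, rho (b z) (b' z) ≤ 4 * π * r ^ 2 + 1 :=
      (intervalIntegral.integral_mono_interval hm.1 hm.2 le_rfl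
        (ae_of_all _ fun z => Real.sqrt_nonneg _) (hρc.intervalIntegrable _ _)).trans hE
    calc (q * (∫ z in m..1, rho (b z) (b' z)) +
          (∫ z in m..1, (rho (b z) (b' z) - tang M (b z) (b' z))) / q) / κ +
          r / (π * σ ^ 2) * ∫ z in m..1, wt M (b z) * (|b' z| + b' z)
        ≤ (q * (4 * π * r ^ 2 + 1) + q ^ 2 / q) / κ + r / (π * σ ^ 2) * q := by
          gcongr
          exact hX.trans (by nlinarith)
      _ = K * q := by rw [hK]; field_simp; ring
      _ ≤ δ := by rw [mul_comm]; exact (le_div_iff₀ hK0).1 hqδ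
  obtain ⟨L, hL, hLr, hLz⟩ := hP R R' m 1 hm.2 (by linarith [hm.1]) hRc.continuousOn hSc hder
    hRm hR1 hint
  refine ⟨L, hL, hLr, fun z hz => ?_⟩
  exact bump_close hr hεr hr₀ hq0.le hqε hrr (hb0 z) (hbM z) rfl (hLz z hz)

end Ball

end Vale.Agent.P232.Classify
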