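import Vale.Agent.P232.Classify.Pins
import Vale.Agent.P232.Slicing
import Vale.Agent.P232.Axis
import Vale.Agent.P232.Win.AxisBound
import Vale.Agent.P232.CutStep
import Vale.Agent.P232.Symm.Kernel

/-!
# P232: elementary facts about minimising sequences
-/

noncomputable section

open MeasureTheory Filter Topology Set

namespace Vale.Agent.P232.Classify

variable {u w : (Fin 3 → ℝ) → ℝ} {f : (Fin 3 → ℝ) → ℝ} {U : ℕ → (Fin 3 → ℝ) → ℝ} {v : ℝ}

theorem integrableOn_mul_of_bounded {k : (Fin 3 → ℝ) → ℝ} (hk : Continuous k) (hf : Measurable f)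
    (hb : ∀ x, f x ∈ Icc (0 : ℝ) 1) : IntegrableOn (fun x => f x * k x) (box 3) :=
  (integrableOn_box hk).bdd_mul hf.aestronglyMeasurable
    (ae_of_all _ fun x => by rw [Real.norm_eq_abs, abs_of_nonneg (hb x).1]; exact (hb x).2)

theorem area_continuous (hu : Adm u) (i : Fin 3) : Continuous (area u i) :=
  continuous_iff_continuousAt.2 fun z => (hasDerivAt_area hu i z).continuousAt

theorem integral_area (hu : Adm u) (i : Fin 3) : ∫ z in (0 : ℝ)..1, area u i z = mean u :=
  (integral_box_succ hu.smooth.continuous i).symm

theorem area_periodic (hu : Adm u) (i : Fin 3) : Function.Periodic (area u i) 1 := fun z =>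
  setIntegral_congr_fun measurableSet_box fun y _ => hu.per.insertNth_add_one i z y

/-- Slice areas move with the mean distance. -/
theorem integral_abs_area_sub_le (hu : Adm u) (hw : Adm w) (i : Fin 3) :
    ∫ z in (0 : ℝ)..1, |area u i z - area w i z| ≤ ∫ x in box 3, |u x - w x| := by
  have hc : Continuous fun x => |u x - w x| :=
    (hu.smooth.continuous.sub hw.smooth.continuous).abs
  rw [integral_box_succ hc i]
  refine intervalIntegral.integral_mono_on zero_le_one
    (((area_continuous hu i).sub (area_continuous hw i)).abs.intervalIntegrable _ _)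
    ((continuous_sliceInt hc i).intervalIntegrable _ _) fun z _ => ?_
  simp only [area, mean]
  rw [← integral_sub (integrableOn_box (hu.slice i z).smooth.continuous)
    (integrableOn_box (hw.slice i z).smooth.continuous)]
  exact abs_integral_le_integral_abs

theorem flat_nonneg (v : ℝ) (u : (Fin 3 → ℝ) → ℝ) (i : Fin 3) : 0 ≤ flat v u i :=
  intervalIntegral.integral_nonneg zero_le_one fun _ _ => abs_nonneg _

theorem flat_le_add (hu : Adm u) (hw : Adm w) (v : ℝ) (i : Fin 3) :
    flat v u i ≤ flat v w i + ∫ x in box 3, |u x - w x| := by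
  have hi : ∀ {q : (Fin 3 → ℝ) → ℝ}, Adm q →
      IntervalIntegrable (fun z => |area q i z - v|) volume 0 1 := fun hq =>
    ((area_continuous hq i).sub continuous_const).abs.intervalIntegrable _ _
  have hd : IntervalIntegrable (fun z => |area u i z - area w i z|) volume 0 1 :=
    ((area_continuous hu i).sub (area_continuous hw i)).abs.intervalIntegrable _ _
  refine le_trans ?_ (add_le_add le_rfl (integral_abs_area_sub_le hu hw i))
  unfold flat
  rw [← intervalIntegral.integral_add (hi hw) hd]
  refine intervalIntegral.integral_mono_on zero_le_one (hi hu) ((hi hw).add hd) fun z _ => ?_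
  linarith [abs_sub_le (area u i z) (area w i z) v]

theorem continuous_axialSlice (hu : Adm u) (i : Fin 3) :
    Continuous fun z => ∫ y in box 2, |pd u i (i.insertNth z y)| :=
  continuous_sliceInt (f := fun x => |pd u i x|) (continuous_pd hu.smooth i).abs i

theorem axial_nonneg (u : (Fin 3 → ℝ) → ℝ) (i : Fin 3) : 0 ≤ axial u i :=
  setIntegral_nonneg measurableSet_box fun _ _ => abs_nonneg _

theorem integral_slope_le_axial (hu : Adm u) (i : Fin 3) :
    ∫ z in (0 : ℝ)..1, |slope u i z| ≤ axial u i := by
  rw [axial, integral_box_succ (continuous_pd hu.smooth i).abs i]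
  refine intervalIntegral.integral_mono_on zero_le_one
    ((continuous_sliceInt (continuous_pd hu.smooth i) i).abs.intervalIntegrable _ _)
    ((continuous_axialSlice hu i).intervalIntegrable _ _) fun z _ => ?_
  exact abs_integral_le_integral_abs

/-- Two slice areas differ by at most half the axial variation. -/
theorem abs_area_sub_le (hu : Adm u) (i : Fin 3) (x y : ℝ) :
    2 * |area u i x - area u i y| ≤ axial u i :=
  (periodic_variation (hasDerivAt_area hu i) (continuous_sliceInt (continuous_pd hu.smooth i) i)
    (area_periodic hu i) x y).trans (integral_slope_le_axial hu i)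

theorem continuous_sliceEnergy (hu : Adm u) (i : Fin 3) :
    Continuous fun z => energy (slice u i z) := by
  have hc : Continuous fun x : Fin 3 → ℝ =>
      Real.sqrt (∑ k : Fin 2, pd u (i.succAbove k) x ^ 2) :=
    Real.continuous_sqrt.comp (continuous_finsetSum _ fun k _ =>
      (continuous_pd hu.smooth _).pow 2)
  refine (continuous_sliceInt hc i).congr fun z => ?_
  refine setIntegral_congr_fun measurableSet_box fun y _ => ?_
  show _ = Real.sqrt (∑ k, pd (fun y => u (i.insertNth z y)) k y ^ 2)
  simp only [pd_insertNth hu.smooth]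

/-- The slices and the variation across them make at most the energy. -/
theorem slices_axial_le (hu : Adm u) (i : Fin 3) {s t : ℝ} (hs : 0 ≤ s) (ht : 0 ≤ t)
    (hst : s ^ 2 + t ^ 2 ≤ 1) :
    s * (∫ z in (0 : ℝ)..1, energy (slice u i z)) + t * axial u i ≤ energy u := by
  have hG := Win.continuous_sliceGrad hu i
  have hA := continuous_axialSlice hu i
  have hsl := continuous_sliceEnergy hu i
  rw [axial, integral_box_succ (continuous_pd hu.smooth i).abs i, energy,
    integral_box_succ (continuous_grad hu.smooth) i, ← intervalIntegral.integral_const_mul,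
    ← intervalIntegral.integral_const_mul,
    ← intervalIntegral.integral_add ((hsl.const_mul s).intervalIntegrable _ _)
      ((hA.const_mul t).intervalIntegrable _ _)]
  refine intervalIntegral.integral_mono_on zero_le_one
    (((hsl.const_mul s).add (hA.const_mul t)).intervalIntegrable _ _)
    (hG.intervalIntegrable _ _) fun z _ => ?_
  have hS := hu.slice i z
  have hci := ((continuous_pd hu.smooth i).comp (continuous_insert_fixed i z)).abs
  have i1 : IntegrableOn (fun y => s * grad (slice u i z) y) (box 2) :=
    integrableOn_box (continuous_const.mul (continuous_grad hS.smooth))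
  have i2 : IntegrableOn (fun y => t * |pd u i (i.insertNth z y)|) (box 2) :=
    integrableOn_box (continuous_const.mul hci)
  rw [energy, ← integral_const_mul, ← integral_const_mul, ← integral_add i1 i2]
  exact setIntegral_box_mono ((continuous_const.mul (continuous_grad hS.smooth)).add
      (continuous_const.mul hci))
    ((continuous_grad hu.smooth).comp (continuous_insert_fixed i z))
    fun y _ => split_le_grad hu i z y hs ht hst

namespace MinSeq

theorem mem_Icc (h : MinSeq v f U) (x : Fin 3 → ℝ) : f x ∈ Icc (0 : ℝ) 1 := by
  rcases h.val x with e | e <;> simp [e]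

theorem integrableOn (h : MinSeq v f U) : IntegrableOn f (box 3) := by
  simpa using integrableOn_mul_of_bounded (continuous_const (y := (1 : ℝ))) h.meas h.mem_Icc

theorem integrableOn_diff (h : MinSeq v f U) (n : ℕ) :
    IntegrableOn (fun x => |U n x - f x|) (box 3) :=
  ((integrableOn_box (h.adm n).smooth.continuous).sub h.integrableOn).abs

/-- Integrals against a continuous bounded function pass to the limit. -/
theorem integral_tendsto (h : MinSeq v f U) {k : (Fin 3 → ℝ) → ℝ} (hk : Continuous k) {B : ℝ}
    (hB : ∀ x, |k x| ≤ B) :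
    Tendsto (fun n => ∫ x in box 3, U n x * k x) atTop (𝓝 (∫ x in box 3, f x * k x)) := by
  have h0 := h.lim.const_mul B
  rw [mul_zero] at h0
  rw [tendsto_iff_dist_tendsto_zero]
  refine squeeze_zero (fun _ => dist_nonneg) (fun n => ?_) h0
  rw [Real.dist_eq, ← integral_sub (f := fun x => U n x * k x) (g := fun x => f x * k x)
    (integrableOn_box ((h.adm n).smooth.continuous.mul hk))
    (integrableOn_mul_of_bounded hk h.meas h.mem_Icc), ← integral_const_mul]
  refine abs_integral_le_integral_abs.trans (setIntegral_mono_on ?_
    ((h.integrableOn_diff n).const_mul B) measurableSet_box fun x _ => ?_)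
  · exact ((integrableOn_box ((h.adm n).smooth.continuous.mul hk)).sub
      (integrableOn_mul_of_bounded hk h.meas h.mem_Icc)).abs
  · rw [← sub_mul, abs_mul, mul_comm]
    exact mul_le_mul_of_nonneg_right (hB x) (abs_nonneg _)

theorem mean_tendsto (h : MinSeq v f U) : Tendsto (fun n => mean (U n)) atTop (𝓝 v) := by
  have := h.integral_tendsto (continuous_const (y := (1 : ℝ))) (B := 1) (fun _ => by simp)
  simpa [mean, h.mean_eq] using this

theorem dfct_le (h : MinSeq v f U) (n : ℕ) :
    dfct (U n) ≤ ∫ x in box 3, |U n x - f x| := by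
  refine setIntegral_mono_on (integrableOn_box ((h.adm n).smooth.continuous.mul
    (continuous_const.sub (h.adm n).smooth.continuous))) (h.integrableOn_diff n) measurableSet_box
    fun x _ => ?_
  obtain ⟨a, b⟩ := (h.adm n).mem x
  rcases h.val x with e | e <;> rw [e]
  · rw [abs_of_nonneg (by linarith)]; nlinarith
  · rw [abs_of_nonpos (by linarith)]; nlinarith

theorem dfct_tendsto (h : MinSeq v f U) : Tendsto (fun n => dfct (U n)) atTop (𝓝 0) :=
  squeeze_zero (fun n => dfct_nonneg (h.adm n)) h.dfct_le h.lim

theorem err_tendsto (h : MinSeq v f U) : Tendsto (fun n => err (dfct (U n))) atTop (𝓝 0) := by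
  have hc : Continuous err :=
    continuous_const.mul (continuous_id.rpow_const fun _ => Or.inr (by norm_num))
  have := (hc.tendsto 0).comp h.dfct_tendsto
  simpa [err, Function.comp_def] using this

theorem comp (h : MinSeq v f U) {φ : ℕ → ℕ} (hφ : StrictMono φ) :
    MinSeq v f fun n => U (φ n) :=
  { h with
    adm := fun _ => h.adm _
    mean_le := fun _ => h.mean_le _
    lim := h.lim.comp hφ.tendsto_atTop
    energy_le := fun ε hε => hφ.tendsto_atTop.eventually (h.energy_le ε hε) }

end MinSeq

theorem continuous_circDist : Continuous circDist := Symm.continuous_circ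

theorem circDist_mem (t : ℝ) : circDist t ∈ Icc (0 : ℝ) (1 / 2) :=
  ⟨abs_nonneg _, abs_sub_round t⟩

/-- A second moment is the limit of the moments of the slice areas. -/
theorem moment_tendsto (h : MinSeq v f U) (i : Fin 3) (c : ℝ) :
    Tendsto (fun n => ∫ z in (0 : ℝ)..1, circDist (z - c) ^ 2 * area (U n) i z) atTop
      (𝓝 (∫ x in box 3, f x * circDist (x i - c) ^ 2)) := by
  have hk : Continuous fun x : Fin 3 → ℝ => circDist (x i - c) ^ 2 :=
    (continuous_circDist.comp ((continuous_apply i).sub continuous_const)).pow 2
  refine (h.integral_tendsto hk (B := 1) fun x => ?_).congr fun n => ?_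
  · obtain ⟨a, b⟩ := circDist_mem (x i - c)
    rw [abs_of_nonneg (sq_nonneg _)]
    nlinarith
  · rw [setIntegral_congr_fun measurableSet_box fun x _ => mul_comm (U n x) _,
      Cut.integral_axis (h.adm n).smooth.continuous (ψ := fun t => circDist (t - c) ^ 2)
        ((continuous_circDist.comp (continuous_id.sub continuous_const)).pow 2) i]
    rfl

end Vale.Agent.P232.Classify
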