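import Vale.Agent.P232.Classify.BallLine
import Vale.Agent.P232.Classify.Base

/-!
# P232: a near optimal profile of slice areas is the profile of a ball
-/

noncomputable section

open MeasureTheory Filter Topology Set Real

namespace Vale.Agent.P232.Classify

theorem circDist_add_int (t : ℝ) (k : ℤ) : circDist (t + k) = circDist t :=
  Symm.circ_add_int t k

theorem circDist_neg (t : ℝ) : circDist (-t) = circDist t := Symm.circ_neg t

theorem circDist_of_mem {t : ℝ} (h : t ∈ Icc (0 : ℝ) (1 / 2)) : circDist t = t := by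
  have e := Symm.circ_eq_abs (t := t) (by rw [abs_of_nonneg h.1]; exact h.2)
  rwa [abs_of_nonneg h.1] at e

theorem circDist_of_mem' {t : ℝ} (h : t ∈ Icc (1 / 2 : ℝ) 1) : circDist t = 1 - t := by
  rw [← circDist_neg, ← circDist_add_int _ 1, Int.cast_one]
  rw [show -t + 1 = 1 - t by ring]
  exact circDist_of_mem ⟨by linarith [h.2], by linarith [h.1]⟩

namespace Ball

theorem bump_eq_cap {r t : ℝ} (hr : 0 ≤ r) (ht : 0 ≤ t) : bump r t = cap r t := by
  rcases le_total r t with h | h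
  · rw [bump, cap, min_eq_left h, max_eq_right hr, sub_self, max_eq_left (by nlinarith)]
  · rw [bump, cap, min_eq_right h, max_eq_right ht, max_eq_right (by nlinarith)]

theorem continuous_bump (r : ℝ) : Continuous (bump r) := by unfold bump; fun_prop

theorem bump_mem {r : ℝ} (hr : 0 ≤ r) (t : ℝ) : bump r t ∈ Icc 0 (π * r ^ 2) := by
  have h1 : 0 ≤ max 0 (min r t) := le_max_left _ _
  have h2 : max 0 (min r t) ≤ r := max_le hr (min_le_left _ _)
  exact ⟨mul_nonneg pi_nonneg (by nlinarith), mul_le_mul_of_nonneg_left (by nlinarith) pi_nonneg⟩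

theorem bump_shift {r : ℝ} (hr : 0 ≤ r) (t : ℝ) {L : ℝ} (hL : 0 ≤ L) :
    |bump r (t - L) - bump r t| ≤ 2 * π * r * L := by
  set x := max 0 (min r (t - L)) with hx
  set y := max 0 (min r t) with hy
  have hxy : x ≤ y := max_le_max le_rfl (min_le_min le_rfl (by linarith))
  have hyx : y ≤ x + L := by
    refine max_le (by linarith [le_max_left 0 (min r (t - L))]) ?_
    have : min r t ≤ min r (t - L) + L := by
      rw [← min_add_add_right]; exact min_le_min (by linarith) (by linarith)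
    exact this.trans (by linarith [le_max_right 0 (min r (t - L))])
  have hx0 : 0 ≤ x := le_max_left _ _
  have hy1 : y ≤ r := max_le hr (min_le_left _ _)
  rw [bump, bump, ← hx, ← hy, show π * (r ^ 2 - x ^ 2) - π * (r ^ 2 - y ^ 2) =
    π * ((y - x) * (y + x)) by ring, abs_of_nonneg (mul_nonneg pi_nonneg (mul_nonneg (by linarith)
    (by linarith)))]
  calc π * ((y - x) * (y + x)) ≤ π * (L * (2 * r)) :=
        mul_le_mul_of_nonneg_left (mul_le_mul (by linarith) (by linarith) (by linarith) hL) pi_nonneg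
    _ = 2 * π * r * L := by ring

theorem integral_bump {r : ℝ} (hr : 0 ≤ r) :
    ∫ t in (0 : ℝ)..r, bump r t = 2 / 3 * π * r ^ 3 := by
  rw [intervalIntegral.integral_congr (g := fun t => π * (r ^ 2 - t ^ 2)) fun t ht => by
    rw [uIcc_of_le hr] at ht
    rw [bump, min_eq_right ht.2, max_eq_right ht.1]]
  rw [intervalIntegral.integral_const_mul, intervalIntegral.integral_sub intervalIntegrable_const
    ((continuous_pow 2).intervalIntegrable _ _), intervalIntegral.integral_const, integral_pow]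
  simp
  ring

/-- A delayed half profile holds its volume and that of the delay. -/
theorem le_integral_bump {r L T e : ℝ} (hr : 0 ≤ r) (hL : 0 ≤ L) (he : 0 ≤ e)
    (h : L + r ≤ T + e) :
    π * r ^ 2 * L + 2 / 3 * π * r ^ 3 - π * r ^ 2 * e ≤ ∫ z in (0 : ℝ)..T, bump r (z - L) := by
  have hi : ∀ a b, IntervalIntegrable (bump r) volume a b :=
    fun a b => (continuous_bump r).intervalIntegrable a b
  rw [intervalIntegral.integral_comp_sub_right (bump r) L, zero_sub,
    ← intervalIntegral.integral_add_adjacent_intervals (hi (-L) 0) (hi 0 (T - L)),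
    ← intervalIntegral.integral_add_adjacent_intervals (hi 0 r) (hi r (T - L)), integral_bump hr]
  have h1 : ∫ t in (-L)..0, bump r t = π * r ^ 2 * L := by
    rw [intervalIntegral.integral_congr (g := fun _ => π * r ^ 2) fun t ht => by
      rw [uIcc_of_le (by linarith)] at ht
      rw [bump, max_eq_left ((min_le_right _ _).trans ht.2)]; ring]
    simp
    ring
  have h2 : -(π * r ^ 2 * e) ≤ ∫ t in r..(T - L), bump r t := by
    rcases le_total r (T - L) with h' | h'
    · have h3 := intervalIntegral.integral_nonneg (μ := volume) h' fun t _ => (bump_mem hr t).1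
      have h4 : 0 ≤ π * r ^ 2 * e := by positivity
      linarith
    · rw [intervalIntegral.integral_symm, neg_le_neg_iff]
      refine (intervalIntegral.integral_mono_on h' (hi _ _) intervalIntegrable_const
        fun t _ => (bump_mem hr t).2).trans ?_
      rw [intervalIntegral.integral_const, smul_eq_mul, mul_comm]
      exact mul_le_mul_of_nonneg_left (by linarith) (by positivity)
  linarith

theorem cap_end {r t e : ℝ} (hr : 0 ≤ r) (he : 0 ≤ e) (ht : 0 ≤ t) (h : r - e ≤ t) :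
    cap r t ∈ Icc 0 (2 * π * r * e) := by
  refine ⟨mul_nonneg pi_nonneg (le_max_left _ _), ?_⟩
  rw [cap, show 2 * π * r * e = π * (2 * r * e) by ring]
  refine mul_le_mul_of_nonneg_left (max_le (by positivity) ?_) pi_nonneg
  rcases le_total r e with h' | h' <;> nlinarith

/-- A delayed half profile against the profile about the centre. -/
theorem half_close {r e L T t x : ℝ} (hr : 0 ≤ r) (he : 0 ≤ e) (hL : 0 ≤ L) (hT : T ≤ 1 - r + e)
    (hr2 : r - e ≤ 1 / 2) (ht : t ∈ Icc 0 T) (hT1 : T ≤ 1)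
    (hx : |x - bump r (t - L)| ≤ 9 * π * r * e) :
    |x - cap r (circDist t)| ≤ 9 * π * r * e + 2 * π * r * L + 2 * π * r * e := by
  have h1 := abs_sub_le x (bump r (t - L)) (bump r t)
  have h2 := abs_sub_le x (bump r t) (cap r (circDist t))
  have h3 := bump_shift hr t hL
  have h4 : |bump r t - cap r (circDist t)| ≤ 2 * π * r * e := by
    rw [bump_eq_cap hr ht.1]
    rcases le_or_gt t (1 / 2) with h | h
    · rw [circDist_of_mem ⟨ht.1, h⟩, sub_self, abs_zero]; positivity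
    · rw [circDist_of_mem' ⟨h.le, ht.2.trans hT1⟩]
      obtain ⟨a1, a2⟩ := cap_end hr he ht.1 (by linarith)
      obtain ⟨b1, b2⟩ := cap_end (t := 1 - t) hr he (by linarith [ht.2]) (by linarith [ht.2])
      rw [abs_le]; constructor <;> linarith
  linarith

/-- The two half profiles give the whole profile; the delays are short by the volume. -/
theorem assemble {r e m L L' : ℝ} {b : ℝ → ℝ} (hr : 0 < r) (he : 0 < e)
    (hbc : Continuous b) (hm : m ∈ Icc (0 : ℝ) 1) (hL : 0 ≤ L)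
    (hL' : 0 ≤ L') (hLr : L + r ≤ 1 - m + e) (hLr' : L' + r ≤ m + e) (hr2 : r - e ≤ 1 / 2)
    (hright : ∀ t ∈ Icc 0 (1 - m), |b (t + m) - bump r (t - L)| ≤ 9 * π * r * e)
    (hleft : ∀ t ∈ Icc 0 m, |b (m - t) - bump r (t - L')| ≤ 9 * π * r * e)
    (hV : ∫ z in (0 : ℝ)..1, b z ≤ 4 / 3 * π * r ^ 3 + e) :
    π * r ^ 2 * (L + L') ≤ (1 + 20 * π * r + 2 * π * r ^ 2) * e ∧ ∀ y ∈ Icc (0 : ℝ) 1,
      |b y - cap r (circDist (y - m))| ≤
        9 * π * r * e + 2 * π * r * (L + L') + 2 * π * r * e := by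
  have hB : ∀ (g : ℝ → ℝ) (T K : ℝ), Continuous g → 0 ≤ T → T ≤ 1 → 0 ≤ K → K + r ≤ T + e →
      (∀ t ∈ Icc 0 T, |g t - bump r (t - K)| ≤ 9 * π * r * e) →
      π * r ^ 2 * K + 2 / 3 * π * r ^ 3 - π * r ^ 2 * e - 9 * π * r * e ≤
        ∫ t in (0 : ℝ)..T, g t := by
    intro g T K hg hT hT1 hK hKT hgb
    have hcb : Continuous fun t => bump r (t - K) :=
      (continuous_bump r).comp (continuous_id.sub continuous_const)
    have h1 := le_integral_bump hr.le hK he.le hKT
    have hci : IntervalIntegrable (fun t => bump r (t - K) - 9 * π * r * e) volume 0 T :=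
      (hcb.sub continuous_const).intervalIntegrable _ _
    have h2 := intervalIntegral.integral_mono_on hT hci
      (hg.intervalIntegrable _ _) fun t ht =>
        (show bump r (t - K) - 9 * π * r * e ≤ g t by linarith [(abs_le.1 (hgb t ht)).1])
    rw [intervalIntegral.integral_sub (hcb.intervalIntegrable _ _) intervalIntegrable_const,
      intervalIntegral.integral_const, smul_eq_mul, sub_zero] at h2
    have h3 : T * (9 * π * r * e) ≤ 9 * π * r * e := mul_le_of_le_one_left (by positivity) hT1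
    linarith
  have hR := hB (fun t => b (t + m)) (1 - m) L (hbc.comp (continuous_id.add continuous_const))
    (by linarith [hm.2]) (by linarith [hm.1]) hL (by linarith) hright
  have hLf := hB (fun t => b (m - t)) m L' (hbc.comp (continuous_const.sub continuous_id))
    hm.1 hm.2 hL' (by linarith) hleft
  rw [intervalIntegral.integral_comp_add_right, zero_add, sub_add_cancel] at hR
  rw [intervalIntegral.integral_comp_sub_left, sub_self, sub_zero] at hLf
  have hre : 0 ≤ π * r * e := by positivity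
  have hsplit := intervalIntegral.integral_add_adjacent_intervals
    (hbc.intervalIntegrable (μ := volume) 0 m) (hbc.intervalIntegrable m 1)
  refine ⟨by linarith, fun y hy => ?_⟩
  have hpr : 0 ≤ 2 * π * r := by positivity
  rcases le_total m y with h | h
  · have h1 := half_close hr.le he.le hL (T := 1 - m) (by linarith) hr2 (t := y - m)
      ⟨by linarith, by linarith [hy.2]⟩ (by linarith [hm.1])
      (hright _ ⟨by linarith, by linarith [hy.2]⟩)
    rw [sub_add_cancel] at h1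
    linarith [mul_nonneg hpr hL']
  · have h1 := half_close hr.le he.le hL' (T := m) (by linarith) hr2 (t := m - y)
      ⟨by linarith, by linarith [hy.1]⟩ hm.2 (hleft _ ⟨by linarith, by linarith [hy.1]⟩)
    rw [sub_sub_cancel, ← neg_sub y m, circDist_neg] at h1
    linarith [mul_nonneg hpr hL]

/-- The integrals for the reflected profile. -/
theorem mirror (b b' : ℝ → ℝ) (M m : ℝ) :
    (∫ z in (0 : ℝ)..1, rho (b (1 - z)) (-b' (1 - z)) = ∫ z in (0 : ℝ)..1, rho (b z) (b' z)) ∧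
      (∫ z in (1 - m)..1, (rho (b (1 - z)) (-b' (1 - z)) - tang M (b (1 - z)) (-b' (1 - z))) =
        ∫ z in (0 : ℝ)..m, (rho (b z) (b' z) - tang M (b z) (b' z))) ∧
      ∫ z in (1 - m)..1, wt M (b (1 - z)) * (|-b' (1 - z)| + -b' (1 - z)) =
        ∫ z in (0 : ℝ)..m, wt M (b z) * (|b' z| - b' z) := by
  have hr : ∀ x p : ℝ, rho x (-p) = rho x p := fun x p => by simp [rho]
  have ht : ∀ x p : ℝ, tang M x (-p) = tang M x p := fun x p => by simp [tang]
  simp only [hr, ht, abs_neg, ← sub_eq_add_neg]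
  rw [intervalIntegral.integral_comp_sub_left (fun z => rho (b z) (b' z)),
    intervalIntegral.integral_comp_sub_left (fun z => rho (b z) (b' z) - tang M (b z) (b' z)),
    intervalIntegral.integral_comp_sub_left (fun z => wt M (b z) * (|b' z| - b' z))]
  simp

/-- A small excess makes the radius, the defect and both descents small. -/
theorem excess {r r₀ ρ₀ δ η m : ℝ} {b b' : ℝ → ℝ} (hr : 0 < r) (hr₀ : 0 < r₀) (hρ0 : 0 < ρ₀)
    (hρr : ρ₀ ≤ r₀) (hbd : ∀ z, HasDerivAt b (b' z) z) (hb'c : Continuous b')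
    (hnn : ∀ z, 0 ≤ b z) (hbM' : ∀ z, b z ≤ π * r₀ ^ 2) (hb0 : b 0 = 0) (hb1 : b 1 = 0)
    (hm : m ∈ Icc (0 : ℝ) 1) (hM : b m = π * r₀ ^ 2) (hδη : δ * (1 + 2 / ρ₀) ≤ η)
    (hV1 : -δ ≤ (∫ z in (0 : ℝ)..1, b z) - 4 / 3 * π * r ^ 3) (hδ0 : 0 ≤ δ)
    (hE : ∫ z in (0 : ℝ)..1, rho (b z) (b' z) ≤ 4 * π * r ^ 2 + δ) :
    4 * π * r ^ 2 ≤ (∫ z in (0 : ℝ)..1, rho (b z) (b' z)) + η ∧ |r₀ - r| ≤ Real.sqrt η ∧
      ∫ z in (0 : ℝ)..m, (rho (b z) (b' z) - tang (π * r₀ ^ 2) (b z) (b' z)) ≤ η ∧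
      ∫ z in m..1, (rho (b z) (b' z) - tang (π * r₀ ^ 2) (b z) (b' z)) ≤ η ∧
      ∫ z in (0 : ℝ)..m, wt (π * r₀ ^ 2) (b z) * (|b' z| - b' z) ≤ η ∧
      ∫ z in m..1, wt (π * r₀ ^ 2) (b z) * (|b' z| + b' z) ≤ η := by
  have hbc : Continuous b := continuous_iff_continuousAt.2 fun z => (hbd z).continuousAt
  have hMpos : 0 < π * r₀ ^ 2 := by positivity
  have hcal := calib hbd hb'c hb0 hb1 hM hMpos
  have hcoef : 2 * Real.sqrt π / Real.sqrt (π * r₀ ^ 2) = 2 / r₀ := by
    rw [Real.sqrt_mul pi_nonneg, Real.sqrt_sq hr₀.le]; field_simp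
  rw [hcoef] at hcal
  have hD0 : ∀ z, 0 ≤ rho (b z) (b' z) - tang (π * r₀ ^ 2) (b z) (b' z) := fun z =>
    sub_nonneg.2 (tang_le _ hMpos (hnn _) (hbM' z))
  have hDc : Continuous fun z => rho (b z) (b' z) - tang (π * r₀ ^ 2) (b z) (b' z) :=
    (continuous_rho hbc hb'c).sub (continuous_tang hbc hb'c)
  have hD := intervalIntegral.integral_nonneg (μ := volume) zero_le_one fun z _ => hD0 z
  have hXl := intervalIntegral.integral_nonneg (μ := volume)
    (f := fun z => wt (π * r₀ ^ 2) (b z) * (|b' z| - b' z)) hm.1 fun z _ =>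
      mul_nonneg (Real.sqrt_nonneg _) (sub_nonneg.2 (le_abs_self _))
  have hXr := intervalIntegral.integral_nonneg (μ := volume)
    (f := fun z => wt (π * r₀ ^ 2) (b z) * (|b' z| + b' z)) hm.2 fun z _ =>
      mul_nonneg (Real.sqrt_nonneg _) (by linarith [neg_abs_le (b' z)])
  have hgain : 4 * π / 3 * (r₀ - r) ^ 2 ≤
      2 / r₀ * (4 / 3 * π * r ^ 3) + 4 * (π * r₀ ^ 2) / 3 - 4 * π * r ^ 2 := by
    rw [show 2 / r₀ * (4 / 3 * π * r ^ 3) + 4 * (π * r₀ ^ 2) / 3 - 4 * π * r ^ 2 =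
      4 * π / 3 * (r₀ - r) ^ 2 * ((r₀ + 2 * r) / r₀) by field_simp; ring]
    exact le_mul_of_one_le_right (by positivity) (by rw [le_div_iff₀ hr₀]; linarith)
  have hloss : 2 / r₀ * (4 / 3 * π * r ^ 3) ≤
      2 / r₀ * (∫ z in (0 : ℝ)..1, b z) + 2 / ρ₀ * δ := by
    have h1 : 2 / r₀ * δ ≤ 2 / ρ₀ * δ :=
      mul_le_mul_of_nonneg_right (div_le_div_of_nonneg_left two_pos.le hρ0 hρr)
        (by linarith)
    have h2 := mul_le_mul_of_nonneg_left (show 4 / 3 * π * r ^ 3 ≤
      (∫ z in (0 : ℝ)..1, b z) + δ by linarith) (show 0 ≤ 2 / r₀ by positivity)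
    rw [mul_add] at h2
    linarith
  have hsq0 : (r₀ - r) ^ 2 ≤ 4 * π / 3 * (r₀ - r) ^ 2 :=
    le_mul_of_one_le_left (sq_nonneg _) (by linarith [pi_gt_three])
  have hrr : |r₀ - r| ≤ Real.sqrt η := Real.abs_le_sqrt (by linarith [sq_nonneg (r₀ - r)])
  have h0 := sq_nonneg (r₀ - r)
  refine ⟨by linarith, hrr, ?_, ?_, by linarith, by linarith⟩
  · exact (intervalIntegral.integral_mono_interval le_rfl hm.1 hm.2 (ae_of_all _ hD0)
      (hDc.intervalIntegrable _ _)).trans (by linarith)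
  · exact (intervalIntegral.integral_mono_interval hm.1 hm.2 le_rfl (ae_of_all _ hD0)
      (hDc.intervalIntegrable _ _)).trans (by linarith)

/-- A profile which vanishes at the origin and nearly attains the calibrated value is that of a ball. -/
theorem line_ball_zero {r : ℝ} (hr : 0 < r) {ε : ℝ} (hε : 0 < ε) :
    ∃ δ, 0 < δ ∧ ∀ b b' : ℝ → ℝ, (∀ z, HasDerivAt b (b' z) z) → Continuous b' →
      Function.Periodic b 1 → (∀ z, 0 ≤ b z) → b 0 = 0 →
      |(∫ z in (0 : ℝ)..1, b z) - 4 / 3 * π * r ^ 3| ≤ δ →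
      ∫ z in (0 : ℝ)..1, rho (b z) (b' z) ≤ 4 * π * r ^ 2 + δ →
      4 * π * r ^ 2 ≤ (∫ z in (0 : ℝ)..1, rho (b z) (b' z)) + ε ∧ r ≤ 1 / 2 + ε ∧
        ∃ m ∈ Icc (0 : ℝ) 1, ∀ y ∈ Icc (0 : ℝ) 1, |b y - cap r (circDist (y - m))| ≤ ε := by
  set C₁ := (1 + 20 * π * r + 2 * π * r ^ 2) / (π * r ^ 2) with hC₁
  set C := 11 * π * r + 2 * π * r * C₁ + 1 with hC
  have hC10 : 0 < C₁ := by positivity
  have hC1 : 1 ≤ C := by rw [hC]; linarith [show 0 ≤ 11 * π * r + 2 * π * r * C₁ by positivity]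
  set e := min r (ε / C) with hedef
  have he : 0 < e := lt_min hr (by positivity)
  have heε : C * e ≤ ε := by
    rw [mul_comm, ← le_div_iff₀ (by linarith)]; exact min_le_right _ _
  have heε' : e ≤ ε := (le_mul_of_one_le_left he.le hC1).trans heε
  obtain ⟨η, hη, hη1, hηe, hside⟩ := side hr he (min_le_left _ _)
  set ρ₀ := Real.sqrt (2 * r ^ 3 / 3) with hρ₀
  have hρ0 : 0 < ρ₀ := Real.sqrt_pos.2 (by positivity)
  refine ⟨min (min e (2 / 3 * π * r ^ 3)) (min (η / (1 + 2 / ρ₀)) 1), by positivity, ?_⟩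
  intro b b' hbd hb'c hbp ha0 hb0 hV hE
  set δ := min (min e (2 / 3 * π * r ^ 3)) (min (η / (1 + 2 / ρ₀)) 1) with hδdef
  have hδe : δ ≤ e := (min_le_left _ _).trans (min_le_left _ _)
  have hδv : δ ≤ 2 / 3 * π * r ^ 3 := (min_le_left _ _).trans (min_le_right _ _)
  have hδη : δ * (1 + 2 / ρ₀) ≤ η :=
    (le_div_iff₀ (by positivity)).1 ((min_le_right _ _).trans (min_le_left _ _))
  have hδ1 : δ ≤ 1 := (min_le_right _ _).trans (min_le_right _ _)
  have hbc : Continuous b := continuous_iff_continuousAt.2 fun z => (hbd z).continuousAt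
  have hb1 : b 1 = 0 := by rw [← zero_add (1 : ℝ), hbp]; exact hb0
  obtain ⟨m, hm, hmax⟩ := (isCompact_Icc (a := (0 : ℝ)) (b := 1)).exists_isMaxOn
    (nonempty_Icc.2 zero_le_one) hbc.continuousOn
  have hbM : ∀ z, b z ≤ b m := fun z => by
    obtain ⟨y, hy, hyz⟩ := hbp.exists_mem_Ico₀ one_pos z
    rw [hyz]; exact hmax (Ico_subset_Icc_self hy)
  obtain ⟨hV1, hV2⟩ := abs_le.1 hV
  have hVM : ∫ z in (0 : ℝ)..1, b z ≤ b m :=
    (intervalIntegral.integral_mono_on zero_le_one (hbc.intervalIntegrable _ _)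
      intervalIntegrable_const fun z _ => hbM z).trans_eq (by simp)
  set r₀ := Real.sqrt (b m / π) with hr₀def
  have hbm0 : 2 / 3 * π * r ^ 3 ≤ b m := by linarith
  have hρr : ρ₀ ≤ r₀ := Real.sqrt_le_sqrt (by rw [le_div_iff₀ pi_pos]; linarith)
  have hr₀ : 0 < r₀ := hρ0.trans_le hρr
  have hM : b m = π * r₀ ^ 2 := by
    rw [hr₀def, Real.sq_sqrt (div_nonneg (show 0 ≤ b m from ha0 _) pi_nonneg)]; field_simp
  have hbM' : ∀ z, b z ≤ π * r₀ ^ 2 := fun z => hM ▸ hbM z
  obtain ⟨hball, hrr, hDl, hDR, hXl, hXr⟩ := excess hr hr₀ hρ0 hρr hbd hb'c ha0 hbM' hb0 hb1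
    hm hM hδη hV1 (by linarith) hE
  have hE' : ∫ z in (0 : ℝ)..1, rho (b z) (b' z) ≤ 4 * π * r ^ 2 + 1 := by linarith
  obtain ⟨L, hL, hLr, hLz⟩ := hside b b' m r₀ hbd hb'c (fun z => ha0 _) hbM' hm hM hb1 hr₀ hrr
    hE' hDR hXr
  obtain ⟨e1, e2, e3⟩ := mirror b b' (π * r₀ ^ 2) m
  obtain ⟨L', hL', hLr', hLz'⟩ := hside (fun z => b (1 - z)) (fun z => -b' (1 - z)) (1 - m) r₀
    (fun z => by simpa using (hbd (1 - z)).comp_const_sub (1 : ℝ) z)
    (hb'c.comp (continuous_const.sub continuous_id)).neg (fun z => ha0 _) (fun z => hbM' _)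
    ⟨by linarith [hm.2], by linarith [hm.1]⟩ ((congrArg b (sub_sub_cancel 1 m)).trans hM)
    ((congrArg b (sub_self 1)).trans hb0) hr₀ hrr (e1.trans_le hE')
    (e2.trans_le hDl) (e3.trans_le hXl)
  simp only [sub_sub_cancel] at hLr'
  have hright : ∀ t ∈ Icc 0 (1 - m), |b (t + m) - bump r (t - L)| ≤ 9 * π * r * e := fun t ht => by
    simpa using hLz (t + m) ⟨by linarith [ht.1], by linarith [ht.2]⟩
  have hleft : ∀ t ∈ Icc 0 m, |b (m - t) - bump r (t - L')| ≤ 9 * π * r * e := fun t ht => by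
    have := hLz' (t + (1 - m)) ⟨by linarith [ht.1], by linarith [ht.2]⟩
    simpa [show 1 - (t + (1 - m)) = m - t by ring] using this
  have hr2 : r ≤ 1 / 2 + e := by linarith
  obtain ⟨hsum, hclose⟩ := assemble hr he hbc hm hL hL' hLr hLr' (by linarith) hright hleft
    (by linarith : ∫ z in (0 : ℝ)..1, b z ≤ 4 / 3 * π * r ^ 3 + e)
  have hηε : η ≤ ε := (Real.le_sqrt hη.le hη.le).2 (by nlinarith) |>.trans (hηe.trans heε')
  refine ⟨hball.trans (by linarith), hr2.trans (by linarith), m, hm, fun y hy => ?_⟩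
  have hLL : L + L' ≤ C₁ * e := by
    refine le_of_mul_le_mul_left (hsum.trans_eq ?_) (show 0 < π * r ^ 2 by positivity)
    rw [hC₁]; field_simp
  have hfin : 9 * π * r * e + 2 * π * r * (L + L') + 2 * π * r * e ≤ ε := by
    refine le_trans ?_ heε
    have h1 := mul_le_mul_of_nonneg_left hLL (show 0 ≤ 2 * π * r by positivity)
    rw [hC]; linarith
  exact (hclose y hy).trans hfin

/-- A profile which nearly attains the calibrated value is that of a ball. -/
theorem line_ball {r : ℝ} (hr : 0 < r) {ε : ℝ} (hε : 0 < ε) :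
    ∃ δ, 0 < δ ∧ ∀ a a' : ℝ → ℝ, (∀ z, HasDerivAt a (a' z) z) → Continuous a' →
      Function.Periodic a 1 → (∀ z, 0 ≤ a z) → (∃ z, a z = 0) →
      |(∫ z in (0 : ℝ)..1, a z) - 4 / 3 * π * r ^ 3| ≤ δ →
      ∫ z in (0 : ℝ)..1, rho (a z) (a' z) ≤ 4 * π * r ^ 2 + δ →
      4 * π * r ^ 2 ≤ (∫ z in (0 : ℝ)..1, rho (a z) (a' z)) + ε ∧ r ≤ 1 / 2 + ε ∧
        ∃ c ∈ Icc (0 : ℝ) 1, ∀ z, |a z - cap r (circDist (z - c))| ≤ ε := by
  obtain ⟨δ, hδ, H⟩ := line_ball_zero hr hε
  refine ⟨δ, hδ, ?_⟩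
  intro a a' hd hc hper ha0 ⟨z₀, hz₀⟩ hV hE
  have hper' : Function.Periodic a' 1 := fun z => by
    have h1 : HasDerivAt (fun z => a (z + 1)) (a' (z + 1)) z := (hd (z + 1)).comp_add_const z 1
    rw [show (fun z => a (z + 1)) = a from funext hper] at h1
    exact h1.unique (hd z)
  have hshift : ∀ F : ℝ → ℝ, Function.Periodic F 1 →
      ∫ z in (0 : ℝ)..1, F (z + z₀) = ∫ z in (0 : ℝ)..1, F z := fun F hF => by
    rw [intervalIntegral.integral_comp_add_right, zero_add, add_comm 1 z₀]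
    simpa using hF.intervalIntegral_add_eq z₀ 0
  set b : ℝ → ℝ := fun z => a (z + z₀)
  set b' : ℝ → ℝ := fun z => a' (z + z₀)
  have hbd : ∀ z, HasDerivAt b (b' z) z := fun z => (hd _).comp_add_const z z₀
  have hb'c : Continuous b' := hc.comp (continuous_id.add continuous_const)
  have hbp : Function.Periodic b 1 := fun z => by
    show a (z + 1 + z₀) = a (z + z₀)
    rw [add_right_comm]; exact hper _
  have hb0 : b 0 = 0 := by simpa [b] using hz₀
  have hVb : ∫ z in (0 : ℝ)..1, b z = ∫ z in (0 : ℝ)..1, a z := hshift a hper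
  have hEb : ∫ z in (0 : ℝ)..1, rho (b z) (b' z) = ∫ z in (0 : ℝ)..1, rho (a z) (a' z) :=
    hshift (fun z => rho (a z) (a' z)) fun z => by simp only [hper z, hper' z]
  obtain ⟨h1, h2, m, -, h3⟩ := H b b' hbd hb'c hbp (fun z => ha0 _) hb0
    (by rwa [hVb]) (by rwa [hEb])
  refine ⟨hEb ▸ h1, h2, Int.fract (m + z₀),
    ⟨Int.fract_nonneg _, (Int.fract_lt_one _).le⟩, fun z => ?_⟩
  set y := Int.fract (z - z₀) with hy
  have haz : a z = b y := by
    show a z = a (Int.fract (z - z₀) + z₀)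
    rw [Int.fract, show z - z₀ - ⌊z - z₀⌋ + z₀ = z - (⌊z - z₀⌋ : ℝ) by ring]
    exact (hper.sub_int_mul_eq ⌊z - z₀⌋).symm.trans (by rw [mul_one])
  have hcz : circDist (z - Int.fract (m + z₀)) = circDist (y - m) := by
    rw [← circDist_add_int (y - m) (⌊z - z₀⌋ + ⌊m + z₀⌋), hy, Int.fract, Int.fract]
    push_cast; ring_nf
  rw [haz, hcz]
  exact h3 y ⟨Int.fract_nonneg _, (Int.fract_lt_one _).le⟩

end Ball

end Vale.Agent.P232.Classify
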