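import Vale.Agent.P232.Defs

/-!
# P232: balls, tubes and slabs in the cubic torus
-/

noncomputable section

open MeasureTheory Set

namespace Vale.Agent.P232

/-- The distance of a number to the integers. -/
def circDist (t : ℝ) : ℝ := |t - round t|

/-- The ball of radius `r` about `c` in the torus, seen as a periodic set. -/
def torusBall (c : Point) (r : ℝ) : Set Point := {x | ∑ i, circDist (x i - c i) ^ 2 < r ^ 2}

/-- The tube of radius `r` about the closed geodesic through `c` in the direction of the axis `i`. -/
def torusTube (i : Fin 3) (c : Point) (r : ℝ) : Set Point :=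
  {x | ∑ k ∈ Finset.univ.erase i, circDist (x k - c k) ^ 2 < r ^ 2}

/-- The slab `a < x i < a + w` between two coordinate tori. -/
def torusSlab (i : Fin 3) (a w : ℝ) : Set Point := {x | Int.fract (x i - a) < w}

/-- `F` is, up to a null set, a ball, tube or slab of a kind with least value at volume `v`. -/
def IsCanonicalSet (v : ℝ) (F : Set Point) : Prop :=
  (ballPer v = canonical v ∧ ∃ c r, 0 < r ∧ r ≤ 1 / 2 ∧ F =ᵐ[volume] torusBall c r) ∨
    (tubePer v = canonical v ∧
      ∃ i c r, 0 < r ∧ r ≤ 1 / 2 ∧ F =ᵐ[volume] torusTube i c r) ∨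
    (canonical v = 2 ∧ ∃ i a, F =ᵐ[volume] torusSlab i a v)

end Vale.Agent.P232
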