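import Vale.Agent.P232.Approx
import Vale.Agent.P232.Classify.Defs
import Vale.Agent.P232.Symm.Kernel

/-!
# P232: complements, canonical sets and equality up to null sets
-/

noncomputable section

open MeasureTheory Filter Topology Set
open scoped Pointwise

namespace Vale.Agent.P232.Classify

open Periodic

variable {E : Set Point} {A : ℝ}

theorem isTorusSet_compl (hE : IsTorusSet E) : IsTorusSet Eᶜ :=
  ⟨hE.1.compl, fun x i => by
    have h : (x + EuclideanSpace.single i 1 ∈ E) = (x ∈ E) := hE.2 x i
    simp only [mem_compl_iff, h]⟩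

theorem torusVolume_compl (hE : IsTorusSet E) : torusVolume Eᶜ = 1 - torusVolume E := by
  have h := measureReal_sdiff_add_inter (μ := (volume : Measure Point)) (s := cube) (t := E) hE.1
    (h := volume_cube_ne_top)
  rw [sdiff_eq, volume_real_cube, inter_comm cube Eᶜ, inter_comm cube E] at h
  simp only [torusVolume]
  linarith

/-- A set and its complement have the same perimeter bounds. -/
theorem perimeterLE_compl (hE : IsTorusSet E) (hA : PerimeterLE E A) : PerimeterLE Eᶜ A := by
  intro X hX hXp hX1
  have hd := continuous_divergence hX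
  have h0 : ∫ x in cube, divergence X x = 0 := by
    have h := integral_mul_divergence (contDiff_const (c := (1 : ℝ))) (fun _ _ => rfl) hX hXp
    simpa using h
  have hsplit : (∫ x in E ∩ cube, divergence X x) + ∫ x in Eᶜ ∩ cube, divergence X x = 0 := by
    rw [inter_comm E, inter_comm Eᶜ, ← sdiff_eq, integral_inter_add_sdiff hE.1 (integrableOn_cube hd)]
    exact h0
  have hneg : ∀ x, divergence (fun y => -X y) x = -divergence X x := fun x => by
    simp [divergence]
  have h := hA (fun y => -X y) hX.neg (fun x i => by simp only [hXp x i]) fun x => by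
    rw [norm_neg]; exact hX1 x
  simp only [hneg, integral_neg] at h
  linarith

theorem circDist_single (x : Point) (c : ℝ) (i k : Fin 3) :
    circDist ((x + EuclideanSpace.single i 1 : Point) k - c) = circDist (x k - c) := by
  by_cases h : k = i
  · subst h
    rw [PiLp.add_apply, show (EuclideanSpace.single k (1 : ℝ) : Point) k = 1 by simp,
      add_sub_right_comm, show (1 : ℝ) = ((1 : ℤ) : ℝ) by norm_num]
    exact Symm.circ_add_int _ _
  · simp [h]

theorem measurable_circDist_coord (c : ℝ) (k : Fin 3) :
    Measurable fun x : Point => circDist (x k - c) :=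
  (Symm.continuous_circ.comp
    ((EuclideanSpace.proj (𝕜 := ℝ) k).continuous.sub continuous_const)).measurable

theorem isTorusSet_ball (c : Point) (r : ℝ) : IsTorusSet (torusBall c r) :=
  ⟨measurableSet_lt (Finset.measurable_sum _ fun k _ => (measurable_circDist_coord (c k) k).pow_const 2)
    measurable_const, fun x i => by
    simp only [torusBall, mem_ofPred_eq, circDist_single]⟩

theorem isTorusSet_tube (j : Fin 3) (c : Point) (r : ℝ) : IsTorusSet (torusTube j c r) :=
  ⟨measurableSet_lt (Finset.measurable_sum _ fun k _ => (measurable_circDist_coord (c k) k).pow_const 2)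
    measurable_const, fun x i => by
    simp only [torusTube, mem_ofPred_eq, circDist_single]⟩

theorem isTorusSet_slab (j : Fin 3) (a w : ℝ) : IsTorusSet (torusSlab j a w) :=
  ⟨measurableSet_lt (measurable_fract.comp
      ((EuclideanSpace.proj (𝕜 := ℝ) j).continuous.measurable.sub_const a)) measurable_const,
    fun x i => by
      by_cases h : j = i
      · subst h
        simp [torusSlab, add_sub_right_comm]
      · simp [torusSlab, h]⟩

/-- Periodic sets which agree in the box up to a null set agree up to a null set. -/
theorem ae_eq_of_box {F T : Set Point} (hF : IsTorusSet F) (hT : IsTorusSet T)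
    (h : (fun x : Fin 3 → ℝ => ApproxAux.ind F (WithLp.toLp 2 x)) =ᵐ[volume.restrict (box 3)]
      fun x => ApproxAux.ind T (WithLp.toLp 2 x)) : F =ᵐ[volume] T := by
  have hpre : WithLp.toLp 2 ⁻¹' cube = box 3 := by ext x; simp [cube, box]
  have hmp : MeasurePreserving (WithLp.toLp 2 : (Fin 3 → ℝ) → Point) (volume.restrict (box 3))
      (volume.restrict cube) :=
    hpre ▸ (PiLp.volume_preserving_toLp (Fin 3)).restrict_preimage measurableSet_cube
  set D := symmDiff F T with hDdef
  have hDm : MeasurableSet D := hF.1.symmDiff hT.1
  have hD0 : volume.restrict cube D = 0 := by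
    rw [← hmp.measure_preimage hDm.nullMeasurableSet, ← compl_compl (WithLp.toLp 2 ⁻¹' D)]
    refine mem_ae_iff.1 ?_
    filter_upwards [h] with x hx
    simp only [mem_compl_iff, mem_preimage, hDdef, Set.mem_symmDiff]
    by_cases a : (WithLp.toLp 2 x : Point) ∈ F <;>
      by_cases b : (WithLp.toLp 2 x : Point) ∈ T <;> simp_all [ApproxAux.ind]
  rw [Measure.restrict_apply hDm] at hD0
  rw [← measure_symmDiff_eq_zero_iff]
  have hs := ZSpan.isAddFundamentalDomain (EuclideanSpace.basisFun (Fin 3) ℝ).toBasis
    (volume : Measure Point)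
  rw [← cube_eq] at hs
  have : VAddInvariantMeasure
      (Submodule.span ℤ (Set.range (EuclideanSpace.basisFun (Fin 3) ℝ).toBasis)) Point volume :=
    ⟨fun g s _ => measure_preimage_add volume (g : Point) s⟩
  refine hs.measure_zero_of_invariant _ (fun g => ?_) hD0
  have hper : IsPeriodic fun x => x ∈ D := fun x i => by
    have h1 : (x + EuclideanSpace.single i 1 ∈ F) = (x ∈ F) := hF.2 x i
    have h2 : (x + EuclideanSpace.single i 1 ∈ T) = (x ∈ T) := hT.2 x i
    simp only [hDdef, Set.mem_symmDiff, h1, h2]
  ext x
  rw [mem_vadd_set_iff_neg_vadd_mem]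
  exact Iff.of_eq (apply_add_of_mem hper (-g).2 x)

end Vale.Agent.P232.Classify
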