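import Vale.Agent.P232.Competitors
import Vale.Agent.P232.Classify.Bridge

/-!
# P232: every canonical set has the least perimeter

Balls, tubes and slabs are moved copies of the three models, and moving a periodic set by a
translation or an exchange of two axes keeps its volume and its perimeter bounds.
-/

noncomputable section

open MeasureTheory Filter Topology Set

namespace Vale.Agent.P232.Classify

open Periodic

variable {E F : Set Point}

/-- `F` has the volume of `E` and all its perimeter bounds. -/
def Moved (F E : Set Point) : Prop :=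
  torusVolume F = torusVolume E ∧ ∀ A, PerimeterLE E A → PerimeterLE F A

theorem Moved.trans {G : Set Point} (h : Moved F E) (h' : Moved E G) : Moved F G :=
  ⟨h.1.trans h'.1, fun A hA => h.2 A (h'.2 A hA)⟩

theorem moved_ae (h : F =ᵐ[volume] E) : Moved F E := by
  have hi : (F ∩ cube : Set Point) =ᵐ[volume] (E ∩ cube : Set Point) := h.inter EventuallyEq.rfl
  exact ⟨measureReal_congr hi, fun A hA X hX hXp hX1 =>
    (setIntegral_congr_set hi).trans_le (hA X hX hXp hX1)⟩

theorem integral_ind_mul (hE : MeasurableSet E) (k : Point → ℝ) :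
    ∫ x in cube, E.indicator (fun _ => (1 : ℝ)) x * k x = ∫ x in E ∩ cube, k x := by
  rw [inter_comm, ← setIntegral_indicator hE]
  refine setIntegral_congr_fun measurableSet_cube fun x _ => ?_
  by_cases hx : x ∈ E <;> simp [hx]

theorem torusVolume_eq (hE : MeasurableSet E) :
    torusVolume E = ∫ x in cube, E.indicator (fun _ => (1 : ℝ)) x * 1 := by
  rw [integral_ind_mul hE]
  simp [torusVolume]

theorem isTorusSet_translate (hE : IsTorusSet E) (a : Point) :
    IsTorusSet ((fun x => x + a) ⁻¹' E) :=
  ⟨(measurable_id.add_const a) hE.1, fun x i => by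
    simp only [mem_preimage, add_right_comm]
    exact hE.2 _ i⟩

/-- Translations. -/
theorem moved_translate (hE : IsTorusSet E) (a : Point) :
    Moved ((fun x => x + a) ⁻¹' E) E := by
  have hF := (isTorusSet_translate hE a).1
  have key : ∀ k : Point → ℝ, IsPeriodic k →
      ∫ x in (fun x => x + a) ⁻¹' E ∩ cube, k (x + a) = ∫ x in E ∩ cube, k x := by
    intro k hk
    rw [← integral_ind_mul hF, ← integral_ind_mul hE.1]
    refine Eq.trans ?_ (integral_translate
      (h := fun x => E.indicator (fun _ => (1 : ℝ)) x * k x) (fun x i => by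
        show _ * _ = _ * _
        rw [hk x i, show E.indicator (fun _ => (1 : ℝ)) (x + EuclideanSpace.single i 1) =
          E.indicator (fun _ => (1 : ℝ)) x from ApproxAux.ind_periodic hE x i]) a)
    refine setIntegral_congr_fun measurableSet_cube fun x _ => ?_
    congr 1
  constructor
  · have h := key (fun _ => 1) (fun _ _ => rfl)
    simpa [torusVolume] using h
  · intro A hA X hX hXp hX1
    set Y : Point → Point := fun y => X (y + -a) with hY
    have hYd : ∀ x, divergence Y (x + a) = divergence X x := fun x => by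
      simp only [hY, divergence, fderiv_comp_add_right]
      simp
    have hYp : IsPeriodic Y := fun x i => by
      show X _ = X _
      rw [add_right_comm, hXp]
    have h := key (divergence Y) (divergence_periodic hYp)
    simp only [hYd] at h
    rw [h]
    exact hA Y (hX.comp (by fun_prop)) hYp fun y => hX1 _

/-- The exchange of two axes. -/
def swapAxes (i j : Fin 3) : Point ≃ₗᵢ[ℝ] Point :=
  LinearIsometryEquiv.piLpCongrLeft 2 ℝ ℝ (Equiv.swap i j)

theorem swapAxes_apply (i j : Fin 3) (x : Point) (k : Fin 3) :
    swapAxes i j x k = x (Equiv.swap i j k) := by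
  simp [swapAxes, Equiv.piCongrLeft']

theorem swapAxes_self (i j : Fin 3) (x : Point) : swapAxes i j (swapAxes i j x) = x := by
  ext k
  simp [swapAxes_apply]

theorem swapAxes_single (i j k : Fin 3) :
    swapAxes i j (EuclideanSpace.single k 1) = EuclideanSpace.single (Equiv.swap i j k) 1 := by
  ext l
  rw [swapAxes_apply]
  rcases eq_or_ne l (Equiv.swap i j k) with h | h
  · subst h; simp
  · have h2 : Equiv.swap i j l ≠ k := fun e => h (by rw [← e]; simp)
    simp [h, h2]

theorem swapAxes_cube (i j : Fin 3) : swapAxes i j ⁻¹' cube = cube := by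
  ext x
  simp only [cube, mem_preimage, mem_ofPred_eq, swapAxes_apply]
  exact ⟨fun h k => by simpa using h (Equiv.swap i j k), fun h k => h _⟩

theorem isTorusSet_swap (hE : IsTorusSet E) (i j : Fin 3) : IsTorusSet (swapAxes i j ⁻¹' E) :=
  ⟨(swapAxes i j).continuous.measurable hE.1, fun x k => by
    simp only [mem_preimage, map_add, swapAxes_single]
    exact hE.2 _ _⟩

/-- Exchanges of axes. -/
theorem moved_swap (i j : Fin 3) : Moved (swapAxes i j ⁻¹' E) E := by
  set P := swapAxes i j
  have hmp := P.measurePreserving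
  have hemb : MeasurableEmbedding P := P.toHomeomorph.measurableEmbedding
  have hpre : P ⁻¹' E ∩ cube = P ⁻¹' (E ∩ cube) := by rw [preimage_inter, swapAxes_cube]
  have key : ∀ k : Point → ℝ, ∫ x in P ⁻¹' E ∩ cube, k (P x) = ∫ x in E ∩ cube, k x := fun k => by
    rw [hpre]; exact hmp.setIntegral_preimage_emb hemb k _
  constructor
  · have h := key fun _ => 1
    simpa [torusVolume, setIntegral_const] using h
  · intro A hA X hX hXp hX1
    set Y : Point → Point := fun y => P (X (P y)) with hY
    have hYc : ContDiff ℝ 1 Y := P.contDiff.comp (hX.comp P.contDiff)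
    have hYd : ∀ x, divergence Y (P x) = divergence X x := by
      intro x
      have hd : HasFDerivAt Y ((P : Point →L[ℝ] Point).comp
          ((fderiv ℝ X x).comp (P : Point →L[ℝ] Point))) (P x) := by
        have h1 : HasFDerivAt X (fderiv ℝ X x) (P (P x)) := by
          rw [swapAxes_self]; exact (hX.differentiable one_ne_zero x).hasFDerivAt
        exact (P : Point →L[ℝ] Point).hasFDerivAt.comp _
          (h1.comp _ (P : Point →L[ℝ] Point).hasFDerivAt)
      simp only [divergence, hd.fderiv]
      refine (Finset.sum_congr rfl fun k _ => ?_).trans (Equiv.sum_comp (Equiv.swap i j)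
        fun k => fderiv ℝ X x (EuclideanSpace.single k 1) k)
      show P (fderiv ℝ X x (P (EuclideanSpace.single k 1))) k = _
      rw [swapAxes_single, swapAxes_apply]
    have hYp : IsPeriodic Y := fun x k => by
      show P _ = P _
      rw [map_add, swapAxes_single, hXp]
    have h := key (divergence Y)
    simp only [hYd] at h
    rw [h]
    exact hA Y hYc hYp fun y => by rw [hY, P.norm_map]; exact hX1 _

theorem circDist_eq_fract (t : ℝ) : circDist t = |Int.fract (t + 1 / 2) - 1 / 2| := by
  rw [circDist, round_eq, Int.fract]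
  congr 1
  ring

theorem mem_body {d : ℕ} (hd : d ≤ 3) {r : ℝ} (hr : 0 ≤ r) (x : Point) :
    x ∈ Compet.body hd r ↔ ∑ j : Fin d, (Int.fract (x (Fin.castLE hd j)) - 1 / 2) ^ 2 < r ^ 2 := by
  show Compet.pr hd (Compet.fr x) ∈ Metric.ball (Compet.mid d) r ↔ _
  rw [mem_ball_iff_norm, ← pow_lt_pow_iff_left₀ (norm_nonneg _) hr two_ne_zero,
    EuclideanSpace.norm_sq_eq]
  simp [Compet.pr_apply, Compet.fr, Compet.mid]

theorem ball_moved (c : Point) {r : ℝ} (hr : 0 ≤ r) :
    Moved (torusBall c r) (Compet.body (d := 3) le_rfl r) := by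
  set a : Point := WithLp.toLp 2 fun k => 1 / 2 - c k
  have e : torusBall c r = (fun x => x + a) ⁻¹' Compet.body (d := 3) le_rfl r := by
    ext x
    rw [mem_preimage, mem_body _ hr]
    show (∑ k, circDist (x k - c k) ^ 2 < r ^ 2) ↔ _
    simp only [circDist_eq_fract, sq_abs]
    simp [a, sub_add_eq_add_sub, add_sub]
  rw [e]
  exact moved_translate (Compet.isTorusSet_body _ r) a

theorem tube_moved (i : Fin 3) (c : Point) {r : ℝ} (hr : 0 ≤ r) :
    Moved (torusTube i c r) (Compet.body (d := 2) (by norm_num) r) := by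
  set a : Point := WithLp.toLp 2 fun k => 1 / 2 - c k
  have e : torusTube i c r = (fun x => x + a) ⁻¹'
      (swapAxes i 2 ⁻¹' Compet.body (d := 2) (by norm_num) r) := by
    ext x
    rw [mem_preimage, mem_preimage, mem_body _ hr]
    show (∑ k ∈ Finset.univ.erase i, circDist (x k - c k) ^ 2 < r ^ 2) ↔ _
    rw [Finset.sum_erase_eq_sub (Finset.mem_univ i), Fin.sum_univ_three, Fin.sum_univ_two]
    simp only [circDist_eq_fract, sq_abs, swapAxes_apply]
    fin_cases i <;>
      simp [a, Equiv.swap_apply_def, sub_add_eq_add_sub, add_sub, add_comm] <;> ring_nf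
  rw [e]
  exact (moved_translate (isTorusSet_swap (Compet.isTorusSet_body _ r) i 2) a).trans
    (moved_swap i 2)

theorem volume_level_coord (i : Fin 3) (a : ℝ) :
    volume {x : Point | Int.fract (x i - a) = 0} = 0 := by
  have hm : MeasurableSet {x : Point | Int.fract (x i - a) = 0} :=
    measurableSet_eq_fun (measurable_fract.comp
      ((EuclideanSpace.proj (𝕜 := ℝ) i).continuous.measurable.sub_const a)) measurable_const
  rw [← (PiLp.volume_preserving_toLp (Fin 3)).measure_preimage hm.nullMeasurableSet]
  refine measure_mono_null (t := ⋃ n : ℤ, {y : Fin 3 → ℝ | y i = a + n}) (fun y hy => ?_)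
    (measure_iUnion_null fun n => by rw [volume_pi]; exact Measure.pi_hyperplane _ i _)
  refine mem_iUnion.2 ⟨⌊y i - a⌋, ?_⟩
  have := Int.floor_add_fract (y i - a)
  rw [show Int.fract (y i - a) = 0 from hy] at this
  show y i = a + _
  linarith

theorem slab_moved (i : Fin 3) (a : ℝ) {w : ℝ} (hw : 0 < w) (hw1 : w ≤ 1) :
    Moved (torusSlab i a w) (Compet.body (d := 1) (by norm_num) (w / 2)) := by
  set b : Point := WithLp.toLp 2 fun _ => (1 - w) / 2 - a
  refine (moved_ae ?_).trans ((moved_translate
    (isTorusSet_swap (Compet.isTorusSet_body _ (w / 2)) i 0) b).trans (moved_swap i 0))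
  refine ae_eq_set.2 ?_
  rw [and_iff_right_of_imp fun h => measure_mono_null (t := {x : Point | Int.fract (x i - a) = 0})
    ?_ (volume_level_coord i a)]
  · refine measure_mono_null (fun x ⟨hx, hx'⟩ => ?_) (measure_empty (μ := volume))
    rw [mem_preimage, mem_preimage, mem_body _ (by linarith), Fin.sum_univ_one, swapAxes_apply,
      sq_lt_sq, abs_of_nonneg (show 0 ≤ w / 2 by linarith), abs_lt] at hx
    simp [b] at hx
    obtain ⟨h1, h2⟩ := hx
    rw [show x i + ((1 - w) / 2 - a) = x i - a + (1 - w) / 2 by ring] at h1 h2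
    have hs := Int.fract_nonneg (x i - a)
    have hs1 := Int.fract_lt_one (x i - a)
    have hw' : w ≤ Int.fract (x i - a) := not_lt.1 hx'
    have hf : Int.fract (x i - a + (1 - w) / 2) = Int.fract (x i - a) + (1 - w) / 2 ∨
        Int.fract (x i - a + (1 - w) / 2) = Int.fract (x i - a) + (1 - w) / 2 - 1 := by
      rcases lt_or_ge (Int.fract (x i - a) + (1 - w) / 2) 1 with h | h
      · left
        exact Int.fract_eq_iff.2 ⟨by linarith, h, ⌊x i - a⌋, by rw [Int.fract]; ring⟩
      · right
        exact Int.fract_eq_iff.2 ⟨by linarith, by linarith, ⌊x i - a⌋ + 1, by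
          rw [Int.fract]; push_cast; ring⟩
    rcases hf with hf | hf <;> rw [hf] at h1 h2 <;> exact absurd h2 (by linarith)
  · rintro x ⟨hx, hx'⟩
    have hlt : Int.fract (x i - a) < w := hx
    by_contra h0
    have h0' : 0 < Int.fract (x i - a) := lt_of_le_of_ne (Int.fract_nonneg _) (Ne.symm h0)
    apply hx'
    rw [mem_preimage, mem_preimage, mem_body _ (by linarith), Fin.sum_univ_one, swapAxes_apply,
      sq_lt_sq, abs_of_nonneg (show 0 ≤ w / 2 by linarith), abs_lt]
    have hf : Int.fract (x i + ((1 - w) / 2 - a)) = Int.fract (x i - a) + (1 - w) / 2 :=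
      Int.fract_eq_iff.2 ⟨by linarith, by linarith, ⌊x i - a⌋, by rw [Int.fract]; ring⟩
    simp [b, hf]
    constructor <;> linarith

/-- A ball, tube or slab of a kind with least value attains it. -/
theorem perimeterLE_of_canonical {F : Set Point} {v : ℝ} (hv0 : 0 < v) (hv1 : v ≤ 1 / 2)
    (_hF : IsTorusSet F) (hvol : torusVolume F = v) (h : IsCanonicalSet v F) :
    PerimeterLE F (canonical v) := by
  have hπ := Real.pi_gt_three
  rcases h with ⟨hk, c, r, hr, hr2, he⟩ | ⟨hk, i, c, r, hr, hr2, he⟩ | ⟨hk, i, a, he⟩
  · have hm := (moved_ae he).trans (ball_moved c hr.le)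
    have hv : v = r ^ 3 * (Real.pi * 4 / 3) := by
      rw [← hvol, hm.1, Compet.torusVolume_body _ hr hr2, Compet.ball_three]
    have hlt : r < 1 / 2 := hr2.lt_of_ne fun e => by subst e; linarith
    have hA : ballPer v =
        (3 : ℕ) * (volume (Metric.ball (0 : Compet.Sub 3) 1)).toReal * r ^ (3 - 1) := by
      rw [Compet.ball_three, hv, ballPer, show (2 / 3 : ℝ) = ((2 : ℕ) : ℝ) * (1 / 3) by norm_num,
        Real.rpow_mul (by positivity), Real.rpow_natCast,
        ← Real.mul_rpow (by positivity) (by positivity),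
        show 36 * Real.pi * (r ^ 3 * (Real.pi * 4 / 3)) ^ 2 = (4 * Real.pi * r ^ 2) ^ 3 by ring,
        one_div, show (3 : ℝ) = ((3 : ℕ) : ℝ) by norm_num,
        Real.pow_rpow_inv_natCast (by positivity) (by norm_num)]
      push_cast; ring
    rw [← hk, hA]
    exact hm.2 _ (Compet.perimeterLE_body le_rfl (by norm_num) hr hlt)
  · have hm := (moved_ae he).trans (tube_moved i c hr.le)
    have hv : v = r ^ 2 * Real.pi := by
      rw [← hvol, hm.1, Compet.torusVolume_body _ hr hr2, Compet.ball_two]
    have hlt : r < 1 / 2 := hr2.lt_of_ne fun e => by subst e; linarith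
    have hA : tubePer v =
        (2 : ℕ) * (volume (Metric.ball (0 : Compet.Sub 2) 1)).toReal * r ^ (2 - 1) := by
      rw [Compet.ball_two, tubePer, hv,
        show Real.pi * (r ^ 2 * Real.pi) = (Real.pi * r) ^ 2 by ring,
        Real.sqrt_sq (by positivity)]
      push_cast; ring
    rw [← hk, hA]
    exact hm.2 _ (Compet.perimeterLE_body (by norm_num) (by norm_num) hr hlt)
  · have hm := (moved_ae he).trans (slab_moved i a hv0 (by linarith))
    have h2 := hm.2 _ (Compet.perimeterLE_body (d := 1) (by norm_num) one_pos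
      (r := v / 2) (by linarith) (by linarith))
    rw [hk]
    simpa [Compet.ball_one] using h2

end Vale.Agent.P232.Classify
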