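import Vale.Agent.P232.Classify.Pins

/-!
# P232: a function which runs with unit speed except near both ends
-/

noncomputable section

open MeasureTheory Filter Topology Set

namespace Vale.Agent.P232.Classify

namespace Line

variable {σ τ z₀ z₁ δ : ℝ} {R R' : ℝ → ℝ}

/-- Inside the band the increments follow the time. -/
theorem increment (hRc : ContinuousOn R (Icc z₀ z₁))
    (hR'c : ContinuousOn R' {z ∈ Icc z₀ z₁ | R z ∈ Icc σ τ})
    (hd : ∀ z ∈ Ioo z₀ z₁, R z ∈ Icc σ τ → HasDerivAt R (R' z) z)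
    (hδ : ∫ z in {z ∈ Icc z₀ z₁ | R z ∈ Icc σ τ}, |1 - R' z| ≤ δ)
    {p q : ℝ} (hp : z₀ ≤ p) (hpq : p ≤ q) (hq : q ≤ z₁) (hin : ∀ z ∈ Icc p q, R z ∈ Icc σ τ) :
    |R q - R p - (q - p)| ≤ δ := by
  set S := {z ∈ Icc z₀ z₁ | R z ∈ Icc σ τ}
  have hsub : Icc p q ⊆ S := fun z hz => ⟨⟨hp.trans hz.1, hz.2.trans hq⟩, hin z hz⟩
  have hS : IsCompact S := by
    refine IsCompact.of_isClosed_subset isCompact_Icc ?_ fun z hz => hz.1
    exact hRc.preimage_isClosed_of_isClosed isClosed_Icc isClosed_Icc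
  have hI : IntervalIntegrable R' volume p q :=
    (hR'c.mono hsub).intervalIntegrable_of_Icc hpq
  have hftc : ∫ z in p..q, R' z = R q - R p :=
    intervalIntegral.integral_eq_sub_of_hasDerivAt_of_le hpq (hRc.mono fun z hz => (hsub hz).1)
      (fun z hz => hd z ⟨hp.trans_lt hz.1, hz.2.trans_le hq⟩ (hin z (Ioo_subset_Icc_self hz))) hI
  have hsplit : ∫ z in p..q, (1 - R' z) = (q - p) - (R q - R p) := by
    rw [intervalIntegral.integral_sub intervalIntegrable_const hI, hftc]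
    simp
  rw [abs_sub_comm, ← hsplit]
  refine (intervalIntegral.abs_integral_le_integral_abs hpq).trans ?_
  refine le_trans ?_ hδ
  rw [intervalIntegral.integral_of_le hpq]
  refine setIntegral_mono_set ((continuousOn_const.sub hR'c).abs.integrableOn_compact hS)
    (ae_of_all _ fun z => abs_nonneg _) (LE.le.eventuallyLE ?_)
  exact Ioc_subset_Icc_self.trans hsub

/-- Inside the band there is no descent by more than the error. -/
theorem no_drop (hστ : σ ≤ τ) (hRc : ContinuousOn R (Icc z₀ z₁))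
    (hR'c : ContinuousOn R' {z ∈ Icc z₀ z₁ | R z ∈ Icc σ τ})
    (hd : ∀ z ∈ Ioo z₀ z₁, R z ∈ Icc σ τ → HasDerivAt R (R' z) z)
    (hδ : ∫ z in {z ∈ Icc z₀ z₁ | R z ∈ Icc σ τ}, |1 - R' z| ≤ δ) {x y : ℝ}
    (hx : z₀ ≤ x) (hxy : x ≤ y) (hy : y ≤ z₁) :
    max σ (min τ (R x)) ≤ max σ (min τ (R y)) + δ := by
  have hδ0 : 0 ≤ δ := (setIntegral_nonneg_of_ae (ae_of_all _ fun z => abs_nonneg _)).trans hδ
  set hi := max σ (min τ (R x))
  set lo := max σ (min τ (R y))
  rcases le_or_gt hi lo with h | h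
  · linarith
  have hiτ : hi ≤ τ := max_le hστ (min_le_left _ _)
  have hloσ : σ ≤ lo := le_max_left _ _
  have hxi : hi ≤ R x := max_le
    (by by_contra hc
        have : hi = σ := max_eq_left ((min_le_right _ _).trans (not_le.1 hc).le)
        linarith)
    (min_le_right _ _)
  have hyl : R y ≤ lo := by
    by_contra hc
    have : τ ≤ lo := by
      rcases le_total τ (R y) with h' | h'
      · exact (min_eq_left h').ge.trans (le_max_right _ _)
      · exact absurd ((min_eq_right h').ge.trans (le_max_right σ _)) hc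
    linarith
  have hc' : ContinuousOn R (Icc x y) := hRc.mono (Icc_subset_Icc hx hy)
  obtain ⟨p, ⟨hpI, hpR⟩, hpmax⟩ := (IsCompact.of_isClosed_subset isCompact_Icc
      (hc'.preimage_isClosed_of_isClosed isClosed_Icc isClosed_Ici) inter_subset_left).exists_isMaxOn
    (s := Icc x y ∩ R ⁻¹' Ici hi) ⟨x, left_mem_Icc.2 hxy, hxi⟩ continuousOn_id
  have hc'' : ContinuousOn R (Icc p y) := hc'.mono (Icc_subset_Icc_left hpI.1)
  obtain ⟨q, ⟨hqI, hqR⟩, hqmin⟩ := (IsCompact.of_isClosed_subset isCompact_Icc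
      (hc''.preimage_isClosed_of_isClosed isClosed_Icc isClosed_Iic) inter_subset_left).exists_isMinOn
    (s := Icc p y ∩ R ⁻¹' Iic lo) ⟨y, right_mem_Icc.2 hpI.2, hyl⟩ continuousOn_id
  simp only [mem_preimage, mem_Ici, mem_Iic] at hpR hqR
  have hpq : p < q := lt_of_le_of_ne hqI.1 (by rintro rfl; linarith)
  have above : ∀ z ∈ Ioc p y, R z < hi := fun z hz => by
    by_contra hge
    have := hpmax ⟨⟨hpI.1.trans hz.1.le, hz.2⟩, not_lt.1 hge⟩
    simp only [mem_ofPred_eq, id] at this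
    linarith [hz.1]
  have below : ∀ z ∈ Ico p q, lo < R z := fun z hz => by
    by_contra hle
    have := hqmin ⟨⟨hz.1, hz.2.le.trans hqI.2⟩, not_lt.1 hle⟩
    simp only [mem_ofPred_eq, id] at this
    linarith [hz.2]
  have hpe : R p = hi := by
    refine le_antisymm ?_ hpR
    have hcl : p ∈ closure (Ioc p y) := by
      rw [closure_Ioc (hpq.trans_le hqI.2).ne]
      exact left_mem_Icc.2 hpI.2
    exact ContinuousWithinAt.closure_le hcl
      ((hc'' p (left_mem_Icc.2 hpI.2)).mono Ioc_subset_Icc_self) continuousWithinAt_const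
      fun z hz => (above z hz).le
  have hqe : R q = lo := by
    refine le_antisymm hqR ?_
    have hcl : q ∈ closure (Ico p q) := by
      rw [closure_Ico hpq.ne]
      exact right_mem_Icc.2 hpq.le
    exact ContinuousWithinAt.closure_le hcl continuousWithinAt_const
      ((hc'' q hqI).mono fun z hz => ⟨hz.1, hz.2.le.trans hqI.2⟩) fun z hz => (below z hz).le
  have hin : ∀ z ∈ Icc p q, R z ∈ Icc σ τ := by
    intro z hz
    rcases hz.1.eq_or_lt with rfl | h1
    · rw [hpe]; exact ⟨hloσ.trans h.le, hiτ⟩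
    rcases hz.2.eq_or_lt with rfl | h2
    · rw [hqe]; exact ⟨hloσ, h.le.trans hiτ⟩
    exact ⟨hloσ.trans (below z ⟨h1.le, h2⟩).le, (above z ⟨h1, h2.le.trans hqI.2⟩).le.trans hiτ⟩
  have := increment hRc hR'c hd hδ (hx.trans hpI.1) hpq.le (hqI.2.trans hy) hin
  rw [hpe, hqe, abs_le] at this
  linarith [this.1]

end Line

open Line in
theorem profileLine : ProfileLine := by
  intro r hr ε hε
  refine ⟨min (ε / 4) (r / 8), min (ε / 4) (r / 8), by positivity, ?_, by positivity, ?_⟩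
  · linarith [min_le_right (ε / 4) (r / 8)]
  set σ := min (ε / 4) (r / 8) with hσ
  have hσ0 : 0 < σ := by positivity
  have hσε : σ ≤ ε / 4 := min_le_left _ _
  have hσr : σ ≤ r / 8 := min_le_right _ _
  intro R R' z₀ z₁ h01 _ hRc hR'c hd h0 h1 hint
  have hστ : σ ≤ r - σ := by linarith
  obtain ⟨t₁, ⟨ht1I, ht1R⟩, ht1max⟩ := (IsCompact.of_isClosed_subset isCompact_Icc
      (hRc.preimage_isClosed_of_isClosed isClosed_Icc isClosed_Iic) inter_subset_left).exists_isMaxOn
    (s := Icc z₀ z₁ ∩ R ⁻¹' Iic σ) ⟨z₀, left_mem_Icc.2 h01, h0⟩ continuousOn_id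
  simp only [mem_preimage, mem_Iic] at ht1R
  have low : ∀ z ∈ Icc z₀ z₁, z ≤ t₁ → R z ≤ σ + σ := fun z hz hzt => by
    have h := no_drop hστ hRc hR'c hd hint hz.1 hzt ht1I.2
    rw [max_eq_left ((min_le_right _ _).trans ht1R)] at h
    have := (le_max_right σ (min (r - σ) (R z))).trans h
    rcases min_choice (r - σ) (R z) with e | e <;> rw [e] at this <;> linarith
  have hgt : ∀ z ∈ Ioc t₁ z₁, σ < R z := fun z hz => by
    by_contra hle
    have := ht1max ⟨⟨ht1I.1.trans hz.1.le, hz.2⟩, not_lt.1 hle⟩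
    simp only [mem_ofPred_eq, id] at this
    linarith [hz.1]
  have hc1 : ContinuousOn R (Icc t₁ z₁) := hRc.mono (Icc_subset_Icc_left ht1I.1)
  obtain ⟨t₂, ⟨ht2I, ht2R⟩, ht2min⟩ := (IsCompact.of_isClosed_subset isCompact_Icc
      (hc1.preimage_isClosed_of_isClosed isClosed_Icc isClosed_Ici) inter_subset_left).exists_isMinOn
    (s := Icc t₁ z₁ ∩ R ⁻¹' Ici (r - σ)) ⟨z₁, right_mem_Icc.2 ht1I.2, h1⟩ continuousOn_id
  simp only [mem_preimage, mem_Ici] at ht2R
  have h12 : t₁ < t₂ := lt_of_le_of_ne ht2I.1 (by rintro rfl; linarith)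
  have hlt : ∀ z ∈ Ico t₁ t₂, R z < r - σ := fun z hz => by
    by_contra hge
    have := ht2min ⟨⟨hz.1, hz.2.le.trans ht2I.2⟩, not_lt.1 hge⟩
    simp only [mem_ofPred_eq, id] at this
    linarith [hz.2]
  have e1 : R t₁ = σ := by
    refine le_antisymm ht1R ?_
    have hcl : t₁ ∈ closure (Ioc t₁ t₂) := by
      rw [closure_Ioc h12.ne]; exact left_mem_Icc.2 h12.le
    exact ContinuousWithinAt.closure_le hcl continuousWithinAt_const
      ((hc1 t₁ (left_mem_Icc.2 ht1I.2)).mono fun z hz => ⟨hz.1.le, hz.2.trans ht2I.2⟩)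
      fun z hz => (hgt z ⟨hz.1, hz.2.trans ht2I.2⟩).le
  have e2 : R t₂ = r - σ := by
    refine le_antisymm ?_ ht2R
    have hcl : t₂ ∈ closure (Ico t₁ t₂) := by
      rw [closure_Ico h12.ne]; exact right_mem_Icc.2 h12.le
    exact ContinuousWithinAt.closure_le hcl
      ((hc1 t₂ ht2I).mono fun z hz => ⟨hz.1, hz.2.le.trans ht2I.2⟩) continuousWithinAt_const
      fun z hz => (hlt z hz).le
  have hin : ∀ z ∈ Icc t₁ t₂, R z ∈ Icc σ (r - σ) := fun z hz => by
    rcases hz.1.eq_or_lt with rfl | h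
    · rw [e1]; exact ⟨le_rfl, hστ⟩
    rcases hz.2.eq_or_lt with rfl | h'
    · rw [e2]; exact ⟨hστ, le_rfl⟩
    exact ⟨(hgt z ⟨h, h'.le.trans ht2I.2⟩).le, (hlt z ⟨h.le, h'⟩).le⟩
  have hwhole := abs_le.1 (increment hRc hR'c hd hint ht1I.1 h12.le ht2I.2 hin)
  rw [e1, e2] at hwhole
  refine ⟨t₁ - z₀, by linarith [ht1I.1], by linarith [ht2I.2, hwhole.2], fun z hz => ?_⟩
  rw [show z - z₀ - (t₁ - z₀) = z - t₁ by ring]
  have lip : ∀ a b : ℝ, |max 0 (min r a) - max 0 (min r b)| ≤ |a - b| := fun a b => by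
    have h := (LipschitzWith.id.const_min r).const_max 0
    simpa [Real.dist_eq] using h.dist_le_mul a b
  rcases le_total z t₁ with h | h
  · have := low z hz h
    rw [max_eq_left ((min_le_right r _).trans (sub_nonpos.2 h)), sub_zero,
      abs_of_nonneg (le_max_left _ _)]
    exact max_le hε.le ((min_le_right _ _).trans (by linarith))
  rcases le_total z t₂ with h' | h'
  · refine (lip _ _).trans ?_
    have := abs_le.1 (increment hRc hR'c hd hint ht1I.1 h hz.2
      fun w hw => hin w ⟨hw.1, hw.2.trans h'⟩)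
    rw [e1] at this
    exact abs_le.2 ⟨by linarith [this.1], by linarith [this.2]⟩
  · have hd' := no_drop hστ hRc hR'c hd hint (ht1I.1.trans ht2I.1) h' hz.2
    rw [e2, min_self, max_eq_right hστ] at hd'
    have hRz : r - σ - σ ≤ R z := by
      by_contra hc
      have := max_lt (show σ < r - σ - σ by linarith)
        ((min_le_right (r - σ) _).trans_lt (not_le.1 hc))
      linarith
    have a1 : r - σ - σ ≤ max 0 (min r (R z)) :=
      (le_min (by linarith) hRz).trans (le_max_right _ _)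
    have a2 : r - σ - σ - σ ≤ max 0 (min r (z - t₁)) :=
      (le_min (by linarith) (by linarith [hwhole.2])).trans (le_max_right _ _)
    have b1 : max 0 (min r (R z)) ≤ r := max_le hr.le (min_le_left _ _)
    have b2 : max 0 (min r (z - t₁)) ≤ r := max_le hr.le (min_le_left _ _)
    exact abs_le.2 ⟨by linarith, by linarith⟩

end Vale.Agent.P232.Classify
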