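import Vale.Agent.P232.Classify.DiscArms
import Vale.Agent.P232.Classify.ProfileLine

/-!
# P232: an invariant axis and two gaps leave a tube
-/

noncomputable section

open MeasureTheory Filter Topology Set

namespace Vale.Agent.P232.Classify.Disc

/-- One axis: the second moment about the largest slice. -/
theorem axis_moment {r ε : ℝ} (hr : 0 < r) (hr2 : r ≤ 1 / 2) (hε : 0 < ε) :
    ∃ ν > 0, ∀ (u : (Fin 3 → ℝ) → ℝ) (i j k : Fin 3) (z₀ : ℝ), Adm u → j ≠ i → k ≠ i → k ≠ j →
      HasGap u j → HasGap u k → (∀ z, area u j z ≤ area u j z₀) → 0 < area u j z₀ →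
      |area u j z₀ / 2 - r| ≤ ν → excess u i j z₀ ≤ ν → dfct u + axial u i ≤ ν →
      mean u ≤ Real.pi * r ^ 2 + ν → energy u ≤ 4 →
        ∫ z in (0 : ℝ)..1, circDist (z - z₀) ^ 2 * area u j z ≤ Real.pi * r ^ 4 / 4 + ε := by
  set η := min (min r (ε / 4)) (2 * r * (ε / 8) ^ 2 / 8) with hη
  have hη0 : 0 < η := by positivity
  have hη1 : η ≤ r := (min_le_left _ _).trans (min_le_left _ _)
  have hη2 : η ≤ ε / 4 := (min_le_left _ _).trans (min_le_right _ _)
  have hη3 : η ≤ 2 * r * (ε / 8) ^ 2 / 8 := min_le_right _ _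
  obtain ⟨ν₀, hν₀, hprof⟩ := arm_profile profileLine hr hr2 hη0
  refine ⟨min ν₀ (2 * r * (ε / 8) ^ 2 / 2), by positivity, ?_⟩
  intro u i j k z₀ hu hji hki hkj hgj hgk hmax hpos hρ he hK hm hE
  obtain ⟨-, z₁, X, K, h01, h11, hz, hz', hA, hX, hKi, hG, hYR, hYL⟩ :=
    arms hu hji hki hkj hgj hgk hmax hpos
  have hν := min_le_left ν₀ (2 * r * (ε / 8) ^ 2 / 2)
  have hν' := min_le_right ν₀ (2 * r * (ε / 8) ^ 2 / 2)
  have hac := area_continuous hu j
  have htop : area u j z₀ = 2 * (area u j z₀ / 2) := by ring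
  obtain ⟨L₁, hL₁, hL₁r, hc₁⟩ := hprof _ _ _ _ _ _ z₀ z₁ hA (hρ.trans hν) h01 h11 htop hz
    (((hX z₀ z₁ h01 (by linarith) le_rfl).trans he).trans hν)
    (((hKi z₀ z₁ h01 (by linarith) le_rfl).trans hK).trans hν)
    ((hG z₀ z₁ h01 (by linarith) le_rfl).trans hE) ((hYR.trans he).trans hν)
  obtain ⟨L₂, hL₂, hL₂r, hc₂⟩ := hprof _ _ _ _ _ _ (-z₀) (-(z₁ - 1)) hA.neg (hρ.trans hν)
    (by linarith) (by linarith) (by rw [neg_neg]; exact htop) (by rw [neg_neg]; exact hz')
    (by
      rw [intervalIntegral.integral_comp_neg X, neg_neg, neg_neg]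
      exact ((hX _ _ (by linarith) le_rfl h01).trans he).trans hν)
    (by
      rw [intervalIntegral.integral_comp_neg K, neg_neg, neg_neg]
      exact ((hKi _ _ (by linarith) le_rfl h01).trans hK).trans hν)
    (by
      rw [intervalIntegral.integral_comp_neg (Win.sliceGrad u j), neg_neg, neg_neg]
      exact (hG _ _ (by linarith) le_rfl h01).trans hE)
    (by
      simp only [abs_neg, ← sub_eq_add_neg]
      rw [intervalIntegral.integral_comp_neg fun z =>
        rad (area u j z₀ / 2) (area u j z) / (area u j z₀ / 2) * (|slope u j z| - slope u j z),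
        neg_neg, neg_neg]
      exact (hYL.trans he).trans hν)
  obtain ⟨v₁, m₁⟩ := arm_moment hr hr2 hac h11 h01 hη1 hη0.le hL₁ hL₁r
    hc₁
  obtain ⟨v₂, m₂⟩ := arm_moment hr hr2 (hac.comp continuous_neg) (by linarith : -(z₁ - 1) ≤ -z₀ + 1)
    (by linarith) hη1 hη0.le hL₂ hL₂r hc₂
  simp only [Function.comp_def] at v₂ m₂
  rw [intervalIntegral.integral_comp_neg (area u j), neg_neg, neg_neg] at v₂
  have e₂ : ∫ z in -z₀..-(z₁ - 1), circDist (z - -z₀) ^ 2 * area u j (-z) =
      ∫ z in (z₁ - 1)..z₀, circDist (z - z₀) ^ 2 * area u j z := by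
    have hc : ∀ z, circDist (z - -z₀) = circDist (-z - z₀) := fun z => by
      rw [show -z - z₀ = -(z - -z₀) by ring]
      exact (Symm.circ_neg _).symm
    simp only [hc]
    rw [intervalIntegral.integral_comp_neg fun z => circDist (z - z₀) ^ 2 * area u j z, neg_neg,
      neg_neg]
  rw [e₂] at m₂
  have hcm : Continuous fun z => circDist (z - z₀) ^ 2 * area u j z :=
    ((continuous_circDist.comp (continuous_id.sub continuous_const)).pow 2).mul hac
  have per : ∀ f : ℝ → ℝ, Continuous f → Function.Periodic f 1 →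
      (∫ z in (z₁ - 1)..z₀, f z) + ∫ z in z₀..z₁, f z = ∫ z in (0 : ℝ)..1, f z := fun f hf hp => by
    rw [intervalIntegral.integral_add_adjacent_intervals (hf.intervalIntegrable _ _)
      (hf.intervalIntegrable _ _)]
    simpa using hp.intervalIntegral_add_eq (z₁ - 1) 0
  have hv := per _ hac (area_periodic hu j)
  rw [integral_area hu j] at hv
  have hM := per _ hcm fun z => by
    show circDist (z + 1 - z₀) ^ 2 * area u j (z + 1) = circDist (z - z₀) ^ 2 * area u j z
    rw [area_periodic hu j z, add_sub_right_comm, show circDist (z - z₀ + 1) = circDist (z - z₀)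
      from by
        have := Symm.circ_add_int (z - z₀) 1
        rw [Int.cast_one] at this
        exact this]
  have hsum : 2 * r * (L₁ + L₂) ≤ 2 * r * (ε / 8) ^ 2 := by linarith
  have hs : L₁ + L₂ ≤ (ε / 8) ^ 2 := le_of_mul_le_mul_left hsum (by positivity)
  have b₁ := Real.sqrt_le_sqrt (show L₁ ≤ (ε / 8) ^ 2 by linarith)
  have b₂ := Real.sqrt_le_sqrt (show L₂ ≤ (ε / 8) ^ 2 by linarith)
  rw [Real.sqrt_sq (by linarith : (0 : ℝ) ≤ ε / 8)] at b₁ b₂
  rw [← hM]
  linarith

/-- A nonnegative sequence eventually below every positive number tends to zero. -/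
theorem tendsto_zero {x : ℕ → ℝ} (h0 : ∀ᶠ n in atTop, 0 ≤ x n)
    (h : ∀ ε > 0, ∀ᶠ n in atTop, x n ≤ ε) : Tendsto x atTop (𝓝 0) := by
  rw [Metric.tendsto_nhds]
  intro ε hε
  filter_upwards [h0, h (ε / 2) (half_pos hε)] with n a b
  rw [Real.dist_eq, sub_zero, abs_of_nonneg a]
  linarith

theorem exists_top {u : (Fin 3 → ℝ) → ℝ} (hu : Adm u) (j : Fin 3) :
    ∃ z₀ ∈ Ico (0 : ℝ) 1, ∀ z, area u j z ≤ area u j z₀ := by
  obtain ⟨zm, zM, h⟩ := Axis.exists_extrema (area_continuous hu j) (area_periodic hu j)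
  obtain ⟨z₀, hz₀, e⟩ := (area_periodic hu j).exists_mem_Ico₀ one_pos zM
  exact ⟨z₀, hz₀, fun z => e ▸ (h z).2⟩

theorem sq_circ_le (s t : ℝ) : circDist s ^ 2 ≤ circDist t ^ 2 + |s - t| := by
  obtain ⟨a0, a1⟩ := circDist_mem s
  obtain ⟨b0, b1⟩ := circDist_mem t
  have : circDist s - circDist t ≤ |s - t| := Symm.circ_sub_le s t
  rcases le_total (circDist s) (circDist t) with h | h
  · nlinarith [abs_nonneg (s - t)]
  · nlinarith

variable {v : ℝ} {f : (Fin 3 → ℝ) → ℝ} {U : ℕ → (Fin 3 → ℝ) → ℝ} {i j k : Fin 3}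

/-- The value is that of the tube and one second moment is that of the disc. -/
theorem axis_limit (h : MinSeq v f U) (hax : Tendsto (fun n => axial (U n) i) atTop (𝓝 0))
    (hji : j ≠ i) (hki : k ≠ i) (hkj : k ≠ j) (hgj : ∀ n, HasGap (U n) j)
    (hgk : ∀ n, HasGap (U n) k) :
    tubePer v = canonical v ∧ ∃ c, ∫ x in box 3, f x * circDist (x j - c) ^ 2 ≤
      Real.pi * Real.sqrt (v / Real.pi) ^ 4 / 4 := by
  have hπ := Real.pi_pos
  have hv := h.v_pos
  choose z₀ hz₀ hmax using fun n => exists_top (h.adm n) j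
  set r := Real.sqrt (v / Real.pi) with hr
  set ρ : ℕ → ℝ := fun n => area (U n) j (z₀ n) / 2 with hρ
  set e : ℕ → ℝ := fun n => excess (U n) i j (z₀ n) with he
  set err' : ℕ → ℝ := fun n => dfct (U n) + axial (U n) i with herr
  have herr0 : Tendsto err' atTop (𝓝 0) := by simpa using h.dfct_tendsto.add hax
  have hm := h.mean_tendsto
  have hρle : ∀ n, ρ n ≤ 1 / 2 := fun n => by
    have := (mean_mem ((h.adm n).slice j (z₀ n))).2
    simp only [hρ, area]
    linarith
  have hρge : ∀ᶠ n in atTop, v / 4 ≤ ρ n := by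
    filter_upwards [hm.eventually (eventually_ge_nhds (by linarith : v / 2 < v))] with n hn
    have := Axis.integral_le_of_slice (area_continuous (h.adm n) j)
      (integral_area (h.adm n) j) (hmax n)
    simp only [hρ]
    linarith
  set s : ℕ → ℝ := fun n => Real.sqrt (mean (U n) / Real.pi) with hs
  have hslim : Tendsto s atTop (𝓝 r) := (hm.div_const Real.pi).sqrt
  set slack : ℕ → ℝ := fun n => energy (U n) + 4 / v * err' n - 2 * Real.pi * s n with hslack
  have hpos : ∀ᶠ n in atTop, 0 ≤ e n ∧ e n + 2 * Real.pi * (ρ n - s n) ^ 2 ≤ slack n := by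
    filter_upwards [hρge] with n hn
    have hp : 0 < area (U n) j (z₀ n) := by simp only [hρ] at hn; linarith
    have h0 := (arms (h.adm n) hji hki hkj (hgj n) (hgk n) (hmax n) hp).1
    refine ⟨h0, ?_⟩
    have hρ0 : 0 < ρ n := by simp only [hρ]; linarith
    have hms : mean (U n) = Real.pi * s n ^ 2 := by
      rw [hs, Real.sq_sqrt (div_nonneg (mean_mem (h.adm n)).1 hπ.le)]; field_simp
    have hd : err' n / ρ n ≤ 4 / v * err' n := by
      rw [div_eq_mul_inv, mul_comm]
      refine mul_le_mul_of_nonneg_right ?_ (add_nonneg (dfct_nonneg (h.adm n))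
        (axial_nonneg _ _))
      rw [inv_le_comm₀ hρ0 (by positivity), inv_div]
      exact hn
    have hq : 2 * Real.pi * (ρ n - s n) ^ 2 ≤ Real.pi * (ρ n - s n) ^ 2 / ρ n := by
      rw [le_div_iff₀ hρ0]
      nlinarith [mul_nonneg (mul_nonneg hπ.le (sq_nonneg (ρ n - s n)))
        (by linarith [hρle n] : 0 ≤ 1 - 2 * ρ n)]
    have hid : mean (U n) / ρ n + Real.pi * ρ n - 2 * Real.pi * s n =
        Real.pi * (ρ n - s n) ^ 2 / ρ n := by
      rw [hms]; field_simp; ring
    have he' : e n = energy (U n) - mean (U n) / ρ n - Real.pi * ρ n + err' n / ρ n := rfl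
    simp only [hslack]
    linarith
  have hlow : Tendsto (fun n => 4 / v * err' n - 2 * Real.pi * s n) atTop
      (𝓝 (-(tubePer v))) := by
    have h2 := (herr0.const_mul (4 / v)).sub (hslim.const_mul (2 * Real.pi))
    convert h2 using 2
    rw [tubePer, hr, Real.sqrt_div' v hπ.le, Real.sqrt_mul hπ.le]
    have := Real.sq_sqrt hπ.le
    field_simp
    linear_combination (-2 * v * Real.sqrt v) * this
  have hcan : tubePer v = canonical v := by
    refine le_antisymm (le_of_forall_pos_le_add fun ε hε => ?_)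
      ((min_le_left _ _).trans (min_le_right _ _))
    by_contra hlt
    have := hlow.eventually (eventually_lt_nhds
      (show -tubePer v < -(canonical v + ε / 2) by linarith))
    obtain ⟨n, hn, ⟨h0, hsl⟩, hE⟩ :=
      (this.and (hpos.and (h.energy_le (ε / 2) (half_pos hε)))).exists
    simp only [hslack] at hsl
    nlinarith [sq_nonneg (ρ n - s n)]
  refine ⟨hcan, ?_⟩
  have hsl0 : Tendsto slack atTop (𝓝 0) := by
    refine tendsto_zero (hpos.mono fun n hn => ?_) fun ε hε => ?_
    · nlinarith [hn.1, hn.2, sq_nonneg (ρ n - s n)]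
    · filter_upwards [h.energy_le (ε / 2) (half_pos hε), hlow.eventually (eventually_le_nhds
        (show -tubePer v < -tubePer v + ε / 2 by linarith))] with n a b
      simp only [hslack]
      linarith
  have he0 : Tendsto e atTop (𝓝 0) := tendsto_zero (hpos.mono fun n hn => hn.1) fun ε hε => by
    filter_upwards [hpos, hsl0.eventually (eventually_le_nhds hε)] with n hn hn'
    nlinarith [hn.2, sq_nonneg (ρ n - s n)]
  have hρr : Tendsto ρ atTop (𝓝 r) := by
    have hd : Tendsto (fun n => ρ n - s n) atTop (𝓝 0) := by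
      rw [tendsto_zero_iff_norm_tendsto_zero]
      refine tendsto_zero (Eventually.of_forall fun n => norm_nonneg _) fun ε hε => ?_
      filter_upwards [hpos, hsl0.eventually (eventually_le_nhds
        (show 0 < 2 * Real.pi * ε ^ 2 by positivity))] with n hn hn'
      rw [Real.norm_eq_abs]
      refine abs_le_of_sq_le_sq ?_ hε.le
      refine le_of_mul_le_mul_left ?_ (by positivity : 0 < 2 * Real.pi)
      linarith [hn.1, hn.2]
    simpa using hd.add hslim
  have hr0 : 0 < r := Real.sqrt_pos.2 (by positivity)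
  have hr2 : r ≤ 1 / 2 := le_of_tendsto hρr (Eventually.of_forall hρle)
  obtain ⟨c, -, φ, hφ, hc⟩ := (isCompact_Icc (a := (0 : ℝ)) (b := 1)).tendsto_subseq
    fun n => Ico_subset_Icc_self (hz₀ n)
  refine ⟨c, le_of_forall_pos_le_add fun ε hε => ?_⟩
  obtain ⟨ν, hν, hax'⟩ := axis_moment hr0 hr2 (half_pos hε)
  have hev : ∀ᶠ n in atTop, ∫ z in (0 : ℝ)..1, circDist (z - z₀ n) ^ 2 * area (U n) j z ≤
      Real.pi * r ^ 4 / 4 + ε / 2 := by
    filter_upwards [hρge, he0.eventually (eventually_le_nhds hν),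
      herr0.eventually (eventually_le_nhds hν),
      hρr.eventually (Metric.closedBall_mem_nhds r hν),
      hm.eventually (eventually_le_nhds (show v < v + ν by linarith)),
      h.energy_le 1 one_pos] with n a b d q m E
    refine hax' (U n) i j k (z₀ n) (h.adm n) hji hki hkj (hgj n) (hgk n) (hmax n)
      (by simp only [hρ] at a; linarith) ?_ b d ?_ ?_
    · rwa [Real.dist_eq] at q
    · rwa [hr, Real.sq_sqrt (by positivity), mul_div_cancel₀ _ hπ.ne']
    · linarith [min_le_right (min (ballPer v) (tubePer v)) 2, show canonical v =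
        min (min (ballPer v) (tubePer v)) 2 from rfl]
  refine le_of_tendsto ((moment_tendsto h j c).comp hφ.tendsto_atTop) ?_
  have hdist : ∀ᶠ n in atTop, |z₀ (φ n) - c| ≤ ε / 2 := by
    filter_upwards [hc.eventually (Metric.closedBall_mem_nhds c (half_pos hε))] with n hn
    rwa [Real.dist_eq] at hn
  filter_upwards [hdist, hφ.tendsto_atTop.eventually hev] with n hd hn
  show ∫ z in (0 : ℝ)..1, circDist (z - c) ^ 2 * area (U (φ n)) j z ≤ _
  have hA := area_continuous (h.adm (φ n)) j
  have hcc : ∀ b : ℝ, Continuous fun z => circDist (z - b) ^ 2 * area (U (φ n)) j z := fun b =>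
    ((continuous_circDist.comp (continuous_id.sub continuous_const)).pow 2).mul hA
  refine (intervalIntegral.integral_mono_on zero_le_one ((hcc c).intervalIntegrable _ _)
    (((hcc (z₀ (φ n))).intervalIntegrable _ _).add intervalIntegrable_const)
    (g := fun z => circDist (z - z₀ (φ n)) ^ 2 * area (U (φ n)) j z + ε / 2) fun z _ => ?_).trans ?_
  · obtain ⟨a0, a1⟩ := mean_mem ((h.adm (φ n)).slice j z)
    have := sq_circ_le (z - c) (z - z₀ (φ n))
    rw [sub_sub_sub_cancel_left] at this
    refine le_trans (mul_le_mul_of_nonneg_right this a0) ?_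
    rw [add_mul]
    exact add_le_add le_rfl ((mul_le_of_le_one_right (abs_nonneg _) a1).trans hd)
  · rw [intervalIntegral.integral_add ((hcc _).intervalIntegrable _ _) intervalIntegrable_const,
      intervalIntegral.integral_const, sub_zero, one_smul]
    linarith

theorem exists_third : ∀ i j : Fin 3, j ≠ i → ∃ k, k ≠ i ∧ k ≠ j := by decide

end Disc

open Disc

/-- An invariant axis and gaps across the two others: the second moment is that of the tube. -/
theorem discMoment : DiscMoment := by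
  intro v f U h i hax hgap
  have hπ := Real.pi_pos
  set r := Real.sqrt (v / Real.pi) with hr
  have key : ∀ j, ∃ c, j ≠ i → tubePer v = canonical v ∧
      ∫ x in box 3, f x * circDist (x j - c) ^ 2 ≤ Real.pi * r ^ 4 / 4 := by
    intro j
    by_cases hj : j = i
    · exact ⟨0, fun h' => absurd hj h'⟩
    obtain ⟨k, hki, hkj⟩ := exists_third i j hj
    obtain ⟨h1, c, h2⟩ := axis_limit h hax hj hki hkj (fun n => hgap n j hj) fun n => hgap n k hki
    exact ⟨c, fun _ => ⟨h1, h2⟩⟩
  choose c hc using key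
  obtain ⟨j, hj⟩ := exists_ne i
  refine ⟨(hc j hj).1, r, c, Real.sqrt_pos.2 (div_pos h.v_pos hπ), ?_, ?_, ?_⟩
  · refine Real.sqrt_le_iff.2 ⟨by norm_num, ?_⟩
    rw [div_le_iff₀ hπ]
    nlinarith [h.v_le, Real.pi_gt_three]
  · rw [hr, Real.sq_sqrt (div_nonneg h.v_pos.le hπ.le), mul_div_cancel₀ _ hπ.ne']
  · have hi : ∀ k : Fin 3, IntegrableOn (fun x => f x * circDist (x k - c k) ^ 2) (box 3) :=
      fun k => integrableOn_mul_of_bounded
        ((continuous_circDist.comp ((continuous_apply k).sub continuous_const)).pow 2) h.meas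
        h.mem_Icc
    simp only [Finset.mul_sum]
    rw [integral_finsetSum _ fun k _ => hi k]
    refine (Finset.sum_le_sum fun k hk => (hc k (Finset.ne_of_mem_erase hk)).2).trans ?_
    rw [Finset.sum_const, Finset.card_erase_of_mem (Finset.mem_univ i), Finset.card_univ,
      Fintype.card_fin, nsmul_eq_mul]
    push_cast
    linarith

end Vale.Agent.P232.Classify
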