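import Vale.Agent.P232.Classify.Base

/-!
# P232: one arm of the profile of a tube
-/

noncomputable section

open MeasureTheory Filter Topology Set

namespace Vale.Agent.P232.Classify.Disc

/-- The width of the disc of radius `r` at distance `x` from its centre. -/
def width (r x : ℝ) : ℝ := 2 * Real.sqrt (max 0 (r ^ 2 - x ^ 2))

/-- The distance from the centre at which the disc of radius `ρ` has width `a`. -/
def rad (ρ a : ℝ) : ℝ := width ρ (a / 2) / 2

variable {r ρ x y a : ℝ}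

theorem continuous_width (r : ℝ) : Continuous (width r) := by unfold width; fun_prop

theorem continuous_rad (ρ : ℝ) : Continuous (rad ρ) :=
  ((continuous_width ρ).comp (continuous_id.div_const 2)).div_const 2

theorem rad_eq (ρ a : ℝ) : rad ρ a = Real.sqrt (max 0 (ρ ^ 2 - (a / 2) ^ 2)) := by
  rw [rad, width]; ring

theorem width_nonneg (r x : ℝ) : 0 ≤ width r x := mul_nonneg zero_le_two (Real.sqrt_nonneg _)

theorem rad_nonneg (ρ a : ℝ) : 0 ≤ rad ρ a := div_nonneg (width_nonneg _ _) zero_le_two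

theorem width_zero (hr : 0 ≤ r) (hx : r ≤ x) : width r x = 0 := by
  rw [width, max_eq_left (by linarith [pow_le_pow_left₀ hr hx 2]), Real.sqrt_zero, mul_zero]

theorem width_le (hr : 0 ≤ r) (x : ℝ) : width r x ≤ 2 * r := by
  refine mul_le_mul_of_nonneg_left ?_ zero_le_two
  rw [Real.sqrt_le_left hr]
  exact max_le (sq_nonneg _) (by linarith [sq_nonneg x])

theorem rad_le (hρ : 0 ≤ ρ) (a : ℝ) : rad ρ a ≤ ρ := by
  have := width_le hρ (a / 2)
  unfold rad
  linarith

theorem rad_sq (ha : 0 ≤ a) (ha' : a ≤ 2 * ρ) : rad ρ a ^ 2 = ρ ^ 2 - (a / 2) ^ 2 := by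
  rw [rad_eq, Real.sq_sqrt (le_max_left _ _), max_eq_right]
  linarith [pow_le_pow_left₀ (by linarith : 0 ≤ a / 2) (by linarith : a / 2 ≤ ρ) 2]

theorem width_rad (ha : 0 ≤ a) (ha' : a ≤ 2 * ρ) : width ρ (rad ρ a) = a := by
  rw [width, rad_sq ha ha', sub_sub_cancel, max_eq_right (sq_nonneg _),
    Real.sqrt_sq (by linarith)]
  ring

theorem abs_sqrt_sub_le {A B : ℝ} (hA : 0 ≤ A) (hB : 0 ≤ B) :
    |Real.sqrt A - Real.sqrt B| ≤ Real.sqrt |A - B| := by
  refine Real.le_sqrt_of_sq_le ?_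
  rw [sq_abs]
  rcases le_total A B with h | h
  · rw [abs_of_nonpos (by linarith)]
    nlinarith [Real.sqrt_le_sqrt h, Real.sqrt_nonneg A, Real.sq_sqrt hA, Real.sq_sqrt hB]
  · rw [abs_of_nonneg (by linarith)]
    nlinarith [Real.sqrt_le_sqrt h, Real.sqrt_nonneg B, Real.sq_sqrt hA, Real.sq_sqrt hB]

theorem width_sub_le (r r' x y : ℝ) :
    |width r x - width r' y| ≤ 2 * Real.sqrt |(r ^ 2 - x ^ 2) - (r' ^ 2 - y ^ 2)| := by
  rw [width, width, ← mul_sub, abs_mul, abs_two]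
  refine mul_le_mul_of_nonneg_left ((abs_sqrt_sub_le (le_max_left _ _) (le_max_left _ _)).trans
    (Real.sqrt_le_sqrt ?_)) zero_le_two
  rw [max_comm 0, max_comm 0]
  exact abs_max_sub_max_le_abs _ _ _

/-- The width at a clipped distance. -/
theorem width_clip (hr : 0 ≤ r) (x : ℝ) : width r (max 0 (min r x)) = width r (max 0 x) := by
  rcases le_total r x with h | h
  · rw [min_eq_left h, max_eq_right hr, width_zero hr le_rfl,
      width_zero hr (h.trans (le_max_right _ _))]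
  · rw [min_eq_right h]

theorem width_clip_sub_le (hr : 0 ≤ r) (hr2 : r ≤ 1 / 2) (x y : ℝ) :
    |width r (max 0 x) - width r (max 0 y)| ≤
      2 * Real.sqrt |max 0 (min r x) - max 0 (min r y)| := by
  rw [← width_clip hr x, ← width_clip hr y]
  refine (width_sub_le _ _ _ _).trans (mul_le_mul_of_nonneg_left (Real.sqrt_le_sqrt ?_) zero_le_two)
  set A := max 0 (min r x)
  set B := max 0 (min r y)
  have a0 : 0 ≤ A := le_max_left _ _
  have b0 : 0 ≤ B := le_max_left _ _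
  have a1 : A ≤ r := max_le hr (min_le_left _ _)
  have b1 : B ≤ r := max_le hr (min_le_left _ _)
  rw [show r ^ 2 - A ^ 2 - (r ^ 2 - B ^ 2) = (B - A) * (B + A) by ring, abs_mul,
    abs_sub_comm, abs_of_nonneg (by linarith : 0 ≤ B + A)]
  exact mul_le_of_le_one_right (abs_nonneg _) (by linarith)

theorem width_subst (hr : 0 ≤ r) {g : ℝ → ℝ} (hg : Continuous g) :
    ∫ x in (0 : ℝ)..r, g x * width r x =
      ∫ θ in (0 : ℝ)..Real.pi / 2, g (r * Real.sin θ) * (2 * r ^ 2 * Real.cos θ ^ 2) := by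
  have h := intervalIntegral.integral_comp_mul_deriv (a := 0) (b := Real.pi / 2)
    (f := fun θ => r * Real.sin θ) (f' := fun θ => r * Real.cos θ)
    (fun θ _ => (Real.hasDerivAt_sin θ).const_mul r) (by fun_prop)
    (hg.mul (continuous_width r))
  simp only [Real.sin_zero, mul_zero, Real.sin_pi_div_two, mul_one] at h
  refine h.symm.trans (intervalIntegral.integral_congr fun θ hθ => ?_)
  rw [uIcc_of_le (by positivity)] at hθ
  have hc : 0 ≤ Real.cos θ :=
    Real.cos_nonneg_of_mem_Icc ⟨by linarith [Real.pi_pos, hθ.1], hθ.2⟩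
  have e : width r (r * Real.sin θ) = 2 * (r * Real.cos θ) := by
    rw [width, show r ^ 2 - (r * Real.sin θ) ^ 2 = (r * Real.cos θ) ^ 2 by
      rw [mul_pow, mul_pow, Real.cos_sq']; ring, max_eq_right (sq_nonneg _),
      Real.sqrt_sq (mul_nonneg hr hc)]
  simp only [Function.comp_apply, Pi.mul_apply, e]
  ring

theorem integral_width (hr : 0 ≤ r) :
    ∫ x in (0 : ℝ)..r, width r x = Real.pi * r ^ 2 / 2 := by
  have h := width_subst hr (continuous_const (y := (1 : ℝ)))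
  simp only [one_mul] at h
  rw [h, intervalIntegral.integral_const_mul, integral_cos_sq]
  simp
  ring

theorem integral_width_moment (hr : 0 ≤ r) :
    ∫ x in (0 : ℝ)..r, x ^ 2 * width r x = Real.pi * r ^ 4 / 8 := by
  rw [width_subst hr (continuous_pow 2)]
  have e : ∀ θ : ℝ, (r * Real.sin θ) ^ 2 * (2 * r ^ 2 * Real.cos θ ^ 2) =
      2 * r ^ 4 * (Real.sin θ ^ 2 * Real.cos θ ^ 2) := fun θ => by ring
  simp only [e]
  rw [intervalIntegral.integral_const_mul, integral_sin_sq_mul_cos_sq,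
    show 4 * (Real.pi / 2) = 2 * Real.pi by ring]
  simp
  ring

theorem integral_rad (hρ : 0 < ρ) :
    ∫ x in (0 : ℝ)..2 * ρ, rad ρ x / ρ = Real.pi * ρ / 2 := by
  rw [intervalIntegral.integral_div]
  simp only [rad]
  rw [intervalIntegral.integral_div,
    intervalIntegral.integral_comp_div (width ρ) two_ne_zero, zero_div,
    mul_div_cancel_left₀ ρ two_ne_zero, integral_width hρ.le, smul_eq_mul]
  field_simp

/-- The facts used on one arm. -/
structure Arm (a a' G X K : ℝ → ℝ) (ρ : ℝ) : Prop where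
  pos : 0 < ρ
  le : ρ ≤ 1 / 2
  deriv : ∀ z, HasDerivAt a (a' z) z
  cont : Continuous a' ∧ Continuous G ∧ Continuous X ∧ Continuous K
  nonneg : ∀ z, 0 ≤ G z ∧ 0 ≤ X z ∧ 0 ≤ K z
  range : ∀ z, a z ∈ Icc 0 (2 * ρ)
  slope : ∀ z, ∃ F ∈ Icc (0 : ℝ) 2, a z * (2 - F) ≤ 2 * K z ∧
    (a z * |a' z| - 2 * rad ρ (a z) * F) ^ 2 ≤ 8 * ρ ^ 2 * (X z * G z)

theorem Arm.neg {a a' G X K : ℝ → ℝ} (h : Arm a a' G X K ρ) :
    Arm (fun z => a (-z)) (fun z => -a' (-z)) (fun z => G (-z)) (fun z => X (-z))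
      (fun z => K (-z)) ρ where
  pos := h.pos
  le := h.le
  deriv z := ((h.deriv (-z)).comp z (hasDerivAt_neg z)).congr_deriv (by ring)
  cont := ⟨(h.cont.1.comp continuous_neg).neg, h.cont.2.1.comp continuous_neg,
    h.cont.2.2.1.comp continuous_neg, h.cont.2.2.2.comp continuous_neg⟩
  nonneg z := h.nonneg (-z)
  range z := h.range (-z)
  slope z := by simpa only [abs_neg] using h.slope (-z)

/-- Inside the band the speed is one up to the errors. -/
theorem band {σ t a P a' F G X K R : ℝ} (hσ : 0 < σ) (ht : 0 < t) (hρ : 0 < ρ) (hρ2 : ρ ≤ 1 / 2)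
    (ha : σ ≤ a) (ha1 : a ≤ 1) (hR : σ ≤ R) (hRρ : R ≤ ρ) (hF : F ≤ 2) (hP : P = |a'|)
    (hG : 0 ≤ G) (hX : 0 ≤ X) (h1 : a * (2 - F) ≤ 2 * K)
    (h2 : (a * P - 2 * R * F) ^ 2 ≤ 8 * ρ ^ 2 * (X * G)) :
    |1 - -(a * a') / (4 * R)| ≤
      (X / t + t / 2 * G + 2 * K / σ) / (4 * σ) + R / ρ * (|a'| + a') / (8 * σ ^ 2) := by
  have hR0 : 0 < R := hσ.trans_le hR
  have ha0 : 0 < a := hσ.trans_le ha
  have hA : |a * P - 2 * R * F| ≤ X / t + t / 2 * G := by
    have hp : 0 ≤ X / t + t / 2 * G := by positivity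
    refine abs_le_of_sq_le_sq (h2.trans ?_) hp
    have e : (X / t + t / 2 * G) ^ 2 = (X / t - t / 2 * G) ^ 2 + 2 * (X * G) := by
      field_simp; ring
    have h8 : 8 * ρ ^ 2 ≤ 2 := by nlinarith
    linarith [mul_le_mul_of_nonneg_right h8 (mul_nonneg hX hG),
      sq_nonneg (X / t - t / 2 * G)]
  have hK : 2 * R * (2 - F) ≤ 2 * K / σ := by
    rw [le_div_iff₀ hσ]
    have := mul_le_mul_of_nonneg_right ha (sub_nonneg.2 hF)
    have := mul_le_mul_of_nonneg_right (by linarith : 2 * R ≤ 1)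
      (mul_nonneg hσ.le (sub_nonneg.2 hF))
    linarith
  have hB : |4 * R - a * P| ≤ X / t + t / 2 * G + 2 * K / σ := by
    have := abs_sub (2 * R * (2 - F)) (a * P - 2 * R * F)
    rw [show 2 * R * (2 - F) - (a * P - 2 * R * F) = 4 * R - a * P by ring,
      abs_of_nonneg (mul_nonneg (by positivity) (sub_nonneg.2 hF))] at this
    linarith
  have hY : 0 ≤ |a'| + a' := by linarith [neg_abs_le a']
  have e : 1 - -(a * a') / (4 * R) =
      (4 * R - a * P) / (4 * R) + a * (|a'| + a') / (4 * R) := by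
    rw [hP]; field_simp; ring
  rw [e]
  refine (abs_add_le _ _).trans (add_le_add ?_ ?_)
  · rw [abs_div, abs_of_pos (by positivity : 0 < 4 * R)]
    refine (div_le_div_of_nonneg_left (abs_nonneg _) (by positivity) (by linarith : 4 * σ ≤ 4 * R))
      |>.trans (div_le_div_of_nonneg_right hB (by positivity))
  · rw [abs_of_nonneg (by positivity)]
    have h3 : a / (4 * R) ≤ 1 / (4 * σ) :=
      div_le_div₀ zero_le_one ha1 (by positivity) (by linarith)
    have h4 : 1 / (4 * σ) ≤ R / ρ / (8 * σ ^ 2) := by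
      rw [div_div, div_le_div_iff₀ (by positivity) (by positivity)]
      nlinarith [mul_le_mul hR hρ2 hρ.le hR0.le, mul_pos hσ hσ, mul_pos hσ hρ]
    have := mul_le_mul_of_nonneg_right (h3.trans h4) hY
    calc a * (|a'| + a') / (4 * R) = a / (4 * R) * (|a'| + a') := by ring
      _ ≤ R / ρ / (8 * σ ^ 2) * (|a'| + a') := this
      _ = R / ρ * (|a'| + a') / (8 * σ ^ 2) := by ring

/-- A nearly exact arm follows the disc from the largest slice, after a plateau. -/
theorem arm_profile (hP : ProfileLine) (hr : 0 < r) (hr2 : r ≤ 1 / 2) {ε : ℝ} (hε : 0 < ε) :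
    ∃ ν > 0, ∀ (a a' G X K : ℝ → ℝ) (ρ z₀ z₁ : ℝ), Arm a a' G X K ρ → |ρ - r| ≤ ν →
      z₀ ≤ z₁ → z₁ ≤ z₀ + 1 → a z₀ = 2 * ρ → a z₁ = 0 → ∫ z in z₀..z₁, X z ≤ ν →
      ∫ z in z₀..z₁, K z ≤ ν → ∫ z in z₀..z₁, G z ≤ 4 →
      ∫ z in z₀..z₁, rad ρ (a z) / ρ * (|a' z| + a' z) ≤ ν →
      ∃ L : ℝ, 0 ≤ L ∧ L + r ≤ z₁ - z₀ + ε ∧
        ∀ z ∈ Icc z₀ z₁, |a z - width r (max 0 (z - z₀ - L))| ≤ ε := by
  set ε' := min ε ((ε / 4) ^ 2) with hε'
  have hε'0 : 0 < ε' := lt_min hε (by positivity)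
  obtain ⟨σ, δ, hσ, hσr, hδ, h⟩ := hP r hr ε' hε'0
  set t := δ * σ with ht
  have ht0 : 0 < t := mul_pos hδ hσ
  set C := 1 / t / (4 * σ) + 2 / σ / (4 * σ) + 1 / (8 * σ ^ 2) with hC
  have hC0 : 0 < C := by positivity
  refine ⟨min (min (σ / 2) ((ε / 4) ^ 2)) (δ / (2 * C)), by positivity, ?_⟩
  intro a a' G X K ρ z₀ z₁ hA hρr h01 h11 ha0 ha1 hX hK hG hY
  set ν := min (min (σ / 2) ((ε / 4) ^ 2)) (δ / (2 * C))
  have hν1 : ν ≤ σ / 2 := (min_le_left _ _).trans (min_le_left _ _)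
  have hν2 : ν ≤ (ε / 4) ^ 2 := (min_le_left _ _).trans (min_le_right _ _)
  have hν3 : ν ≤ δ / (2 * C) := min_le_right _ _
  have hρ := hA.pos
  obtain ⟨ha'c, hGc, hXc, hKc⟩ := hA.cont
  have hac : Continuous a := continuous_iff_continuousAt.2 fun z => (hA.deriv z).continuousAt
  obtain ⟨hρl, hρu⟩ := abs_le.1 hρr
  set R : ℝ → ℝ := fun z => rad ρ (a z) with hR
  set R' : ℝ → ℝ := fun z => -(a z * a' z) / (4 * R z) with hR'
  have hRc : Continuous R := (continuous_rad ρ).comp hac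
  set S := {z ∈ Icc z₀ z₁ | R z ∈ Icc σ (r - σ)} with hS
  have hSI : S ⊆ Icc z₀ z₁ := fun z hz => hz.1
  have hSm : MeasurableSet S :=
    measurableSet_Icc.inter (hRc.measurable measurableSet_Icc)
  have hSc : IsCompact S :=
    isCompact_Icc.inter_right (isClosed_Icc.preimage hRc)
  have hR0 : R z₀ = 0 := by
    simp [hR, ha0, rad, width]
  have hR1 : R z₁ = ρ := by
    simp [hR, ha1, rad, width, max_eq_right (sq_nonneg ρ), Real.sqrt_sq hρ.le]
  have hd : ∀ z ∈ Ioo z₀ z₁, R z ∈ Icc σ (r - σ) → HasDerivAt R (R' z) z := by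
    intro z _ hz
    obtain ⟨h0, h2⟩ := hA.range z
    have hsq : 0 < ρ ^ 2 - (a z / 2) ^ 2 := by
      rw [← rad_sq h0 h2]; exact pow_pos (hσ.trans_le hz.1) 2
    have hev : R =ᶠ[𝓝 z] fun w => Real.sqrt (ρ ^ 2 - (a w / 2) ^ 2) :=
      Eventually.of_forall fun w => by
        show rad ρ (a w) = Real.sqrt (ρ ^ 2 - (a w / 2) ^ 2)
        rw [← rad_sq (hA.range w).1 (hA.range w).2, Real.sqrt_sq (rad_nonneg _ _)]
    refine (HasDerivAt.congr_of_eventuallyEq ?_ hev)
    refine ((((hA.deriv z).div_const 2).pow 2).const_sub (ρ ^ 2) |>.sqrt hsq.ne').congr_deriv ?_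
    have hs : Real.sqrt (ρ ^ 2 - (a z / 2) ^ 2) = R z := hev.eq_of_nhds.symm
    have : R z ≠ 0 := (hσ.trans_le hz.1).ne'
    show _ = -(a z * a' z) / (4 * R z)
    show -(↑(2 : ℕ) * (a z / 2) ^ (2 - 1) * (a' z / 2)) /
      (2 * Real.sqrt (ρ ^ 2 - (a z / 2) ^ 2)) = _
    rw [hs]
    field_simp
    ring
  have hR'c : ContinuousOn R' S :=
    ((hac.mul ha'c).neg.continuousOn).div ((continuous_const.mul hRc).continuousOn)
      fun z hz => mul_ne_zero four_ne_zero (hσ.trans_le hz.2.1).ne'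
  have hYc : Continuous fun z => rad ρ (a z) / ρ * (|a' z| + a' z) :=
    (hRc.div_const ρ).mul (ha'c.abs.add ha'c)
  have hY0 : ∀ z, 0 ≤ rad ρ (a z) / ρ * (|a' z| + a' z) := fun z =>
    mul_nonneg (div_nonneg (rad_nonneg _ _) hρ.le) (by linarith [neg_abs_le (a' z)])
  set B : ℝ → ℝ := fun z => (X z / t + t / 2 * G z + 2 * K z / σ) / (4 * σ) +
    rad ρ (a z) / ρ * (|a' z| + a' z) / (8 * σ ^ 2) with hB
  have hBc : Continuous B :=
    ((((hXc.div_const _).add (continuous_const.mul hGc)).add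
      ((continuous_const.mul hKc).div_const _)).div_const _).add (hYc.div_const _)
  have hB0 : ∀ z, 0 ≤ B z := fun z => by
    obtain ⟨g0, x0, k0⟩ := hA.nonneg z
    have := hY0 z
    positivity
  have hle : ∫ z in S, |1 - R' z| ≤ δ := by
    refine (setIntegral_mono_on ((continuousOn_const.sub hR'c).abs.integrableOn_compact hSc)
      (hBc.integrableOn_Icc.mono_set hSI) hSm fun z hz => ?_).trans ?_
    · obtain ⟨F, hF, h1, h2⟩ := hA.slope z
      obtain ⟨g0, x0, -⟩ := hA.nonneg z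
      obtain ⟨a0, a2⟩ := hA.range z
      refine band hσ ht0 hρ hA.le ?_ (a2.trans (by linarith [hA.le])) hz.2.1
        (rad_le hρ.le _) hF.2 rfl g0 x0 h1 h2
      have hs := rad_sq a0 a2
      have : R z ≤ ρ - σ / 2 := by linarith [hz.2.2]
      nlinarith [hz.2.1, show rad ρ (a z) = R z from rfl]
    refine (setIntegral_mono_set hBc.integrableOn_Icc (ae_of_all _ hB0)
      hSI.eventuallyLE).trans ?_
    rw [integral_Icc_eq_integral_Ioc, ← intervalIntegral.integral_of_le h01]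
    have iX := hXc.intervalIntegrable (μ := volume) z₀ z₁
    have iG := hGc.intervalIntegrable (μ := volume) z₀ z₁
    have iK := hKc.intervalIntegrable (μ := volume) z₀ z₁
    have iY := hYc.intervalIntegrable (μ := volume) z₀ z₁
    have e : ∀ z, B z = 1 / t / (4 * σ) * X z + t / 2 / (4 * σ) * G z +
        2 / σ / (4 * σ) * K z + 1 / (8 * σ ^ 2) * (rad ρ (a z) / ρ * (|a' z| + a' z)) :=
      fun z => by rw [hB]; ring
    simp only [e]
    rw [intervalIntegral.integral_add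
        (((iX.const_mul _).add (iG.const_mul _)).add (iK.const_mul _)) (iY.const_mul _),
      intervalIntegral.integral_add ((iX.const_mul _).add (iG.const_mul _)) (iK.const_mul _),
      intervalIntegral.integral_add (iX.const_mul _) (iG.const_mul _)]
    simp only [intervalIntegral.integral_const_mul]
    have b1 := mul_le_mul_of_nonneg_left hX (show 0 ≤ 1 / t / (4 * σ) by positivity)
    have b2 := mul_le_mul_of_nonneg_left hG (show 0 ≤ t / 2 / (4 * σ) by positivity)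
    have b3 := mul_le_mul_of_nonneg_left hK (show 0 ≤ 2 / σ / (4 * σ) by positivity)
    have b4 := mul_le_mul_of_nonneg_left hY (show 0 ≤ 1 / (8 * σ ^ 2) by positivity)
    have b5 : t / 2 / (4 * σ) * 4 = δ / 2 := by rw [ht]; field_simp
    have b6 : ν * C ≤ δ / 2 := by
      refine (mul_le_mul_of_nonneg_right hν3 hC0.le).trans (le_of_eq ?_)
      field_simp
    rw [hC] at b6
    linarith
  obtain ⟨L, hL, hLr, hclose⟩ := h R R' z₀ z₁ h01 h11 hRc.continuousOn hR'c hd
    (by rw [hR0]; exact hσ.le) (by rw [hR1]; linarith) hle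
  refine ⟨L, hL, by linarith [min_le_left ε ((ε / 4) ^ 2)], fun z hz => ?_⟩
  obtain ⟨a0, a2⟩ := hA.range z
  have hsq : Real.sqrt ((ε / 4) ^ 2) = ε / 4 := Real.sqrt_sq (by linarith)
  have h1 : |a z - width r (max 0 (R z))| ≤ ε / 2 := by
    rw [max_eq_right (rad_nonneg _ _)]
    nth_rewrite 1 [← width_rad a0 a2]
    refine (width_sub_le _ _ _ _).trans ?_
    rw [show ρ ^ 2 - rad ρ (a z) ^ 2 - (r ^ 2 - R z ^ 2) = (ρ - r) * (ρ + r) by
      rw [hR]; ring, abs_mul, abs_of_nonneg (by linarith : 0 ≤ ρ + r)]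
    have : |ρ - r| * (ρ + r) ≤ (ε / 4) ^ 2 :=
      (mul_le_of_le_one_right (abs_nonneg _) (by linarith [hA.le])).trans (hρr.trans hν2)
    linarith [(Real.sqrt_le_sqrt this).trans_eq hsq]
  have h2 : |width r (max 0 (R z)) - width r (max 0 (z - z₀ - L))| ≤ ε / 2 := by
    refine (width_clip_sub_le hr.le hr2 _ _).trans ?_
    linarith [(Real.sqrt_le_sqrt ((hclose z hz).trans (min_le_right ε _))).trans_eq hsq]
  linarith [abs_sub_le (a z) (width r (max 0 (R z))) (width r (max 0 (z - z₀ - L)))]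

end Vale.Agent.P232.Classify.Disc
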