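import Vale.Agent.P232.Classify.DiscSlice
import Vale.Agent.P232.Classify.DiscProfile

/-!
# P232: the two arms of the profile across an axis next to an invariant one
-/

noncomputable section

open MeasureTheory Filter Topology Set

namespace Vale.Agent.P232.Classify.Disc

variable {r ρ : ℝ} {u : (Fin 3 → ℝ) → ℝ} {i j k : Fin 3} {z₀ : ℝ}

/-- Volume and second moment of an arm. -/
theorem arm_moment (hr : 0 < r) (hr2 : r ≤ 1 / 2) {a : ℝ → ℝ} (hac : Continuous a)
    {z₀ z₁ L η : ℝ} (h11 : z₁ ≤ z₀ + 1) (h01 : z₀ ≤ z₁) (hηr : η ≤ r) (hη : 0 ≤ η) (hL : 0 ≤ L)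
    (hLr : L + r ≤ z₁ - z₀ + η)
    (h : ∀ z ∈ Icc z₀ z₁, |a z - width r (max 0 (z - z₀ - L))| ≤ η) :
    2 * r * L + Real.pi * r ^ 2 / 2 ≤ (∫ z in z₀..z₁, a z) + 2 * η ∧
      ∫ z in z₀..z₁, circDist (z - z₀) ^ 2 * a z ≤
        Real.pi * r ^ 4 / 8 + η + 2 * Real.sqrt L := by
  set ℓ := z₁ - z₀ with hℓ
  have hLℓ : L ≤ ℓ := by linarith
  have hw := continuous_width r
  have hwL : Continuous fun x => width r (max 0 (x - L)) := by fun_prop
  have hi : ∀ {f : ℝ → ℝ}, Continuous f → ∀ p q : ℝ, IntervalIntegrable f volume p q :=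
    fun hf p q => hf.intervalIntegrable p q
  constructor
  · have h1 : ∫ z in z₀..z₁, width r (max 0 (z - z₀ - L)) ≤ (∫ z in z₀..z₁, a z) + η := by
      refine (intervalIntegral.integral_mono_on h01
        (hi (hwL.comp (continuous_id.sub continuous_const)) _ _)
        ((hi hac _ _).add intervalIntegrable_const) (g := fun z => a z + η) fun z hz => ?_).trans ?_
      · have := abs_le.1 (h z hz)
        show width r (max 0 (z - z₀ - L)) ≤ a z + η
        linarith [this.1]
      · rw [intervalIntegral.integral_add (hi hac _ _) intervalIntegrable_const,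
          intervalIntegral.integral_const, smul_eq_mul]
        nlinarith
    rw [intervalIntegral.integral_comp_sub_right (fun x => width r (max 0 (x - L))) z₀, sub_self,
      ← hℓ, ← intervalIntegral.integral_add_adjacent_intervals (hi hwL 0 L) (hi hwL L ℓ)] at h1
    have h2 : ∫ x in (0 : ℝ)..L, width r (max 0 (x - L)) = 2 * r * L := by
      rw [intervalIntegral.integral_congr (g := fun _ => width r 0) fun x hx => ?_]
      · simp [width, max_eq_right (sq_nonneg r), Real.sqrt_sq hr.le]
        ring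
      · rw [uIcc_of_le hL] at hx
        simp only
        rw [max_eq_left (by linarith [hx.2])]
    have h3 : ∫ x in L..ℓ, width r (max 0 (x - L)) = ∫ x in (0 : ℝ)..(ℓ - L), width r x := by
      rw [intervalIntegral.integral_comp_sub_right (fun x => width r (max 0 x)) L, sub_self]
      refine intervalIntegral.integral_congr fun x hx => ?_
      rw [uIcc_of_le (sub_nonneg.2 hLℓ)] at hx
      rw [max_eq_right hx.1]
    have h4 : Real.pi * r ^ 2 / 2 ≤ (∫ x in (0 : ℝ)..(ℓ - L), width r x) + η := by
      rw [← integral_width hr.le, ← intervalIntegral.integral_add_adjacent_intervals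
        (hi hw 0 (ℓ - L)) (hi hw (ℓ - L) r)]
      refine add_le_add le_rfl ?_
      rcases le_total (ℓ - L) r with hle | hle
      · refine (intervalIntegral.integral_mono_on hle (hi hw _ _) intervalIntegrable_const
          fun x _ => width_le hr.le x).trans ?_
        rw [intervalIntegral.integral_const, smul_eq_mul]
        nlinarith
      · rw [intervalIntegral.integral_symm]
        have := intervalIntegral.integral_nonneg (f := width r) (μ := volume) hle
          fun x _ => width_nonneg r x
        linarith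
    linarith
  · have hc : Continuous fun z => circDist (z - z₀) ^ 2 :=
      (continuous_circDist.comp (continuous_id.sub continuous_const)).pow 2
    have hm : Continuous fun x => x ^ 2 * width r x := (continuous_pow 2).mul hw
    have h1 : ∫ z in z₀..z₁, circDist (z - z₀) ^ 2 * a z ≤
        ∫ z in z₀..z₁, ((z - z₀) ^ 2 * width r (z - z₀) + (η + 2 * Real.sqrt L)) := by
      refine intervalIntegral.integral_mono_on h01 (hi (hc.mul hac) _ _)
        ((hi (hm.comp (continuous_id.sub continuous_const)) _ _).add intervalIntegrable_const)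
        fun z hz => ?_
      have hx : 0 ≤ z - z₀ := sub_nonneg.2 hz.1
      obtain ⟨c0, c1⟩ := circDist_mem (z - z₀)
      have c2 : circDist (z - z₀) ≤ z - z₀ :=
        (Symm.circ_le_abs (z - z₀)).trans_eq (abs_of_nonneg hx)
      have d1 : |width r (max 0 (z - z₀ - L)) - width r (z - z₀)| ≤ 2 * Real.sqrt L := by
        nth_rewrite 2 [← max_eq_right hx]
        refine (width_clip_sub_le hr.le hr2 _ _).trans
          (mul_le_mul_of_nonneg_left (Real.sqrt_le_sqrt ?_) zero_le_two)
        refine (abs_max_sub_max_le_max _ _ _ _).trans (max_le (by simpa using hL) ?_)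
        refine (abs_min_sub_min_le_max _ _ _ _).trans (max_le (by simpa using hL) ?_)
        rw [sub_sub_cancel_left, abs_neg, abs_of_nonneg hL]
      have d2 : a z ≤ width r (z - z₀) + (η + 2 * Real.sqrt L) := by
        linarith [(abs_le.1 (h z hz)).2, (abs_le.1 d1).2]
      calc circDist (z - z₀) ^ 2 * a z
          ≤ circDist (z - z₀) ^ 2 * (width r (z - z₀) + (η + 2 * Real.sqrt L)) :=
            mul_le_mul_of_nonneg_left d2 (sq_nonneg _)
        _ ≤ (z - z₀) ^ 2 * width r (z - z₀) + (η + 2 * Real.sqrt L) := by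
            rw [mul_add]
            refine add_le_add (mul_le_mul_of_nonneg_right (pow_le_pow_left₀ c0 c2 2)
              (width_nonneg _ _)) (mul_le_of_le_one_left (by positivity) ?_)
            nlinarith
    refine h1.trans ?_
    rw [intervalIntegral.integral_add (hi (f := fun z => (z - z₀) ^ 2 * width r (z - z₀))
        (hm.comp (continuous_id.sub continuous_const)) _ _) intervalIntegrable_const,
      intervalIntegral.integral_comp_sub_right (fun x => x ^ 2 * width r x) z₀, sub_self,
      intervalIntegral.integral_const, smul_eq_mul, ← hℓ]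
    have h2 : ∫ x in (0 : ℝ)..ℓ, x ^ 2 * width r x ≤ Real.pi * r ^ 4 / 8 := by
      rw [← integral_width_moment hr.le]
      rcases le_total ℓ r with hle | hle
      · exact intervalIntegral.integral_mono_interval le_rfl (sub_nonneg.2 h01) hle
          (ae_of_all _ fun x => mul_nonneg (sq_nonneg x) (width_nonneg r x)) (hi hm _ _)
      · rw [← intervalIntegral.integral_add_adjacent_intervals (hi hm 0 r) (hi hm r ℓ),
          intervalIntegral.integral_congr (a := r) (b := ℓ) (g := fun _ => 0) fun x hx => ?_]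
        · simp
        · rw [uIcc_of_le hle] at hx
          simp [width_zero hr.le hx.1]
    have h3 : ℓ * (η + 2 * Real.sqrt L) ≤ η + 2 * Real.sqrt L :=
      mul_le_of_le_one_left (by positivity) (by linarith)
    linarith

/-- The loss in the bound for the energy by the tube. -/
def excess (u : (Fin 3 → ℝ) → ℝ) (i j : Fin 3) (z₀ : ℝ) : ℝ :=
  energy u - mean u / (area u j z₀ / 2) - Real.pi * (area u j z₀ / 2) +
    (dfct u + axial u i) / (area u j z₀ / 2)

/-- The slope of a slice and its energy against the calibration. -/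
theorem slope_bound {s w E P G K : ℝ} (hs : 0 ≤ s) (hw : 0 ≤ w) (hsw : s ^ 2 + w ^ 2 = 1)
    (hE : 0 ≤ E) (hP : 0 ≤ P) (hK : s * (2 - min E 2) ≤ K)
    (h : ∀ x y : ℝ, 0 ≤ x → 0 ≤ y → x ^ 2 + y ^ 2 ≤ 1 → x * E + y * P ≤ G) :
    0 ≤ G - 2 * s - w * P + K ∧
      (s * P - w * min E 2) ^ 2 ≤ 2 * ((G - 2 * s - w * P + K) * G) := by
  set F := min E 2
  have hF0 : 0 ≤ F := le_min hE zero_le_two
  have hFE : F ≤ E := min_le_left _ _
  have h1 : s * F + w * P ≤ G := by
    linarith [h s w hs hw hsw.le, mul_le_mul_of_nonneg_left hFE hs]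
  have h0 : 0 ≤ s * F + w * P := by positivity
  have h2 : F ^ 2 + P ^ 2 ≤ G ^ 2 := by
    set n := Real.sqrt (F ^ 2 + P ^ 2) with hn
    have hn2 : n ^ 2 = F ^ 2 + P ^ 2 := Real.sq_sqrt (by positivity)
    rcases (Real.sqrt_nonneg (F ^ 2 + P ^ 2)).eq_or_lt with e | e
    · rw [← hn2, hn, ← e]; simp [sq_nonneg]
    have h' := h (F / n) (P / n) (by positivity) (by positivity) (le_of_eq (by
      rw [div_pow, div_pow, ← add_div, ← hn2]
      exact div_self (pow_ne_zero 2 e.ne')))
    have : n ≤ G := by
      refine le_trans (le_of_eq ?_) ((add_le_add (mul_le_mul_of_nonneg_left hFE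
        (by positivity : 0 ≤ F / n)) le_rfl).trans h')
      have e' : n ≠ 0 := e.ne'
      field_simp
      linarith
    rw [← hn2]
    exact pow_le_pow_left₀ e.le this 2
  have hX : G - s * F - w * P ≤ G - 2 * s - w * P + K := by linarith
  refine ⟨by linarith, ?_⟩
  have e : (s * P - w * F) ^ 2 = (F ^ 2 + P ^ 2) - (s * F + w * P) ^ 2 := by
    linear_combination (F ^ 2 + P ^ 2) * hsw
  rw [e]
  refine le_trans (sub_le_sub_right h2 _) ?_
  have := mul_le_mul_of_nonneg_right hX (h0.trans h1)
  nlinarith [mul_nonneg (sub_nonneg.2 h1) (sub_nonneg.2 h1)]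

theorem periodic_slope (hu : Adm u) (j : Fin 3) : Function.Periodic (slope u j) 1 :=
  sliceInt_periodic (hu.per.pd j) j

theorem periodic_sliceDfct (hu : Adm u) (j : Fin 3) :
    Function.Periodic (fun z => dfct (slice u j z)) 1 :=
  sliceInt_periodic (hu.per.comp_left fun t => t * (1 - t)) j

theorem periodic_sliceVar (hu : Adm u) (i j : Fin 3) : Function.Periodic (sliceVar u i j) 1 :=
  sliceInt_periodic (Per.comp_left (hu.per.pd i) abs) j

theorem periodic_sliceGrad (hu : Adm u) (j : Fin 3) : Function.Periodic (Win.sliceGrad u j) 1 :=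
  sliceInt_periodic hu.per.grad j

/-- The arms of a slice profile and their errors. -/
theorem arms (hu : Adm u) (hji : j ≠ i) (hki : k ≠ i) (hkj : k ≠ j) (hgj : HasGap u j)
    (hgk : HasGap u k) (hmax : ∀ z, area u j z ≤ area u j z₀) (hpos : 0 < area u j z₀) :
    0 ≤ excess u i j z₀ ∧
    ∃ (z₁ : ℝ) (X K : ℝ → ℝ), z₀ ≤ z₁ ∧ z₁ ≤ z₀ + 1 ∧ area u j z₁ = 0 ∧ area u j (z₁ - 1) = 0 ∧
      Arm (area u j) (slope u j) (Win.sliceGrad u j) X K (area u j z₀ / 2) ∧
      (∀ p q, p ≤ q → z₁ - 1 ≤ p → q ≤ z₁ → ∫ z in p..q, X z ≤ excess u i j z₀) ∧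
      (∀ p q, p ≤ q → z₁ - 1 ≤ p → q ≤ z₁ → ∫ z in p..q, K z ≤ dfct u + axial u i) ∧
      (∀ p q, p ≤ q → z₁ - 1 ≤ p → q ≤ z₁ → ∫ z in p..q, Win.sliceGrad u j z ≤ energy u) ∧
      ∫ z in z₀..z₁, rad (area u j z₀ / 2) (area u j z) / (area u j z₀ / 2) *
          (|slope u j z| + slope u j z) ≤ excess u i j z₀ ∧
      ∫ z in (z₁ - 1)..z₀, rad (area u j z₀ / 2) (area u j z) / (area u j z₀ / 2) *
          (|slope u j z| - slope u j z) ≤ excess u i j z₀ := by
  obtain ⟨p, q, hpq, hgap⟩ := hgj
  set σ := (p + q) / 2 with hσ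
  have hper := area_periodic hu j
  set z₁ := z₀ + Int.fract (σ - z₀) with hz₁
  have hzero : area u j z₁ = 0 := by
    have : z₁ = σ - (⌊σ - z₀⌋ : ℝ) * 1 := by rw [hz₁, Int.fract]; ring
    rw [this, hper.sub_int_mul_eq]
    exact area_gap u j fun x hx => hgap x (by rw [hx, hσ]; constructor <;> linarith)
  have h01 : z₀ ≤ z₁ := by linarith [Int.fract_nonneg (σ - z₀)]
  have h11 : z₁ ≤ z₀ + 1 := by linarith [Int.fract_lt_one (σ - z₀)]
  have hzero' : area u j (z₁ - 1) = 0 := by rw [hper.sub_eq, hzero]
  set ρ := area u j z₀ / 2 with hρ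
  have hρ0 : 0 < ρ := half_pos hpos
  have hac := area_continuous hu j
  have ha'c : Continuous (slope u j) := continuous_sliceInt (continuous_pd hu.smooth j) j
  have hGc := Win.continuous_sliceGrad hu j
  set K : ℝ → ℝ := fun z => dfct (slice u j z) + sliceVar u i j z with hK
  have hKc : Continuous K := (continuous_dfct_slice hu j).add (continuous_sliceVar hu i j)
  have hK0 : ∀ z, 0 ≤ K z := fun z =>
    add_nonneg (dfct_nonneg (hu.slice j z)) (setIntegral_nonneg measurableSet_box fun _ _ =>
      abs_nonneg _)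
  set W : ℝ → ℝ := fun z => rad ρ (area u j z) / ρ with hW
  have hWc : Continuous W := ((continuous_rad ρ).comp hac).div_const ρ
  have hW0 : ∀ z, 0 ≤ W z := fun z => div_nonneg (rad_nonneg _ _) hρ0.le
  set X : ℝ → ℝ := fun z =>
    Win.sliceGrad u j z - area u j z / ρ - W z * |slope u j z| + K z / ρ with hX
  have hXc : Continuous X :=
    ((hGc.sub (hac.div_const ρ)).sub (hWc.mul ha'c.abs)).add (hKc.div_const ρ)
  have hmem : ∀ z, area u j z ∈ Icc 0 (2 * ρ) := fun z =>
    ⟨(mean_mem (hu.slice j z)).1, by linarith [hmax z]⟩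
  have hpt : ∀ z, 0 ≤ X z ∧ ∃ F ∈ Icc (0 : ℝ) 2, area u j z * (2 - F) ≤ 2 * K z ∧
      (area u j z * |slope u j z| - 2 * rad ρ (area u j z) * F) ^ 2 ≤
        8 * ρ ^ 2 * (X z * Win.sliceGrad u j z) := by
    intro z
    obtain ⟨a0, a2⟩ := hmem z
    have hE := energy_nonneg (slice u j z)
    have hsl := slice_energy hu hji hki hkj hgk z
    have hF : area u j z * (2 - min (energy (slice u j z)) 2) ≤ 2 * K z := by
      rcases le_total (energy (slice u j z)) 2 with h | h
      · rw [min_eq_left h, hK]; simp only; linarith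
      · rw [min_eq_right h, sub_self, mul_zero]
        linarith [hK0 z]
    obtain ⟨x0, x2⟩ := slope_bound (s := area u j z / (2 * ρ)) (w := W z)
      (E := energy (slice u j z)) (P := |slope u j z|) (G := Win.sliceGrad u j z) (K := K z / ρ)
      (by positivity) (hW0 z) (by
        rw [hW]; simp only
        rw [div_pow, div_pow, rad_sq a0 a2]
        field_simp
        ring) hE (abs_nonneg _) (by
        rw [div_mul_eq_mul_div, div_le_div_iff₀ (by positivity) hρ0]
        nlinarith [mul_le_mul_of_nonneg_right hF hρ0.le])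
      fun x y hx hy hxy => Win.split_slice hu j z hx hy hxy
    have e : Win.sliceGrad u j z - 2 * (area u j z / (2 * ρ)) - W z * |slope u j z| + K z / ρ =
        X z := by rw [hX]; simp only; field_simp
    rw [e] at x0 x2
    refine ⟨x0, _, ⟨le_min hE zero_le_two, min_le_right _ _⟩, hF, ?_⟩
    have e' : area u j z * |slope u j z| -
        2 * rad ρ (area u j z) * min (energy (slice u j z)) 2 =
          2 * ρ * (area u j z / (2 * ρ) * |slope u j z| - W z * min (energy (slice u j z)) 2) := by
      rw [hW]; simp only; field_simp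
    rw [e', mul_pow]
    nlinarith [mul_le_mul_of_nonneg_left x2 (sq_nonneg (2 * ρ))]
  have harm : Arm (area u j) (slope u j) (Win.sliceGrad u j) X K ρ :=
    { pos := hρ0
      le := by linarith [(mean_mem (hu.slice j z₀)).2,
        show area u j z₀ = mean (slice u j z₀) from rfl]
      deriv := hasDerivAt_area hu j
      cont := ⟨ha'c, hGc, hXc, hKc⟩
      nonneg := fun z => ⟨setIntegral_nonneg measurableSet_box fun _ _ => grad_nonneg _ _,
        (hpt z).1, hK0 z⟩
      range := hmem
      slope := fun z => (hpt z).2 }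
  have per_int : ∀ f : ℝ → ℝ, Function.Periodic f 1 →
      ∫ z in (z₁ - 1)..z₁, f z = ∫ z in (0 : ℝ)..1, f z := fun f hf => by
    simpa using hf.intervalIntegral_add_eq (z₁ - 1) 0
  have hGi : ∫ z in (z₁ - 1)..z₁, Win.sliceGrad u j z = energy u := by
    rw [per_int _ (periodic_sliceGrad hu j)]
    exact (integral_box_succ (continuous_grad hu.smooth) j).symm
  have hKi : ∫ z in (z₁ - 1)..z₁, K z = dfct u + axial u i := by
    rw [per_int K ((periodic_sliceDfct hu j).add (periodic_sliceVar hu i j)), hK,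
      intervalIntegral.integral_add ((continuous_dfct_slice hu j).intervalIntegrable _ _)
        ((continuous_sliceVar hu i j).intervalIntegrable _ _), integral_dfct_slice hu j,
      integral_sliceVar hu i j]
  have hai : ∫ z in (z₁ - 1)..z₁, area u j z = mean u := by
    rw [per_int _ hper, integral_area hu j]
  have sub : ∀ {f : ℝ → ℝ}, Continuous f → (∀ z, 0 ≤ f z) → ∀ p q, p ≤ q → z₁ - 1 ≤ p → q ≤ z₁ →
      ∫ z in p..q, f z ≤ ∫ z in (z₁ - 1)..z₁, f z := fun hf h0 p q hpq hp hq =>
    intervalIntegral.integral_mono_interval hp hpq hq (ae_of_all _ h0) (hf.intervalIntegrable _ _)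
  have hmul : Continuous fun x => rad ρ x / ρ := (continuous_rad ρ).div_const ρ
  have hWR : ∫ z in z₀..z₁, W z * slope u j z = -(Real.pi * ρ / 2) := by
    have h : ∫ z in z₀..z₁, W z * slope u j z =
        ∫ x in area u j z₀..area u j z₁, rad ρ x / ρ :=
      intervalIntegral.integral_comp_mul_deriv (fun z _ => hasDerivAt_area hu j z)
        ha'c.continuousOn hmul
    rw [h, hzero, show area u j z₀ = 2 * ρ by rw [hρ]; ring, intervalIntegral.integral_symm,
      integral_rad hρ0]
  have hWL : ∫ z in (z₁ - 1)..z₀, W z * slope u j z = Real.pi * ρ / 2 := by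
    have h : ∫ z in (z₁ - 1)..z₀, W z * slope u j z =
        ∫ x in area u j (z₁ - 1)..area u j z₀, rad ρ x / ρ :=
      intervalIntegral.integral_comp_mul_deriv (fun z _ => hasDerivAt_area hu j z)
        ha'c.continuousOn hmul
    rw [h, hzero', show area u j z₀ = 2 * ρ by rw [hρ]; ring, integral_rad hρ0]
  have iP : ∀ p q, IntervalIntegrable (fun z => W z * |slope u j z|) volume p q :=
    fun p q => (hWc.mul ha'c.abs).intervalIntegrable p q
  have iS : ∀ p q, IntervalIntegrable (fun z => W z * slope u j z) volume p q :=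
    fun p q => (hWc.mul ha'c).intervalIntegrable p q
  have hPR : ∫ z in z₀..z₁, W z * (|slope u j z| + slope u j z) =
      (∫ z in z₀..z₁, W z * |slope u j z|) - Real.pi * ρ / 2 := by
    simp only [mul_add]
    rw [intervalIntegral.integral_add (iP _ _) (iS _ _), hWR]
    ring
  have hPL : ∫ z in (z₁ - 1)..z₀, W z * (|slope u j z| - slope u j z) =
      (∫ z in (z₁ - 1)..z₀, W z * |slope u j z|) - Real.pi * ρ / 2 := by
    simp only [mul_sub]
    rw [intervalIntegral.integral_sub (iP _ _) (iS _ _), hWL]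
  have hXi : ∫ z in (z₁ - 1)..z₁, X z = energy u - mean u / ρ -
      ((∫ z in (z₁ - 1)..z₀, W z * |slope u j z|) + ∫ z in z₀..z₁, W z * |slope u j z|) +
        (dfct u + axial u i) / ρ := by
    rw [hX]
    have i1 := hGc.intervalIntegrable (μ := volume) (z₁ - 1) z₁
    have i2 := (hac.div_const ρ).intervalIntegrable (μ := volume) (z₁ - 1) z₁
    have i3 := (hKc.div_const ρ).intervalIntegrable (μ := volume) (z₁ - 1) z₁
    rw [intervalIntegral.integral_add ((i1.sub i2).sub (iP _ _)) i3,
      intervalIntegral.integral_sub (i1.sub i2) (iP _ _), intervalIntegral.integral_sub i1 i2,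
      intervalIntegral.integral_div, intervalIntegral.integral_div, hGi, hKi, hai,
      intervalIntegral.integral_add_adjacent_intervals (iP _ _) (iP _ _)]
  have hR0 : 0 ≤ ∫ z in z₀..z₁, W z * (|slope u j z| + slope u j z) :=
    intervalIntegral.integral_nonneg h01 fun z _ =>
      mul_nonneg (hW0 z) (by linarith [neg_abs_le (slope u j z)])
  have hL0 : 0 ≤ ∫ z in (z₁ - 1)..z₀, W z * (|slope u j z| - slope u j z) :=
    intervalIntegral.integral_nonneg (by linarith) fun z _ =>
      mul_nonneg (hW0 z) (sub_nonneg.2 (le_abs_self _))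
  have hX0 : 0 ≤ ∫ z in (z₁ - 1)..z₁, X z :=
    intervalIntegral.integral_nonneg (by linarith) fun z _ => (hpt z).1
  have hsum : (∫ z in (z₁ - 1)..z₁, X z) +
      ((∫ z in z₀..z₁, W z * (|slope u j z| + slope u j z)) +
        ∫ z in (z₁ - 1)..z₀, W z * (|slope u j z| - slope u j z)) = excess u i j z₀ := by
    rw [hXi, hPR, hPL, excess, ← hρ]
    ring
  refine ⟨by linarith, z₁, X, K, h01, h11, hzero, hzero', harm,
    fun p q h1 h2 h3 => (sub hXc (fun z => (hpt z).1) p q h1 h2 h3).trans (by linarith),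
    fun p q h1 h2 h3 => (sub hKc hK0 p q h1 h2 h3).trans hKi.le,
    fun p q h1 h2 h3 => (sub hGc (fun z => (harm.nonneg z).1) p q h1 h2 h3).trans hGi.le,
    ?_, ?_⟩
  · show ∫ z in z₀..z₁, W z * (|slope u j z| + slope u j z) ≤ _
    linarith
  · show ∫ z in (z₁ - 1)..z₀, W z * (|slope u j z| - slope u j z) ≤ _
    linarith

end Vale.Agent.P232.Classify.Disc
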