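import Vale.Agent.P232.Classify.Base

/-!
# P232: a slice along an invariant axis with a gap across the other
-/

noncomputable section

open MeasureTheory Filter Topology Set Function

namespace Vale.Agent.P232.Classify.Disc

variable {w : (Fin 2 → ℝ) → ℝ} {p q : Fin 2}

theorem continuous_point (p : Fin 2) :
    Continuous fun a : ℝ × ℝ => update (fun _ : Fin 2 => a.1) p a.2 :=
  (continuous_pi fun _ => continuous_fst).update p continuous_snd

theorem continuous_lineInt {f : (Fin 2 → ℝ) → ℝ} (hf : Continuous f) (p : Fin 2) :
    Continuous fun s => ∫ t in (0 : ℝ)..1, f (update (fun _ => s) p t) :=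
  intervalIntegral.continuous_parametric_intervalIntegral_of_continuous'
    (f := fun s t => f (update (fun _ : Fin 2 => s) p t)) (hf.comp (continuous_point p)) 0 1

theorem point_swap (h : p ≠ q) (s t : ℝ) :
    update (fun _ : Fin 2 => s) p t = update (fun _ : Fin 2 => t) q s := by
  funext l
  fin_cases p <;> fin_cases q <;> fin_cases l <;> simp_all

theorem integral_box_two {f : (Fin 2 → ℝ) → ℝ} (hf : Continuous f) (h : p ≠ q) :
    ∫ x in box 2, f x =
      ∫ s in (0 : ℝ)..1, ∫ t in (0 : ℝ)..1, f (update (fun _ => s) p t) := by
  rw [integral_box_succ hf q]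
  refine intervalIntegral.integral_congr fun s _ => ?_
  rw [integral_box_one]
  refine intervalIntegral.integral_congr fun t _ => congrArg f ?_
  funext l
  obtain rfl | ⟨m, rfl⟩ := Fin.eq_self_or_eq_succAbove q l
  · simp [update_of_ne h.symm]
  · have e : q.succAbove m = p := by
      have := Fin.succAbove_ne q m
      omega
    rw [Fin.insertNth_apply_succAbove, e, update_self]

theorem line_variation (hw : Adm w) (p : Fin 2) (s a b : ℝ) :
    2 * |w (update (fun _ => s) p a) - w (update (fun _ => s) p b)| ≤
      ∫ t in (0 : ℝ)..1, |pd w p (update (fun _ => s) p t)| := by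
  refine periodic_variation (g := fun t => w (update (fun _ => s) p t))
    (fun t => ((hw.smooth.differentiable one_ne_zero _).hasFDerivAt).comp_hasDerivAt t
      (hasDerivAt_update (fun _ : Fin 2 => s) p t))
    ((continuous_pd hw.smooth p).comp
      ((continuous_point p).comp (continuous_const.prodMk continuous_id))) (fun t => ?_) a b
  simp only
  rw [← hw.periodic (update (fun _ => s) p t) p]
  congr 1
  funext l
  by_cases hl : l = p
  · subst hl; simp
  · simp [hl]

/-- A slice with a gap across `q`, nearly invariant along `p`. -/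
theorem slice_gap (hw : Adm w) (h : p ≠ q) {σ : ℝ} (hgap : ∀ y, y q = σ → w y = 0) :
    2 * (mean w - dfct w - ∫ y in box 2, |pd w p y|) ≤ mean w * energy w := by
  have hwc := hw.smooth.continuous
  set bar : ℝ → ℝ := fun s => ∫ t in (0 : ℝ)..1, w (update (fun _ => s) p t) with hbar
  have hP : ∀ s, Continuous fun t : ℝ => update (fun _ : Fin 2 => s) p t := fun s =>
    (continuous_point p).comp (continuous_const.prodMk continuous_id)
  have hbc : Continuous bar := continuous_lineInt hwc p
  have hb0 : ∀ s, 0 ≤ bar s := fun s =>
    intervalIntegral.integral_nonneg zero_le_one fun t _ => (hw.mem _).1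
  have hm : mean w = ∫ s in (0 : ℝ)..1, bar s := integral_box_two hwc h
  have hA : ∀ s, 2 * bar s ≤ energy w := by
    intro s
    have hq := (continuous_pd hw.smooth q).abs
    refine le_trans ?_ (setIntegral_box_mono hq (continuous_grad hw.smooth)
      fun x _ => abs_pd_le_grad w q x)
    rw [integral_box_two hq h.symm, hbar, ← intervalIntegral.integral_const_mul]
    refine intervalIntegral.integral_mono_on zero_le_one
      ((continuous_const.mul (hwc.comp (hP s))).intervalIntegrable _ _)
      ((continuous_lineInt hq q).intervalIntegrable _ _) fun t _ => ?_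
    refine le_trans ?_ (line_variation hw q t s σ)
    rw [hgap (update (fun _ => t) q σ) (by simp), sub_zero, point_swap h,
      abs_of_nonneg (hw.mem _).1]
  have hB : ∀ s, (∫ t in (0 : ℝ)..1, w (update (fun _ => s) p t) ^ 2) ≤
      bar s ^ 2 + ∫ t in (0 : ℝ)..1, |pd w p (update (fun _ => s) p t)| := by
    intro s
    set V := ∫ t in (0 : ℝ)..1, |pd w p (update (fun _ => s) p t)|
    have hone : ∀ c : ℝ, ∫ _t in (0 : ℝ)..1, c = c := fun c => by simp
    have hb1 : bar s ≤ 1 :=
      (intervalIntegral.integral_mono_on zero_le_one ((hwc.comp (hP s)).intervalIntegrable _ _)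
        intervalIntegrable_const fun t _ => (hw.mem _).2).trans_eq (hone 1)
    have hd : ∀ t, 2 * |w (update (fun _ => s) p t) - bar s| ≤ V := fun t => by
      have hW : Continuous fun t' => w (update (fun _ => s) p t') := hwc.comp (hP s)
      have : w (update (fun _ => s) p t) - bar s =
          ∫ t' in (0 : ℝ)..1, (w (update (fun _ => s) p t) - w (update (fun _ => s) p t')) := by
        rw [intervalIntegral.integral_sub intervalIntegrable_const
          (hW.intervalIntegrable (μ := volume) 0 1), hone]
      rw [this]
      refine le_trans (mul_le_mul_of_nonneg_left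
        (intervalIntegral.abs_integral_le_integral_abs zero_le_one) zero_le_two) ?_
      rw [← intervalIntegral.integral_const_mul]
      refine (intervalIntegral.integral_mono_on zero_le_one
        ((continuous_const.mul (continuous_const.sub hW).abs).intervalIntegrable _ _)
        intervalIntegrable_const fun t' _ => line_variation hw p s t t').trans_eq (hone _)
    refine (intervalIntegral.integral_mono_on zero_le_one
      (((hwc.comp (hP s)).pow 2).intervalIntegrable _ _)
      (intervalIntegrable_const (c := bar s ^ 2 + V)) fun t _ => ?_).trans_eq (hone _)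
    have h1 := hd t
    obtain ⟨a0, a1⟩ := hw.mem (update (fun _ => s) p t)
    show w (update (fun _ => s) p t) ^ 2 ≤ _
    rcases abs_cases (w (update (fun _ => s) p t) - bar s) with ⟨e, he⟩ | ⟨e, he⟩ <;>
      rw [e] at h1 <;> nlinarith [hb0 s]
  have h2 : Continuous fun x => w x ^ 2 := hwc.pow 2
  have hp' := (continuous_pd hw.smooth p).abs
  have hsq : mean w - dfct w = ∫ x in box 2, w x ^ 2 := by
    have i2 : IntegrableOn (fun x => w x * (1 - w x)) (box 2) :=
      integrableOn_box (hwc.mul (continuous_const.sub hwc))
    rw [mean, dfct, ← integral_sub (integrableOn_box hwc) i2]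
    exact setIntegral_congr_fun measurableSet_box fun x _ => by ring
  have key : mean w - dfct w - (∫ y in box 2, |pd w p y|) ≤ ∫ s in (0 : ℝ)..1, bar s ^ 2 := by
    rw [hsq, integral_box_two h2 h, integral_box_two hp' h, sub_le_iff_le_add,
      ← intervalIntegral.integral_add (f := fun s => bar s ^ 2)
        ((hbc.pow 2).intervalIntegrable _ _)
        ((continuous_lineInt hp' p).intervalIntegrable _ _)]
    exact intervalIntegral.integral_mono_on zero_le_one
      ((continuous_lineInt h2 p).intervalIntegrable _ _)
      (((hbc.pow 2).add (continuous_lineInt hp' p)).intervalIntegrable _ _) fun s _ => hB s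
  refine (mul_le_mul_of_nonneg_left key zero_le_two).trans ?_
  rw [hm, ← intervalIntegral.integral_const_mul, ← intervalIntegral.integral_mul_const]
  refine intervalIntegral.integral_mono_on zero_le_one
    ((continuous_const.mul (hbc.pow 2)).intervalIntegrable _ _)
    ((hbc.mul continuous_const).intervalIntegrable _ _) fun s _ => ?_
  have := mul_le_mul_of_nonneg_left (hA s) (hb0 s)
  show 2 * bar s ^ 2 ≤ bar s * energy w
  linarith [show 2 * bar s ^ 2 = bar s * (2 * bar s) by ring]

variable {u : (Fin 3 → ℝ) → ℝ}

/-- The variation along `i` over one slice across `j`. -/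
def sliceVar (u : (Fin 3 → ℝ) → ℝ) (i j : Fin 3) (z : ℝ) : ℝ :=
  ∫ y in box 2, |pd u i (j.insertNth z y)|

theorem continuous_sliceVar (hu : Adm u) (i j : Fin 3) : Continuous (sliceVar u i j) :=
  continuous_sliceInt (f := fun x => |pd u i x|) (continuous_pd hu.smooth i).abs j

theorem integral_sliceVar (hu : Adm u) (i j : Fin 3) :
    ∫ z in (0 : ℝ)..1, sliceVar u i j z = axial u i :=
  (integral_box_succ (continuous_pd hu.smooth i).abs j).symm

theorem sliceInt_periodic {f : (Fin 3 → ℝ) → ℝ} (hp : Per f) (j : Fin 3) :
    Function.Periodic (fun z => ∫ y in box 2, f (j.insertNth z y)) 1 := fun z =>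
  setIntegral_congr_fun measurableSet_box fun y _ => hp.insertNth_add_one j z y

/-- The profile inequality of a slice without a profile. -/
theorem slice_energy (hu : Adm u) {i j k : Fin 3} (hji : j ≠ i) (hki : k ≠ i) (hkj : k ≠ j)
    (hg : HasGap u k) (z : ℝ) :
    2 * (area u j z - dfct (slice u j z) - sliceVar u i j z) ≤
      area u j z * energy (slice u j z) := by
  obtain ⟨p, rfl⟩ := Fin.exists_succAbove_eq hji.symm
  obtain ⟨q, rfl⟩ := Fin.exists_succAbove_eq hkj
  have hpq : p ≠ q := fun e => hki (by rw [e])
  obtain ⟨a, b, hab, hz⟩ := hg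
  have h := slice_gap (hu.slice j z) hpq (σ := (a + b) / 2) fun y hy => hz _ (by
    show (j.insertNth (α := fun _ => ℝ) z y) (j.succAbove q) ∈ Ioo a b
    rw [Fin.insertNth_apply_succAbove, hy]
    exact ⟨by linarith, by linarith⟩)
  have e : ∫ y in box 2, |pd (slice u j z) p y| = sliceVar u (j.succAbove p) j z := by
    refine setIntegral_congr_fun measurableSet_box fun y _ => ?_
    show |pd (fun y => u (j.insertNth z y)) p y| = _
    rw [pd_insertNth hu.smooth]
  rwa [e] at h

theorem area_gap (u : (Fin 3 → ℝ) → ℝ) (j : Fin 3) {z : ℝ} (h : ∀ x, x j = z → u x = 0) :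
    area u j z = 0 := by
  refine setIntegral_eq_zero_of_forall_eq_zero fun y _ => h _ ?_
  simp

end Vale.Agent.P232.Classify.Disc
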