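import Vale.Agent.P232.Classify.Axes
import Vale.Agent.P232.Classify.Bridge

/-!
# P232: all minimisers are balls, tubes and slabs or their complements
-/

noncomputable section

open MeasureTheory Filter Topology Set

namespace Vale.Agent.P232.Classify

variable {f : (Fin 3 → ℝ) → ℝ} {u : ℕ → (Fin 3 → ℝ) → ℝ} {v : ℝ}

/-- The limit is a ball, a tube or a slab of a kind with least value. -/
def Shaped (v : ℝ) (f : (Fin 3 → ℝ) → ℝ) : Prop :=
  (ballPer v = canonical v ∧ ∃ (r : ℝ) (c : Fin 3 → ℝ), 0 < r ∧ r ≤ 1 / 2 ∧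
    f =ᵐ[volume.restrict (box 3)]
      {x | ∑ i, circDist (x i - c i) ^ 2 < r ^ 2}.indicator fun _ => 1) ∨
  (tubePer v = canonical v ∧ ∃ (i : Fin 3) (r : ℝ) (c : Fin 3 → ℝ), 0 < r ∧ r ≤ 1 / 2 ∧
    f =ᵐ[volume.restrict (box 3)]
      {x | ∑ k ∈ Finset.univ.erase i, circDist (x k - c k) ^ 2 < r ^ 2}.indicator fun _ => 1) ∨
  (canonical v = 2 ∧ ∃ (i : Fin 3) (a : ℝ),
    f =ᵐ[volume.restrict (box 3)] {x | Int.fract (x i - a) < v}.indicator fun _ => 1)

variable (hR : RowFlat) (hW : WindowFlat) (hS : SymSpread) (hRow : WindowRowStrict) (hI : InvFlat)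
  (hO : OtherAxis) (hL : Lower) (hC : CutStep) (hB : BallMoment) (hBS : BallShape)
  (hD : DiscMoment) (hTS : TubeShape) (hSR : SlabRigid)

include hR hW hS hRow hI hO hL hC hB hBS hD hTS hSR in
/-- The limit of a minimising sequence is a ball, a tube or a slab. -/
theorem shaped_of_minSeq (h : MinSeq v f u) : Shaped v f := by
  obtain ⟨w, hw, hgap⟩ := exists_gaps hR hW hS hRow hI hO hL hC h
  have hax : ∀ k, Flat v f k → Tendsto (fun n => axial (w n) k) atTop (𝓝 0) := fun k hk =>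
    hI v f w hw k (hk w hw)
  by_cases h2 : ∃ i, ∀ k, k ≠ i → Flat v f k
  · obtain ⟨i, hi⟩ := h2
    obtain ⟨hc, a, ha⟩ := hSR v f w hw i fun k hk => hax k (hi k hk)
    exact Or.inr (Or.inr ⟨hc, i, a, ha⟩)
  push Not at h2
  by_cases h1 : ∃ i, Flat v f i
  · obtain ⟨i, hi⟩ := h1
    have hg : ∀ n k, k ≠ i → HasGap (w n) k := fun n k hk => hgap k (fun hkf => by
      obtain ⟨j, hji, hkj⟩ := (by decide : ∀ i k : Fin 3, k ≠ i → ∃ j, j ≠ i ∧ k ≠ j) i k hk
      obtain ⟨l, hl, hlf⟩ := h2 j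
      rcases (show l = i ∨ l = k by omega) with rfl | rfl
      exacts [hlf hi, hlf hkf]) n
    obtain ⟨hc, r, c, hr, hr2, hv, hm⟩ := hD v f w hw i (hax i hi) hg
    exact Or.inr (Or.inl ⟨hc, i, r, c, hr, hr2,
      hTS f i r c hw.meas hw.val hr hr2 (hw.mean_eq.trans hv) hm⟩)
  push Not at h1
  obtain ⟨hc, r, c, hr, hr2, hv, hm⟩ := hB v f w hw fun n i => hgap i (h1 i) n
  exact Or.inl ⟨hc, r, c, hr, hr2, hBS f r c hw.meas hw.val hr hr2 (hw.mean_eq.trans hv) hm⟩

/-- The shape in coordinates determines the set up to a null set. -/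
theorem isCanonicalSet_of_shaped {F : Set Point} (hF : IsTorusSet F)
    (h : Shaped v (indFun F)) : IsCanonicalSet v F := by
  rcases h with ⟨hc, r, c, hr, hr2, ha⟩ | ⟨hc, i, r, c, hr, hr2, ha⟩ | ⟨hc, i, a, ha⟩
  · refine Or.inl ⟨hc, WithLp.toLp 2 c, r, hr, hr2,
      ae_eq_of_box hF (isTorusSet_ball _ _) (ha.trans (Eventually.of_forall fun x => ?_))⟩
    simp [ApproxAux.ind, torusBall, Set.indicator]
  · refine Or.inr (Or.inl ⟨hc, i, WithLp.toLp 2 c, r, hr, hr2,
      ae_eq_of_box hF (isTorusSet_tube _ _ _) (ha.trans (Eventually.of_forall fun x => ?_))⟩)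
    simp [ApproxAux.ind, torusTube, Set.indicator]
  · refine Or.inr (Or.inr ⟨hc, i, a,
      ae_eq_of_box hF (isTorusSet_slab _ _ _) (ha.trans (Eventually.of_forall fun x => ?_))⟩)
    simp [ApproxAux.ind, torusSlab, Set.indicator_apply]

include hR hW hS hRow hI hO hL hC hB hBS hD hTS hSR in
/-- A minimiser or its complement is a ball, a tube or a slab. -/
theorem classification {E : Set Point} {V : ℝ} (hE : IsTorusSet E) (hV : torusVolume E = V)
    (hV0 : 0 < V) (hV1 : V < 1) (hP : PerimeterLE E (J V)) :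
    ∃ F, (F = E ∨ F = Eᶜ) ∧ torusVolume F = min V (1 - V) ∧
      IsCanonicalSet (min V (1 - V)) F := by
  have main : ∀ F : Set Point, IsTorusSet F → ∀ v, 0 < v → v ≤ 1 / 2 → torusVolume F = v →
      PerimeterLE F (canonical v) → IsCanonicalSet v F := fun F hF v hv0 hv1 hFv hFP => by
    obtain ⟨u, hu⟩ := exists_minSeq hF hv0 hv1 hFv hFP
    exact isCanonicalSet_of_shaped hF
      (shaped_of_minSeq hR hW hS hRow hI hO hL hC hB hBS hD hTS hSR hu)
  rcases le_total V (1 / 2) with h | h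
  · have e : min V (1 - V) = V := min_eq_left (by linarith)
    rw [J, e] at hP
    rw [e]
    exact ⟨E, Or.inl rfl, hV, main E hE V hV0 h hV hP⟩
  · have e : min V (1 - V) = 1 - V := min_eq_right (by linarith)
    rw [J, e] at hP
    rw [e]
    have hc : torusVolume Eᶜ = 1 - V := by rw [torusVolume_compl hE, hV]
    exact ⟨Eᶜ, Or.inr rfl, hc, main Eᶜ (isTorusSet_compl hE) _ (by linarith) (by linarith) hc
      (perimeterLE_compl hE hP)⟩

end Vale.Agent.P232.Classify
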