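import Vale.Agent.P232.Classify.Base
import Vale.Agent.P232.Competitors

/-!
# P232: balls and tubes have the least second moment
-/

noncomputable section

open MeasureTheory Filter Topology Set

namespace Vale.Agent.P232.Classify

open Compet

variable {n d : ℕ}

theorem circDist_sq_eq (t : ℝ) : circDist t ^ 2 = (Int.fract (t + 1 / 2) - 1 / 2) ^ 2 := by
  rw [circDist, sq_abs, round_eq, Int.fract]
  ring

/-- A rotation of the circle keeps its measure. -/
theorem measurePreserving_fract_add (a : ℝ) :
    MeasurePreserving (fun t => Int.fract (t + a)) (volume.restrict (Ico (0 : ℝ) 1))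
      (volume.restrict (Ico (0 : ℝ) 1)) := by
  have hm : Measurable fun t : ℝ => Int.fract (t + a) :=
    measurable_fract.comp (measurable_id.add_const a)
  refine ⟨hm, Measure.ext fun s hs => ?_⟩
  have hsub : IsFiniteMeasure (volume.restrict (Ico (0 : ℝ) 1)) :=
    isFiniteMeasure_restrict.2 (by simp)
  refine (ENNReal.toReal_eq_toReal_iff' (measure_ne_top _ _) (measure_ne_top _ _)).1 ?_
  rw [Measure.map_apply hm hs]
  set g : ℝ → ℝ := fun t => s.indicator 1 (Int.fract t) with hg
  have hgp : Function.Periodic g 1 := fun t => by simp [hg]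
  calc ((volume.restrict (Ico (0 : ℝ) 1)) ((fun t => Int.fract (t + a)) ⁻¹' s)).toReal
      = ∫ t in Ico (0 : ℝ) 1, g (t + a) := by
        rw [← measureReal_def, ← integral_indicator_one (hm hs)]
        rfl
    _ = ∫ t in (0 : ℝ)..1, g (t + a) := by
        rw [intervalIntegral.integral_of_le zero_le_one, setIntegral_congr_set Ico_ae_eq_Ioc]
    _ = ∫ t in (0 : ℝ)..1, g t := by
        rw [intervalIntegral.integral_comp_add_right g a]
        simpa [add_comm] using hgp.intervalIntegral_add_eq a 0
    _ = ∫ t in Ico (0 : ℝ) 1, g t := by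
        rw [intervalIntegral.integral_of_le zero_le_one, setIntegral_congr_set Ico_ae_eq_Ioc]
    _ = ∫ t in Ico (0 : ℝ) 1, s.indicator 1 t :=
        setIntegral_congr_fun measurableSet_Ico fun t ht => by
          simp only [hg, Int.fract_eq_self.2 ht]
    _ = ((volume.restrict (Ico (0 : ℝ) 1)) s).toReal := by
        rw [← measureReal_def, ← integral_indicator_one hs]

theorem restrict_box_eq :
    (volume.restrict (box n) : Measure (Fin n → ℝ)) =
      Measure.pi fun _ => volume.restrict (Ico (0 : ℝ) 1) := by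
  rw [box_eq, volume_pi, Measure.restrict_pi_pi]

/-- Rotations of the coordinates keep the measure of the box. -/
theorem measurePreserving_rotate (a : Fin n → ℝ) :
    MeasurePreserving (fun x i => Int.fract (x i + a i)) (volume.restrict (box n))
      (volume.restrict (box n)) := by
  rw [restrict_box_eq]
  exact measurePreserving_pi _ _ fun i => measurePreserving_fract_add (a i)

theorem measurePreserving_boxSub :
    MeasurePreserving (WithLp.toLp 2 : (Fin d → ℝ) → Sub d) (volume.restrict (box d))
      (volume.restrict (boxSub d)) := by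
  have e : box d = WithLp.toLp 2 ⁻¹' boxSub d := by ext y; simp [box, boxSub]
  have hb : MeasurableSet (boxSub d) := by
    simp only [boxSub, ofPred_forall]
    exact MeasurableSet.iInter fun i =>
      (EuclideanSpace.proj (𝕜 := ℝ) i).continuous.measurable measurableSet_Ico
  rw [e]
  exact (PiLp.volume_preserving_toLp (Fin d)).restrict_preimage hb

/-- Forgetting a coordinate keeps the measure of the box. -/
theorem measurePreserving_forget (i : Fin (n + 1)) :
    MeasurePreserving (fun (x : Fin (n + 1) → ℝ) j => x (i.succAbove j))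
      (volume.restrict (box (n + 1))) (volume.restrict (box n)) := by
  have : IsProbabilityMeasure (volume.restrict (Ico (0 : ℝ) 1)) := ⟨by simp⟩
  rw [restrict_box_eq, restrict_box_eq]
  exact measurePreserving_snd.comp
    (measurePreserving_piFinSuccAbove (fun _ => volume.restrict (Ico (0 : ℝ) 1)) i)

/-- The positive part below a paraboloid. -/
theorem integral_paraboloid (hd : 0 < d) {r : ℝ} (hr : 0 < r) (hr2 : r ≤ 1 / 2) :
    ∫ z in boxSub d, max 0 (r ^ 2 - ‖z - mid d‖ ^ 2) =
      (volume (Metric.ball (0 : Sub d) 1)).toReal * r ^ (d + 2) * (2 / (d + 2)) := by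
  have : Nonempty (Fin d) := ⟨⟨0, hd⟩⟩
  have hz : ∀ y : ℝ, r ≤ y → max 0 (r ^ 2 - y ^ 2) = 0 := fun y hy =>
    max_eq_left (by linarith [pow_le_pow_left₀ hr.le hy 2])
  rw [setIntegral_eq_integral_of_forall_compl_eq_zero fun z hz' => hz _ (not_lt.1 fun hlt =>
      hz' (ball_subset_boxSub hr2 (mem_ball_iff_norm.2 hlt))),
    integral_sub_right_eq_self (fun z : Sub d => max 0 (r ^ 2 - ‖z‖ ^ 2)) (mid d),
    integral_fun_norm_addHaar (volume : Measure (Sub d)) fun y => max 0 (r ^ 2 - y ^ 2),
    finrank_euclideanSpace_fin, nsmul_eq_mul, measureReal_def]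
  simp only [smul_eq_mul]
  rw [setIntegral_eq_of_subset_of_forall_sdiff_eq_zero measurableSet_Ioi
    (Ioc_subset_Ioi_self : Ioc (0 : ℝ) r ⊆ Ioi 0) fun y hy => by
      rw [hz y ?_, mul_zero]
      by_contra hlt
      exact hy.2 ⟨hy.1, (not_le.1 hlt).le⟩,
    ← intervalIntegral.integral_of_le hr.le]
  have he : EqOn (fun y => y ^ (d - 1) * max 0 (r ^ 2 - y ^ 2))
      (fun y => r ^ 2 * y ^ (d - 1) - y ^ (d + 1)) (uIcc 0 r) := by
    intro y hy
    rw [uIcc_of_le hr.le] at hy
    simp only
    rw [max_eq_right (by linarith [pow_le_pow_left₀ hy.1 hy.2 2]),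
      show d + 1 = (d - 1) + 2 by omega, pow_add]
    ring
  have i1 : IntervalIntegrable (fun y : ℝ => r ^ 2 * y ^ (d - 1)) volume 0 r :=
    (continuous_const.mul (continuous_pow _)).intervalIntegrable _ _
  have i2 : IntervalIntegrable (fun y : ℝ => y ^ (d + 1)) volume 0 r :=
    (continuous_pow _).intervalIntegrable _ _
  rw [intervalIntegral.integral_congr he, intervalIntegral.integral_sub i1 i2,
    intervalIntegral.integral_const_mul, integral_pow, integral_pow,
    Nat.sub_add_cancel hd, zero_pow hd.ne', zero_pow (by omega : d + 1 + 1 ≠ 0)]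
  have h1 : ((d - 1 : ℕ) : ℝ) + 1 = d := by
    rw [Nat.cast_sub (by omega : 1 ≤ d)]; push_cast; ring
  have h2 : (d : ℝ) ≠ 0 := by positivity
  rw [h1]
  push_cast
  field_simp
  ring

/-- The set of least moment below a radius. -/
theorem moment_unique {Φ : (Fin 3 → ℝ) → Sub d}
    (hΦ : MeasurePreserving Φ (volume.restrict (box 3)) (volume.restrict (boxSub d)))
    {w f : (Fin 3 → ℝ) → ℝ} (hw : Continuous w) (hwΦ : ∀ x, w x = ‖Φ x - mid d‖ ^ 2)
    (hd : 0 < d) {r : ℝ} (hr : 0 < r) (hr2 : r ≤ 1 / 2) (hf : Measurable f)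
    (hv : ∀ x, f x = 0 ∨ f x = 1)
    (hK : (volume (Metric.ball (0 : Sub d) 1)).toReal * r ^ (d + 2) * (2 / (d + 2)) ≤
      r ^ 2 * (∫ x in box 3, f x) - ∫ x in box 3, f x * w x) :
    f =ᵐ[volume.restrict (box 3)] {x | w x < r ^ 2}.indicator fun _ => 1 := by
  have : Nonempty (Fin d) := ⟨⟨0, hd⟩⟩
  have hb : ∀ x, f x ∈ Icc (0 : ℝ) 1 := fun x => by rcases hv x with e | e <;> simp [e]
  have hne : ∀ᵐ x ∂volume.restrict (box 3), w x ≠ r ^ 2 := by
    have hs : ∀ᵐ z ∂volume.restrict (boxSub d), z ∉ Metric.sphere (mid d) r :=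
      ae_restrict_of_ae (measure_eq_zero_iff_ae_notMem.1
        (Measure.addHaar_sphere volume (mid d) r))
    filter_upwards [hΦ.quasiMeasurePreserving.ae hs] with x hx he
    rw [hwΦ] at he
    exact hx (mem_sphere_iff_norm.2 ((pow_left_inj₀ (norm_nonneg _) hr.le two_ne_zero).1 he))
  have hP : ∫ x in box 3, max 0 (r ^ 2 - w x) =
      (volume (Metric.ball (0 : Sub d) 1)).toReal * r ^ (d + 2) * (2 / (d + 2)) := by
    rw [← integral_paraboloid hd hr hr2, ← hΦ.map_eq,
      integral_map hΦ.measurable.aemeasurable (by fun_prop)]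
    simp only [hwΦ]
  have hc : Continuous fun x => max 0 (r ^ 2 - w x) :=
    continuous_const.max (continuous_const.sub hw)
  have iP : IntegrableOn (fun x => max 0 (r ^ 2 - w x)) (box 3) := integrableOn_box hc
  have iF : IntegrableOn (fun x => f x * (r ^ 2 - w x)) (box 3) :=
    integrableOn_mul_of_bounded (continuous_const.sub hw) hf hb
  have hge : ∀ x, 0 ≤ max 0 (r ^ 2 - w x) - f x * (r ^ 2 - w x) := fun x => by
    rcases hv x with e | e <;> simp [e]
  have hsplit : ∫ x in box 3, f x * (r ^ 2 - w x) =
      r ^ 2 * (∫ x in box 3, f x) - ∫ x in box 3, f x * w x := by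
    have i1 : IntegrableOn (fun x => r ^ 2 * f x) (box 3) := by
      simpa [mul_comm] using integrableOn_mul_of_bounded (continuous_const (y := r ^ 2)) hf hb
    rw [← integral_const_mul, ← integral_sub i1 (integrableOn_mul_of_bounded hw hf hb)]
    exact setIntegral_congr_fun measurableSet_box fun x _ => by ring
  have h0 : ∫ x in box 3, (max 0 (r ^ 2 - w x) - f x * (r ^ 2 - w x)) = 0 := by
    refine le_antisymm ?_ (setIntegral_nonneg measurableSet_box fun x _ => hge x)
    rw [integral_sub iP iF, hP, hsplit]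
    linarith
  filter_upwards [(integral_eq_zero_iff_of_nonneg hge (iP.sub iF)).1 h0, hne] with x hx hx'
  simp only [Pi.zero_apply, sub_eq_zero] at hx
  rcases hv x with e | e <;> rw [e] at hx ⊢
  · rw [zero_mul] at hx
    have : ¬ w x < r ^ 2 := by linarith [le_max_right (0 : ℝ) (r ^ 2 - w x)]
    rw [indicator_of_notMem (show x ∉ {x | w x < r ^ 2} from this)]
  · rw [one_mul] at hx
    have : w x < r ^ 2 := lt_of_le_of_ne (by linarith [le_max_left (0 : ℝ) (r ^ 2 - w x)]) hx'
    rw [indicator_of_mem (show x ∈ {x | w x < r ^ 2} from this)]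

theorem norm_sq_mid (z : Fin d → ℝ) :
    ‖(WithLp.toLp 2 z : Sub d) - mid d‖ ^ 2 = ∑ j, (z j - 1 / 2) ^ 2 := by
  simp [EuclideanSpace.norm_sq_eq, mid, sq_abs]

theorem continuous_moment (s : Finset (Fin 3)) (c : Fin 3 → ℝ) :
    Continuous fun x : Fin 3 → ℝ => ∑ k ∈ s, circDist (x k - c k) ^ 2 :=
  continuous_finsetSum _ fun k _ =>
    (continuous_circDist.comp ((continuous_apply k).sub continuous_const)).pow 2

/-- The ball is the set of its volume with least second moment. -/
theorem ballShape : BallShape := by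
  intro f r c hf hv hr hr2 hV hM
  refine moment_unique (d := 3)
    (measurePreserving_boxSub.comp (measurePreserving_rotate fun i => 1 / 2 - c i))
    (continuous_moment Finset.univ c) (fun x => ?_) (by norm_num) hr hr2 hf hv ?_
  · rw [Function.comp_apply, norm_sq_mid]
    refine Finset.sum_congr rfl fun k _ => ?_
    rw [circDist_sq_eq, sub_add_eq_add_sub, add_sub_assoc]
  · rw [ball_three, hV]
    refine le_trans (le_of_eq ?_) (sub_le_sub_left hM _)
    push_cast
    ring

/-- The tube is the set of its volume with least second moment about the axis. -/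
theorem tubeShape : TubeShape := by
  intro f i r c hf hv hr hr2 hV hM
  refine moment_unique (d := 2)
    ((measurePreserving_boxSub.comp
      (measurePreserving_rotate fun j => 1 / 2 - c (i.succAbove j))).comp
        (measurePreserving_forget i))
    (continuous_moment (Finset.univ.erase i) c) (fun x => ?_) (by norm_num) hr hr2 hf hv ?_
  · rw [Function.comp_apply, Function.comp_apply, norm_sq_mid]
    simp only []
    rw [Finset.sum_erase_eq_sub (Finset.mem_univ i),
      Fin.sum_univ_succAbove (fun k => circDist (x k - c k) ^ 2) i, add_sub_cancel_left]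
    refine Finset.sum_congr rfl fun k _ => ?_
    rw [circDist_sq_eq, sub_add_eq_add_sub, add_sub_assoc]
  · rw [ball_two, hV]
    refine le_trans (le_of_eq ?_) (sub_le_sub_left hM _)
    push_cast
    ring

end Vale.Agent.P232.Classify
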