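import Vale.Agent.P232.Classify.Base
import Vale.Agent.P232.Symm.Main

/-!
# P232: symmetrisation keeps the slice areas spread out
-/

noncomputable section

open MeasureTheory Filter Topology Set Function

namespace Vale.Agent.P232.Classify

theorem planeSq_eq_spread {u : (Fin 3 → ℝ) → ℝ} (hu : Adm u) (i : Fin 3) :
    Symm.planeSq u i = spread u i := by
  have hm : ∀ z, Symm.planeMean u i z = area u i z := fun z => by
    rw [Symm.planeMean, integral_box_succ (f := fun y => u (update y i z))
      (hu.smooth.continuous.comp (continuous_id.update i continuous_const)) i]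
    simp only [Fin.update_insertNth]
    simp [area, mean, slice]
  rw [Symm.planeSq, integral_box_succ (f := fun x => Symm.planeMean u i (x i) ^ 2)
    ((Symm.continuous_planeMean hu.smooth.continuous i).pow 2) i]
  simp only [Fin.insertNth_apply_same, hm, setIntegral_const, volume_box, one_smul]
  rfl

theorem symSpread : SymSpread := by
  intro u hu δ hδ
  obtain ⟨w, hw, hm, hd, hE, he, ha, hs⟩ :=
    Symm.exists_symmetric_spread (n := 2) hu (δ := δ / 2) (by positivity)
  refine ⟨w, hw, ⟨he, ha⟩, hm, hd.trans (by linarith), hE, fun i => ?_⟩
  have := hs i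
  rw [planeSq_eq_spread hu, planeSq_eq_spread hw] at this
  linarith

end Vale.Agent.P232.Classify
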