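import Vale.Agent.P232.Classify.Base

/-!
# P232: coordinate lines and the variations along the axes
-/

noncomputable section

open MeasureTheory Filter Topology Set

namespace Vale.Agent.P232.Classify

open Axis

variable {u : (Fin 3 → ℝ) → ℝ} {w : (Fin 2 → ℝ) → ℝ} {v : ℝ}

/-- Two axial variations make at most the energy. -/
theorem axial_pair_le (hu : Adm u) {i j : Fin 3} (hij : i ≠ j) {s t : ℝ}
    (hst : s ^ 2 + t ^ 2 ≤ 1) : s * axial u i + t * axial u j ≤ energy u := by
  have hi := (continuous_pd hu.smooth i).abs
  have hj := (continuous_pd hu.smooth j).abs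
  rw [axial, axial, ← integral_const_mul, ← integral_const_mul,
    ← integral_add (f := fun x => s * |pd u i x|) (g := fun x => t * |pd u j x|)
      ((integrableOn_box hi).const_mul s) ((integrableOn_box hj).const_mul t), energy]
  refine setIntegral_box_mono ((hi.const_smul s).add (hj.const_smul t))
    (continuous_grad hu.smooth) fun x _ => ?_
  have h2 : |pd u i x| ^ 2 + |pd u j x| ^ 2 ≤ ∑ k, pd u k x ^ 2 := by
    rw [sq_abs, sq_abs, ← Finset.sum_pair (f := fun k => pd u k x ^ 2) hij]
    exact Finset.sum_le_sum_of_subset_of_nonneg (Finset.subset_univ _) fun k _ _ => sq_nonneg _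
  refine Real.le_sqrt_of_sq_le (le_trans ?_ h2)
  nlinarith [sq_nonneg (s * |pd u j x| - t * |pd u i x|),
    mul_le_mul_of_nonneg_right hst (add_nonneg (sq_nonneg |pd u i x|) (sq_nonneg |pd u j x|))]

/-- A uniform bound on the slice areas makes the axis flat. -/
theorem flat_le_of_abs (hu : Adm u) (i : Fin 3) {b : ℝ}
    (h : ∀ z ∈ Icc (0 : ℝ) 1, |area u i z - v| ≤ b) : flat v u i ≤ b := by
  have := intervalIntegral.integral_mono_on (μ := volume) zero_le_one
    (((area_continuous hu i).sub continuous_const).abs.intervalIntegrable 0 1)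
    (intervalIntegrable_const (c := b)) h
  simpa [flat] using this

/-- The areas differ from the mean by at most half the axial variation. -/
theorem abs_area_sub_mean_le (hu : Adm u) (i : Fin 3) (z : ℝ) :
    |area u i z - mean u| ≤ axial u i / 2 := by
  have e : area u i z - mean u = ∫ y in (0 : ℝ)..1, (area u i z - area u i y) := by
    rw [intervalIntegral.integral_sub intervalIntegrable_const
      ((area_continuous hu i).intervalIntegrable _ _), integral_area hu i]
    simp
  rw [e]
  refine le_trans (le_of_eq (Real.norm_eq_abs _).symm) ?_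
  refine (intervalIntegral.norm_integral_le_of_norm_le_const (C := axial u i / 2)
    fun y _ => ?_).trans (by simp)
  rw [Real.norm_eq_abs]
  linarith [abs_area_sub_le hu i z y]

theorem axial_le_energy (hu : Adm u) (i : Fin 3) : axial u i ≤ energy u :=
  setIntegral_box_mono (continuous_pd hu.smooth i).abs (continuous_grad hu.smooth)
    fun x _ => abs_pd_le_grad u i x

theorem flat_le_axial (hu : Adm u) (v : ℝ) (i : Fin 3) :
    flat v u i ≤ axial u i / 2 + |mean u - v| :=
  flat_le_of_abs hu i fun z _ =>
    (abs_sub_le _ (mean u) v).trans (add_le_add (abs_area_sub_mean_le hu i z) le_rfl)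

/-! ### Periodic functions of one variable -/

/-- A periodic function is near its mean when its variation is small. -/
theorem abs_sub_mean_le_var {g g' : ℝ → ℝ} (hd : ∀ z, HasDerivAt g (g' z) z) (hc : Continuous g')
    (hp : Function.Periodic g 1) (z : ℝ) :
    2 * |g z - ∫ t in (0 : ℝ)..1, g t| ≤ ∫ t in (0 : ℝ)..1, |g' t| := by
  have hg : Continuous g := continuous_iff_continuousAt.2 fun z => (hd z).continuousAt
  have e : g z - ∫ t in (0 : ℝ)..1, g t = ∫ t in (0 : ℝ)..1, (g z - g t) := by
    rw [intervalIntegral.integral_sub intervalIntegrable_const (hg.intervalIntegrable _ _)]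
    simp
  have h := intervalIntegral.norm_integral_le_of_norm_le_const
    (a := 0) (b := 1) (f := fun t => g z - g t) (C := (∫ t in (0 : ℝ)..1, |g' t|) / 2)
    fun t _ => by
      rw [Real.norm_eq_abs]
      linarith [periodic_variation hd hc hp z t]
  rw [Real.norm_eq_abs, ← e] at h
  simp only [sub_zero, abs_one, mul_one] at h
  linarith

/-- A function which is nearly two-valued runs between nearly zero and nearly one. -/
theorem range_defect {g : ℝ → ℝ} (hg : Continuous g) (hp : Function.Periodic g 1)
    (hI : ∀ z, g z ∈ Icc (0 : ℝ) 1) :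
    ∃ x y, (∀ z, g y ≤ g z ∧ g z ≤ g x) ∧
      (∫ z in (0 : ℝ)..1, g z) * (1 - ∫ z in (0 : ℝ)..1, g z) -
          ∫ z in (0 : ℝ)..1, g z * (1 - g z) ≤
        (∫ z in (0 : ℝ)..1, g z) * (1 - ∫ z in (0 : ℝ)..1, g z) * (g x - g y) := by
  obtain ⟨y, x, hyx⟩ := exists_extrema hg hp
  refine ⟨x, y, hyx, ?_⟩
  set m := ∫ z in (0 : ℝ)..1, g z with hm
  have i1 := hg.intervalIntegrable (μ := volume) 0 1
  have i2 : IntervalIntegrable (fun z => g z * (1 - g z)) volume 0 1 :=
    (hg.mul (continuous_const.sub hg)).intervalIntegrable _ _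
  have hlo : g y ≤ m := le_integral_of_slice hg hm.symm fun z => (hyx z).1
  have hhi : m ≤ g x := integral_le_of_slice hg hm.symm fun z => (hyx z).2
  have hB : m * (1 - g x - g y) + g x * g y ≤ ∫ z in (0 : ℝ)..1, g z * (1 - g z) := by
    have h := intervalIntegral.integral_mono_on zero_le_one
      ((i1.mul_const (1 - g x - g y)).add intervalIntegrable_const) i2
      (fun z _ => show g z * (1 - g x - g y) + g x * g y ≤ g z * (1 - g z) by
        nlinarith [mul_nonneg (sub_nonneg.2 (hyx z).1) (sub_nonneg.2 (hyx z).2)])
    rwa [intervalIntegral.integral_add (i1.mul_const _) intervalIntegrable_const,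
      intervalIntegral.integral_mul_const, ← hm, intervalIntegral.integral_const, sub_zero,
      one_smul] at h
  nlinarith [mul_nonneg (mul_nonneg (sub_nonneg.2 (hhi.trans (hI x).2)) (sub_nonneg.2 hhi))
      (hI y).1, mul_nonneg (mul_nonneg ((hI y).1.trans hlo) (sub_nonneg.2 hlo))
      (sub_nonneg.2 (hI x).2)]

/-- The share of a value which is neither empty nor full. -/
def share (d b : ℝ) : ℝ := min 1 (b * (1 - b) / d)

theorem continuous_share (d : ℝ) : Continuous (share d) := by unfold share; fun_prop

theorem share_mem {d b : ℝ} (hd : 0 < d) (hb : b ∈ Icc (0 : ℝ) 1) : share d b ∈ Icc (0 : ℝ) 1 :=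
  ⟨le_min zero_le_one (div_nonneg (mul_nonneg hb.1 (sub_nonneg.2 hb.2)) hd.le), min_le_left _ _⟩

theorem share_compl {d b : ℝ} (hd : 0 < d) (hb : b ∈ Icc (0 : ℝ) 1) :
    (1 - share d b) * (b * (1 - b)) ≤ d := by
  have h0 := mul_nonneg hb.1 (sub_nonneg.2 hb.2)
  rcases le_total d (b * (1 - b)) with h | h
  · rw [share, min_eq_left ((one_le_div hd).2 h)]
    linarith
  · nlinarith [(share_mem hd hb).1, (share_mem hd hb).2]

theorem share_lipschitz {d a b : ℝ} (hd : 0 < d) (ha : a ∈ Icc (0 : ℝ) 1)
    (hb : b ∈ Icc (0 : ℝ) 1) : |share d a - share d b| ≤ |a - b| / d := by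
  refine (abs_min_sub_min_le_max _ _ _ _).trans (max_le ?_ ?_)
  · rw [sub_self, abs_zero]; positivity
  · rw [← sub_div, abs_div, abs_of_pos hd]
    refine div_le_div_of_nonneg_right ?_ hd.le
    rw [show a * (1 - a) - b * (1 - b) = (a - b) * (1 - a - b) by ring, abs_mul]
    exact mul_le_of_le_one_right (abs_nonneg _)
      (abs_le.2 ⟨by linarith [ha.2, hb.2], by linarith [ha.1, hb.1]⟩)

/-- A line costs two unless it is nearly empty or full. -/
theorem line_share {g g' : ℝ → ℝ} (hd : ∀ z, HasDerivAt g (g' z) z) (hc : Continuous g')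
    (hp : Function.Periodic g 1) (hI : ∀ z, g z ∈ Icc (0 : ℝ) 1) {d : ℝ} (hd0 : 0 < d) :
    2 * share d (∫ z in (0 : ℝ)..1, g z) - 2 * (∫ z in (0 : ℝ)..1, g z * (1 - g z)) / d ≤
      ∫ z in (0 : ℝ)..1, |g' z| := by
  have hg : Continuous g := continuous_iff_continuousAt.2 fun z => (hd z).continuousAt
  obtain ⟨x, y, hxy, h⟩ := range_defect hg hp hI
  have hV : 2 * (g x - g y) ≤ ∫ z in (0 : ℝ)..1, |g' z| :=
    le_trans (by linarith [le_abs_self (g x - g y)]) (periodic_variation hd hc hp x y)
  have he : 0 ≤ ∫ z in (0 : ℝ)..1, g z * (1 - g z) :=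
    intervalIntegral.integral_nonneg zero_le_one fun z _ =>
      mul_nonneg (hI z).1 (sub_nonneg.2 (hI z).2)
  set V := ∫ z in (0 : ℝ)..1, |g' z|
  set e := ∫ z in (0 : ℝ)..1, g z * (1 - g z)
  set m := ∫ z in (0 : ℝ)..1, g z with hm
  set q := m * (1 - m) with hq
  have hm0 : 0 ≤ m := le_integral_of_slice hg hm.symm fun z => (hI z).1
  have hm1 : m ≤ 1 := integral_le_of_slice hg hm.symm fun z => (hI z).2
  have hq0 : 0 ≤ q := mul_nonneg hm0 (sub_nonneg.2 hm1)
  have hV0 : 0 ≤ V := intervalIntegral.integral_nonneg zero_le_one fun _ _ => abs_nonneg _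
  have h2 : 2 * (q - e) ≤ q * V := by nlinarith
  rw [share]
  rcases le_total d q with hdq | hdq
  · rw [min_eq_left ((one_le_div hd0).2 hdq)]
    by_contra hc
    have : 2 * e / d < 2 - V := by linarith
    rw [div_lt_iff₀ hd0] at this
    have hpos : 0 < 2 - V := by nlinarith
    nlinarith [mul_le_mul_of_nonneg_left hdq hpos.le]
  · rw [min_eq_right ((div_le_one hd0).2 hdq)]
    have : (2 * q - 2 * e) / d ≤ V := by
      rw [div_le_iff₀ hd0]; nlinarith [mul_le_mul_of_nonneg_right hdq hV0]
    rw [sub_div, mul_div_assoc] at this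
    linarith

/-! ### The square -/

/-- The point with coordinate `s` on the axis `l` and `t` on the other one. -/
def pt (l : Fin 2) (s t : ℝ) : Fin 2 → ℝ := l.insertNth (α := fun _ => ℝ) s fun _ => t

theorem pt_swap (l : Fin 2) (s t : ℝ) : pt (l.succAbove 0) t s = pt l s t := by
  funext j
  fin_cases l <;> fin_cases j <;> simp [pt, Fin.insertNth, Fin.succAboveCases]

theorem continuous_pt (l : Fin 2) : Continuous fun q : ℝ × ℝ => pt l q.1 q.2 :=
  continuous_fst.finInsertNth (A := fun _ : Fin 2 => ℝ) l (continuous_pi fun _ => continuous_snd)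

theorem continuous_line {F : (Fin 2 → ℝ) → ℝ} (hF : Continuous F) (l : Fin 2) (s : ℝ) :
    Continuous fun t => F (pt l s t) :=
  hF.comp ((continuous_pt l).comp (continuous_const.prodMk continuous_id))

theorem square_integral {F : (Fin 2 → ℝ) → ℝ} (hF : Continuous F) (l : Fin 2) :
    ∫ x in box 2, F x = ∫ s in (0 : ℝ)..1, ∫ t in (0 : ℝ)..1, F (pt l s t) := by
  rw [integral_box_succ hF l]
  simp only [integral_box_one]
  rfl

theorem square_integral' {F : (Fin 2 → ℝ) → ℝ} (hF : Continuous F) (l : Fin 2) :
    ∫ x in box 2, F x = ∫ t in (0 : ℝ)..1, ∫ s in (0 : ℝ)..1, F (pt l s t) := by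
  rw [square_integral hF (l.succAbove 0)]
  simp only [pt_swap]

theorem continuous_lineInt {F : (Fin 2 → ℝ) → ℝ} (hF : Continuous F) (l : Fin 2) :
    Continuous fun s => ∫ t in (0 : ℝ)..1, F (pt l s t) :=
  (continuous_sliceInt hF l).congr fun _ => integral_box_one

theorem deriv_line (hw : Adm w) (l : Fin 2) (s t : ℝ) :
    HasDerivAt (fun t => w (pt l s t)) (pd w (l.succAbove 0) (pt l s t)) t := by
  have h := hasDerivAt_insertNth hw.smooth (l.succAbove 0) t fun _ => s
  simp only [← pt_swap l]
  exact h

theorem periodic_line (hw : Adm w) (l : Fin 2) (s : ℝ) :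
    Function.Periodic (fun t => w (pt l s t)) 1 := fun t => by
  simp only [← pt_swap l]
  exact hw.per.insertNth_add_one _ t _

/-- The means of the lines differ from the mean by half the variation across them. -/
theorem line_mean_near (hw : Adm w) (l : Fin 2) (s : ℝ) :
    |(∫ t in (0 : ℝ)..1, w (pt l s t)) - mean w| ≤ (∫ x in box 2, |pd w l x|) / 2 := by
  have hc := hw.smooth.continuous
  have hp := (continuous_pd hw.smooth l).abs
  have hl : l = (l.succAbove 0).succAbove 0 := by fin_cases l <;> rfl
  have i1 := (continuous_line hc l s).intervalIntegrable (μ := volume) 0 1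
  have c2 : Continuous fun t => ∫ r in (0 : ℝ)..1, w (pt l r t) := by
    simpa only [pt_swap] using continuous_lineInt hc (l.succAbove 0)
  have c3 : Continuous fun t => ∫ r in (0 : ℝ)..1, |pd w l (pt l r t)| := by
    simpa only [pt_swap] using continuous_lineInt hp (l.succAbove 0)
  rw [mean, square_integral' hc l, square_integral' hp l,
    ← intervalIntegral.integral_sub i1 (c2.intervalIntegrable _ _),
    ← intervalIntegral.integral_div]
  refine (intervalIntegral.abs_integral_le_integral_abs zero_le_one).trans
    (intervalIntegral.integral_mono_on zero_le_one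
      (((continuous_line hc l s).sub c2).abs.intervalIntegrable _ _)
      ((c3.div_const 2).intervalIntegrable _ _) fun t _ => ?_)
  have h := abs_sub_mean_le_var (g := fun r => w (pt l r t))
    (g' := fun r => pd w l (pt l r t)) (fun r => hasDerivAt_insertNth hw.smooth l r _)
    ((continuous_pd hw.smooth l).comp
      ((continuous_pt l).comp (continuous_id.prodMk continuous_const)))
    (fun r => hw.per.insertNth_add_one _ r _) s
  linarith

/-- The lines across a square cost two unless the square is nearly empty or full. -/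
theorem square_share (hw : Adm w) (l : Fin 2) {d : ℝ} (hd : 0 < d) :
    2 * share d (mean w) ≤
      (∫ x in box 2, |pd w (l.succAbove 0) x|) + (2 * dfct w + ∫ x in box 2, |pd w l x|) / d := by
  set P := ∫ x in box 2, |pd w l x| with hP
  have hc := hw.smooth.continuous
  have hk := (continuous_pd hw.smooth (l.succAbove 0)).abs
  have he : Continuous fun x => w x * (1 - w x) := hc.mul (continuous_const.sub hc)
  rw [dfct, square_integral hk l, square_integral he l,
    show (2 * (∫ s in (0 : ℝ)..1, ∫ t in (0 : ℝ)..1, w (pt l s t) * (1 - w (pt l s t))) + P) / d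
      = ∫ s in (0 : ℝ)..1, (2 * (∫ t in (0 : ℝ)..1, w (pt l s t) * (1 - w (pt l s t))) + P) / d by
      rw [intervalIntegral.integral_div, intervalIntegral.integral_add
        (((continuous_lineInt he l).const_mul 2).intervalIntegrable _ _) intervalIntegrable_const,
        intervalIntegral.integral_const_mul, intervalIntegral.integral_const]
      simp]
  refine le_trans (le_of_eq ?_) ((intervalIntegral.integral_mono_on zero_le_one
    (intervalIntegrable_const (c := 2 * share d (mean w)))
    (((continuous_lineInt hk l).intervalIntegrable _ _).add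
      (((((continuous_lineInt he l).const_mul 2).add continuous_const).div_const
        d).intervalIntegrable _ _)) fun s _ => ?_).trans_eq
    (intervalIntegral.integral_add ((continuous_lineInt hk l).intervalIntegrable _ _)
      (((((continuous_lineInt he l).const_mul 2).add continuous_const).div_const
        d).intervalIntegrable _ _)))
  · simp
  have hcont : Continuous fun t => pd w (l.succAbove 0) (pt l s t) :=
    continuous_line (continuous_pd hw.smooth _) l s
  have h1 := line_share (deriv_line hw l s) hcont (periodic_line hw l s) (fun t => hw.mem _) hd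
  have hm : (∫ t in (0 : ℝ)..1, w (pt l s t)) ∈ Icc (0 : ℝ) 1 :=
    ⟨le_integral_of_slice (continuous_line hc l s) rfl fun t => (hw.mem _).1,
      integral_le_of_slice (continuous_line hc l s) rfl fun t => (hw.mem _).2⟩
  have h2 := share_lipschitz hd (mean_mem hw) hm
  have h3 : |mean w - ∫ t in (0 : ℝ)..1, w (pt l s t)| / d ≤ P / 2 / d := by
    rw [abs_sub_comm]
    exact div_le_div_of_nonneg_right (line_mean_near hw l s) hd.le
  have h4 := le_abs_self (share d (mean w) - share d (∫ t in (0 : ℝ)..1, w (pt l s t)))
  have h5 : P / 2 / d * 2 = P / d := by ring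
  show _ ≤ _ + (2 * _ + P) / d
  rw [add_div]
  linarith

/-- A square is near its mean when the variations along both axes are small. -/
theorem square_L1 (hw : Adm w) (l : Fin 2) :
    ∫ x in box 2, |w x - mean w| ≤
      ((∫ x in box 2, |pd w l x|) + ∫ x in box 2, |pd w (l.succAbove 0) x|) / 2 := by
  set P := ∫ x in box 2, |pd w l x| with hP
  have hc := hw.smooth.continuous
  have hk := (continuous_pd hw.smooth (l.succAbove 0)).abs
  have hA : Continuous fun x => |w x - mean w| := (hc.sub continuous_const).abs
  have hB := continuous_lineInt hk l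
  rw [square_integral hA l, square_integral hk l,
    show (P + ∫ s in (0 : ℝ)..1, ∫ t in (0 : ℝ)..1, |pd w (l.succAbove 0) (pt l s t)|) / 2 =
      ∫ s in (0 : ℝ)..1, (P + ∫ t in (0 : ℝ)..1, |pd w (l.succAbove 0) (pt l s t)|) / 2 by
      rw [intervalIntegral.integral_div, intervalIntegral.integral_add intervalIntegrable_const
        (hB.intervalIntegrable _ _), intervalIntegral.integral_const]
      simp]
  refine intervalIntegral.integral_mono_on zero_le_one
    ((continuous_lineInt hA l).intervalIntegrable _ _)
    (((continuous_const.add hB).div_const 2).intervalIntegrable _ _) fun s _ => ?_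
  refine (intervalIntegral.integral_mono_on zero_le_one
    ((continuous_line hA l s).intervalIntegrable _ _) intervalIntegrable_const
    (g := fun _ => (P + ∫ t in (0 : ℝ)..1, |pd w (l.succAbove 0) (pt l s t)|) / 2)
    fun t _ => ?_).trans (le_of_eq (by simp))
  have h1 := abs_sub_mean_le_var (deriv_line hw l s)
    (continuous_line (continuous_pd hw.smooth _) l s) (periodic_line hw l s) t
  have h2 := line_mean_near hw l s
  have h3 := abs_sub_le (w (pt l s t)) (∫ t in (0 : ℝ)..1, w (pt l s t)) (mean w)
  linarith

/-! ### The box, by slices -/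

theorem axial_slices (hu : Adm u) (j : Fin 3) (k : Fin 2) :
    axial u (j.succAbove k) = ∫ z in (0 : ℝ)..1, ∫ y in box 2, |pd (slice u j z) k y| := by
  rw [axial, integral_box_succ (continuous_pd hu.smooth _).abs j]
  refine intervalIntegral.integral_congr fun z _ => ?_
  refine setIntegral_congr_fun measurableSet_box fun y _ => ?_
  exact congrArg abs (pd_insertNth hu.smooth j z y k).symm

theorem continuous_sliceVar (hu : Adm u) (j : Fin 3) (k : Fin 2) :
    Continuous fun z => ∫ y in box 2, |pd (slice u j z) k y| :=
  (continuous_sliceInt (continuous_pd hu.smooth (j.succAbove k)).abs j).congr fun z =>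
    setIntegral_congr_fun measurableSet_box fun y _ =>
      congrArg abs (pd_insertNth hu.smooth j z y k).symm

theorem third : ∀ {i j k : Fin 3}, i ≠ j → i ≠ k → j ≠ k →
    ∀ {l : Fin 2}, j.succAbove l = i → j.succAbove (l.succAbove 0) = k := by decide

/-- With an almost invariant axis, the lines across a slice cost two unless it is empty or full. -/
theorem axial_share (hu : Adm u) {i j k : Fin 3} (hij : i ≠ j) (hik : i ≠ k) (hjk : j ≠ k)
    {d : ℝ} (hd : 0 < d) :
    2 * (∫ z in (0 : ℝ)..1, share d (area u j z)) ≤
      axial u k + (2 * dfct u + axial u i) / d := by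
  obtain ⟨l, hl⟩ := Fin.exists_succAbove_eq hij
  have hl' := third hij hik hjk hl
  rw [← hl', ← hl, axial_slices hu, axial_slices hu, ← integral_dfct_slice hu j,
    ← intervalIntegral.integral_const_mul, ← intervalIntegral.integral_const_mul,
    ← intervalIntegral.integral_add
      (((continuous_dfct_slice hu j).const_mul 2).intervalIntegrable _ _)
      ((continuous_sliceVar hu j l).intervalIntegrable _ _),
    ← intervalIntegral.integral_div]
  refine (intervalIntegral.integral_mono_on zero_le_one
    ((((continuous_share d).comp (area_continuous hu j)).const_mul 2).intervalIntegrable _ _)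
    (((continuous_sliceVar hu j _).intervalIntegrable _ _).add
      (((((continuous_dfct_slice hu j).const_mul 2).add (continuous_sliceVar hu j l)).div_const
        d).intervalIntegrable _ _)) fun z _ => ?_).trans_eq
    (intervalIntegral.integral_add ((continuous_sliceVar hu j _).intervalIntegrable _ _)
      (((((continuous_dfct_slice hu j).const_mul 2).add (continuous_sliceVar hu j l)).div_const
        d).intervalIntegrable _ _))
  exact square_share (hu.slice j z) l hd

/-- The distance to the slice areas is at most the variations along the slices. -/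
theorem slice_L1 (hu : Adm u) {i j k : Fin 3} (hij : i ≠ j) (hik : i ≠ k) (hjk : j ≠ k) :
    ∫ x in box 3, |u x - area u i (x i)| ≤ (axial u j + axial u k) / 2 := by
  obtain ⟨l, hl⟩ := Fin.exists_succAbove_eq hij.symm
  have hl' := third hij.symm hjk hik hl
  have hc : Continuous fun x : Fin 3 → ℝ => |u x - area u i (x i)| :=
    (hu.smooth.continuous.sub ((area_continuous hu i).comp (continuous_apply i))).abs
  rw [← hl', ← hl, axial_slices hu, axial_slices hu, integral_box_succ hc i,
    ← intervalIntegral.integral_add ((continuous_sliceVar hu i l).intervalIntegrable _ _)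
      ((continuous_sliceVar hu i _).intervalIntegrable _ _), ← intervalIntegral.integral_div]
  refine intervalIntegral.integral_mono_on zero_le_one
    ((continuous_sliceInt hc i).intervalIntegrable _ _)
    ((((continuous_sliceVar hu i l).add (continuous_sliceVar hu i _)).div_const
      2).intervalIntegrable _ _) fun z _ => ?_
  simp only [Fin.insertNth_apply_same]
  exact square_L1 (hu.slice i z) l

theorem integral_coord {G : ℝ → ℝ} (hG : Continuous G) (k : Fin 3) :
    ∫ x in box 3, G (x k) = ∫ z in (0 : ℝ)..1, G z := by
  simpa [setIntegral_const, volume_box] using Cut.integral_axis (f := fun _ => (1 : ℝ))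
    continuous_const hG k

/-- Functions of two coordinates multiply. -/
theorem integral_coord_mul {F G : ℝ → ℝ} (hF : Continuous F) (hG : Continuous G) {j k : Fin 3}
    (hjk : j ≠ k) :
    ∫ x in box 3, F (x j) * G (x k) =
      (∫ z in (0 : ℝ)..1, F z) * ∫ z in (0 : ℝ)..1, G z := by
  obtain ⟨l, rfl⟩ := Fin.exists_succAbove_eq hjk.symm
  rw [Cut.integral_axis (f := fun x : Fin 3 → ℝ => G (x (j.succAbove l)))
    (hG.comp (continuous_apply _)) hF j, ← intervalIntegral.integral_mul_const]
  refine intervalIntegral.integral_congr fun z _ => ?_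
  simp only [Fin.insertNth_apply_succAbove]
  rw [square_integral (F := fun y : Fin 2 → ℝ => G (y l)) (hG.comp (continuous_apply l)) l]
  simp [pt]

end Vale.Agent.P232.Classify
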