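import Vale.Agent.P232.Classify.Base
import Vale.Agent.P232.Classify.Lines
import Vale.Agent.P232.Classify.Tube
import Vale.Agent.P232.Win.Main

/-!
# P232: in the middle range of volumes a near minimiser has a flat axis
-/

noncomputable section

open MeasureTheory Filter Topology Set

namespace Vale.Agent.P232.Classify

variable {u w : (Fin 3 → ℝ) → ℝ} {v : ℝ}

/-- From `0.259` on the canonical value is less than seven times the volume. -/
theorem canonical_drop698 {a b : ℝ} (ha : 0 ≤ a) (hab : a ≤ b) (hb : 259 / 1000 ≤ b) :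
    canonical b ≤ canonical a + 698 / 100 * (b - a) := by
  have hle : canonical b ≤ 698 / 100 * b := by
    refine ((min_le_left _ _).trans (min_le_right _ _)).trans ?_
    have h : Real.sqrt (Real.pi * b) ≤ 349 / 100 * b :=
      (Real.sqrt_le_left (by linarith)).2 (by nlinarith [Real.pi_lt_d4])
    unfold tubePer
    linarith
  refine le_of_mul_le_mul_right ?_ (show (0 : ℝ) < b by linarith)
  have h1 := canonical_star ha hab
  have h2 := mul_le_mul_of_nonneg_right hle (sub_nonneg.2 hab)
  linarith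

/-- From `0.259` on the ball is not the best. -/
theorem ball_margin {b : ℝ} (hb : 259 / 1000 ≤ b) : canonical b + 1 / 100 ≤ ballPer b := by
  have h0 : 0 ≤ b := by linarith
  set q := Real.sqrt (Real.pi * b) with hq
  have hq2 : q ^ 2 = Real.pi * b := Real.sq_sqrt (by positivity)
  have hq0 : 1 / 2 ≤ q := Real.le_sqrt_of_sq_le (by nlinarith [Real.pi_gt_three])
  have hqb : q ≤ 436 / 100 * b :=
    (Real.sqrt_le_left (by linarith)).2 (by nlinarith [Real.pi_lt_d4])
  have hball : ballPer b = (36 * Real.pi * b ^ 2) ^ (1 / 3 : ℝ) := by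
    rw [ballPer, Real.mul_rpow (by positivity) (sq_nonneg b)]
    congr 1
    rw [← Real.rpow_natCast, ← Real.rpow_mul h0]; norm_num
  have h3 : 101 / 100 * (2 * q) ≤ ballPer b := by
    have e : 101 / 100 * (2 * q) = ((101 / 100 * (2 * q)) ^ 3) ^ (1 / 3 : ℝ) := by
      rw [← Real.rpow_natCast, ← Real.rpow_mul (by positivity)]; norm_num
    rw [hball, e]
    refine Real.rpow_le_rpow (by positivity) ?_ (by norm_num)
    have e2 : (101 / 100 * (2 * q)) ^ 3 = 8 * (101 / 100) ^ 3 * (Real.pi * b) * q := by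
      rw [← hq2]; ring
    rw [e2]
    nlinarith [mul_le_mul_of_nonneg_left hqb (show 0 ≤ Real.pi * b by positivity)]
  have h4 : canonical b ≤ 2 * q := (min_le_left _ _).trans (min_le_right _ _)
  linarith

/-- The slice areas run between the far one and the middle one. -/
theorem area_between (hu : Adm u) (hS : Win.Sym u) (i : Fin 3) {z : ℝ} (hz : z ∈ Icc (0 : ℝ) 1) :
    area u i z ∈ Icc (area u i (1 / 2)) (area u i 0) := by
  have key : ∀ y ∈ Icc (0 : ℝ) (1 / 2), area u i y ∈ Icc (area u i (1 / 2)) (area u i 0) :=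
    fun y hy => ⟨Win.area_anti hu hS i hy ⟨by norm_num, le_rfl⟩ hy.2,
      Win.area_anti hu hS i ⟨le_rfl, by norm_num⟩ hy hy.1⟩
  rcases le_total z (1 / 2) with h | h
  · exact key z ⟨hz.1, h⟩
  · have e : area u i z = area u i (1 - z) := by
      rw [show 1 - z = -z + 1 by ring, area_periodic hu i, Win.area_even hS]
    rw [e]
    exact key _ ⟨by linarith [hz.2], by linarith⟩

/-- Two gaps and little energy left: the axis across none of them is flat. -/
theorem tube_flat (hu : Adm u) (hS : Win.Sym u) (i : Fin 3) {κ η : ℝ} (hηκ : η ≤ κ / 16)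
    (hmv : |mean u - v| ≤ 2 * η)
    (h : (area u i 0 - area u i (1 / 2)) ^ 2 ≤ (κ / 8) ^ 2) : flat v u i ≤ κ / 2 := by
  have hη : 0 ≤ 2 * η := (abs_nonneg _).trans hmv
  have hκ : 0 ≤ κ / 8 := by linarith
  have h3 := abs_le_of_sq_le_sq' h hκ
  have hm' := abs_le.1 hmv
  refine flat_le_of_abs hu i fun z hz => ?_
  obtain ⟨p1, p2⟩ := area_between hu hS i hz
  obtain ⟨q1, q2, -⟩ := Win.scalar_range hu hS i
  rw [abs_le]
  constructor <;> linarith

/-- A gap and a middle area near one: another axis is flat. -/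
theorem gap_flat (hu : Adm u) (hS : Win.Sym u) {i j : Fin 3} (hij : i ≠ j) (hg : HasGap u i)
    {κ η e : ℝ} (hκ : 0 < κ) (hκ1 : κ ≤ 1) (he0 : 0 ≤ e) (heκ : e ≤ κ ^ 2 / 10 ^ 9)
    (hηe : η ≤ e) (hmv : |mean u - v| ≤ 2 * η) (hE : energy u ≤ 2 + 2 * η)
    (hm1 : (1 - area u i 0) / 100 ≤ 9 * e) : flat v u j ≤ κ / 2 := by
  have hax : 2 * area u i 0 ≤ axial u i := by
    have h0 := abs_area_sub_le hu i 0 (1 / 2)
    rw [Win.far_zero hu hS hg, sub_zero,
      abs_of_nonneg (show 0 ≤ area u i 0 from (mean_mem (hu.slice i 0)).1)] at h0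
    exact h0
  set t := κ / 16 with ht
  have ht0 : 0 < t := by positivity
  have ht2 : t ^ 2 ≤ 1 := pow_le_one₀ ht0.le (by linarith)
  have hp := axial_pair_le hu hij (s := 1 - t ^ 2) (t := t)
    (by nlinarith [mul_le_mul_of_nonneg_left ht2 (sq_nonneg t)])
  have hlow := mul_le_mul_of_nonneg_left (show 2 * (1 - 900 * e) ≤ axial u i by linarith)
    (show 0 ≤ 1 - t ^ 2 by linarith)
  have hj2 : axial u j ≤ 1817 * e / t + 2 * t := by
    refine le_of_mul_le_mul_left ?_ ht0
    rw [mul_add, mul_div_cancel₀ _ ht0.ne']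
    have : 0 ≤ t ^ 2 * e := by positivity
    nlinarith
  have het : 1817 * e / t ≤ κ / 8 := by
    rw [div_le_iff₀ ht0, ht]
    nlinarith
  have hη' : η ≤ κ / 16 := by nlinarith
  refine flat_le_of_abs hu j fun z _ => ?_
  have := abs_area_sub_mean_le hu j z
  linarith [abs_sub_le (area u j z) (mean u) v]

variable (hW : WindowStrict) (hRow : WindowRowStrict) (hSy : Win.SymCut) (hT : ThreeGaps)
  (hL : Lower)

include hW hRow hSy hT hL in
/-- A symmetrical near minimiser with gaps outside `s` has a flat axis. -/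
theorem flat_node (hv0 : 262 / 1000 ≤ v) (hv1 : v ≤ 365 / 1000) (k : ℕ) :
    ∀ κ : ℝ, 0 < κ → κ ≤ 1 → ∃ δ > 0, ∀ u : (Fin 3 → ℝ) → ℝ, Adm u → Win.Sym u →
      ∀ s : Finset (Fin 3), s.card ≤ k → (∀ j ∉ s, HasGap u j) → |mean u - v| ≤ δ →
        dfct u ≤ δ → energy u ≤ canonical v + δ → ∃ i, flat v u i ≤ κ := by
  obtain ⟨δs, hδs, hsmall⟩ := exists_small_slack (1 / 1000) (by norm_num)
  have nogap : ∀ (u : (Fin 3 → ℝ) → ℝ) (δ : ℝ), Adm u → (∀ j, HasGap u j) → δ ≤ 1 / 10 ^ 4 →
      |mean u - v| ≤ δ → dfct u ≤ δs → energy u ≤ canonical v + δ → False := by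
    intro u δ hu hg hδ hm hd hE
    have h1 := bound_no_axis hT hu 3 (s := ∅) rfl (fun j _ => hg j) hδs.le
    have h2 := abs_le.1 hm
    have h3 := ball_margin (b := mean u) (by linarith)
    have h4 := Win.canonical_near (a := mean u) (b := v) (mean_mem hu).1 (by linarith) hm
    linarith [hsmall _ (dfct_nonneg hu) hd]
  induction k with
  | zero =>
    intro κ hκ _
    refine ⟨min δs (1 / 10 ^ 4), by positivity, fun u hu _ s hs hg hm hd hE => ?_⟩
    refine (nogap u _ hu (fun j => hg j ?_) (min_le_right _ _) hm (hd.trans (min_le_left _ _))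
      hE).elim
    simp [Finset.card_eq_zero.1 (Nat.le_zero.1 hs)]
  | succ k ih =>
    intro κ hκ hκ1
    obtain ⟨δk, hδk, hk⟩ := ih (κ / 4) (by positivity) (by linarith)
    set d := min (κ / 4) (δk / 4) with hd0
    have hd0' : 0 < d := by positivity
    have hdκ : d ≤ κ / 4 := min_le_left _ _
    have hdk : d ≤ δk / 4 := min_le_right _ _
    set e := min (min (d / 2000) (κ ^ 2 / 10 ^ 9)) (1 / 10 ^ 12) with he
    have he0 : 0 < e := by positivity
    have hed : e ≤ d / 2000 := (min_le_left _ _).trans (min_le_left _ _)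
    have heκ : e ≤ κ ^ 2 / 10 ^ 9 := (min_le_left _ _).trans (min_le_right _ _)
    have he12 : e ≤ 1 / 10 ^ 12 := min_le_right _ _
    obtain ⟨δL, hδL, hlow⟩ := hL e he0
    set η := min (min e (min (δk / 4) (δL / 2))) (min δs (min ((e / 4000) ^ 2) ((e / 80) ^ 3)))
      with hη
    have hη0 : 0 < η := by positivity
    have hηe : η ≤ e := (min_le_left _ _).trans (min_le_left _ _)
    have hηk : η ≤ δk / 4 := (min_le_left _ _).trans ((min_le_right _ _).trans (min_le_left _ _))
    have hηL : η ≤ δL / 2 := (min_le_left _ _).trans ((min_le_right _ _).trans (min_le_right _ _))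
    have hηs : η ≤ δs := (min_le_right _ _).trans (min_le_left _ _)
    have hη2 : Real.sqrt η ≤ e / 4000 := (Real.sqrt_le_left (by positivity)).2
      ((min_le_right _ _).trans ((min_le_right _ _).trans (min_le_left _ _)))
    have hη3 : err η ≤ e / 8 := by
      unfold err
      have h : η ^ (1 / 3 : ℝ) ≤ e / 80 := by
        refine (Real.rpow_le_rpow hη0.le
          ((min_le_right _ _).trans ((min_le_right _ _).trans (min_le_right _ _)))
          (by norm_num)).trans_eq ?_
        rw [← Real.rpow_natCast, ← Real.rpow_mul (by positivity)]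
        norm_num
      linarith
    obtain ⟨δ₀, hδ₀, hsharp⟩ := Win.sharpen_close η 3 hη0
    refine ⟨min δ₀ η, lt_min hδ₀ hη0, fun u hu hS s hs hg hm hd hE => ?_⟩
    have hminη : min δ₀ η ≤ η := min_le_right _ _
    have hc2 : canonical v ≤ 2 := min_le_right _ _
    obtain ⟨u', hu', hS', ⟨hdist, hmean⟩, hd', hE', hzero, hSh⟩ :=
      hsharp u hu hS (hd.trans (min_le_left _ _)) (by linarith)
    suffices ∃ i, flat v u' i ≤ κ / 2 by
      obtain ⟨i, hi⟩ := this
      refine ⟨i, ?_⟩
      have h1 := flat_le_add hu hu' v i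
      simp only [fun x => abs_sub_comm (u x) (u' x)] at h1
      linarith
    have hg' : ∀ j ∉ s, HasGap u' j := fun j hj => by
      obtain ⟨a, b, hab, hz⟩ := hg j hj
      exact ⟨a, b, hab, fun x hx => hzero x (hz x hx)⟩
    have hmv : |mean u' - v| ≤ 2 * η := by
      linarith [abs_sub_le (mean u') (mean u) v]
    have hm' := abs_le.1 hmv
    have hV0 : 259 / 1000 ≤ mean u' := by linarith
    have hV1 : mean u' ≤ 368 / 1000 := by linarith
    have hEv : energy u' ≤ canonical v + 2 * η := by linarith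
    have hnear := Win.canonical_near (a := mean u') (b := v) (mean_mem hu').1 (by linarith) hmv
    have herr : err (dfct u') ≤ e / 8 := (err_mono (dfct_nonneg hu') hd').trans hη3
    have hloss : Win.caseLoss η u' ≤ e := by unfold Win.caseLoss; linarith
    by_cases hthin : ∃ i ∈ s, Win.far u' i ≤ 16 / 10000
    · obtain ⟨i, hi, hfi⟩ := hthin
      by_cases hcut : CanCut (area u' i) 7 (1 / 100)
      · have hβη : (7 : ℝ) * Real.sqrt (1 / 100) ≤ 2 * Real.sqrt Real.pi := by
          rw [show Real.sqrt (1 / 100 : ℝ) = 1 / 10 by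
            rw [show (1 / 100 : ℝ) = (1 / 10) ^ 2 by norm_num, Real.sqrt_sq (by norm_num)]]
          have : 1 ≤ Real.sqrt Real.pi := Real.one_le_sqrt.2 (by linarith [Real.pi_gt_three])
          linarith
        obtain ⟨w, hw, hSw, hle, hgap, hdw, -, hEw⟩ := hSy u' hu' hS' i 7 (1 / 100) (by norm_num)
          (by norm_num) (by norm_num) hβη (by linarith) hcut η hη0
        have hmm := mean_mono hu' hw hle
        have hdrop := canonical_drop698 (mean_mem hw).1 hmm hV0
        have hl := hlow w hw (by linarith) (by linarith)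
        have hΔ : mean u' - mean w ≤ d / 2 := by linarith
        have hmw : |mean w - v| ≤ δk := abs_le.2 ⟨by linarith, by linarith⟩
        obtain ⟨l, hl'⟩ := hk w hw hSw (s.erase i)
          (by rw [Finset.card_erase_of_mem hi]; omega) (gaps_erase hw hle hgap hg') hmw
          (by linarith) (by linarith [mul_nonneg (show (0 : ℝ) ≤ 7 by norm_num) (sub_nonneg.2 hmm)])
        refine ⟨l, ?_⟩
        have h1 := flat_le_add hu' hw v l
        have e1 : ∫ x in box 3, |u' x - w x| = mean u' - mean w := by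
          rw [setIntegral_congr_fun measurableSet_box
            (fun x _ => abs_of_nonneg (sub_nonneg.2 (hle x)))]
          exact integral_sub (integrableOn_box hu'.smooth.continuous)
            (integrableOn_box hw.smooth.continuous)
        linarith
      · have := hRow u' hu' i hcut hV0 hV1 ⟨1 / 2, hfi⟩
        exfalso
        linarith
    push Not at hthin
    have hη10 : η ≤ 1 / 10 ^ 10 := by linarith
    by_cases huall : ∀ i, i ∈ s
    · have := Win.contact_case_to (T := fun v => canonical v / 2 + 1 / 10 ^ 9) hW.contact hu' hS'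
        hSh hη0.le (by linarith) (fun i => hthin i (huall i)) hV0 hV1
      exfalso
      linarith
    push Not at huall
    obtain ⟨i, hi⟩ := huall
    obtain ⟨j, l, hij, hil, hjl⟩ := Win.others i
    by_cases hsmallfar : ∃ x ∈ s, Win.far u' x ≤ 4 / 100
    · obtain ⟨x, hx, hfx⟩ := hsmallfar
      have := Win.small_case_to (T := fun v => canonical v / 2 + 1 / 10 ^ 9) hW.small hu' hS' hSh
        hη0.le (by linarith) (hthin x hx) hfx hV0 hV1
      exfalso
      linarith
    push Not at hsmallfar
    have tube : ∀ {a b c : Fin 3}, a ≠ b → a ≠ c → b ≠ c → HasGap u' b → HasGap u' c →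
        4 / 100 < Win.far u' a → flat v u' a ≤ κ / 2 := by
      intro a b c hab hac hbc hgb hgc hfa
      have h := Win.tube_case_margin hu' hS' hab hac hbc hgb hgc (by linarith) η hV0 hV1
      refine tube_flat hu' hS' a (κ := κ) (by linarith) hmv ?_
      have : κ ^ 2 / 10 ^ 9 * 10 ^ 9 = κ ^ 2 := div_mul_cancel₀ _ (by norm_num)
      rw [div_pow]
      linarith
    by_cases hj : j ∈ s <;> by_cases hl : l ∈ s
    · have h := Win.gap_case_to
        (T := fun m v => canonical v / 2 + min (1 / 10 ^ 9) ((1 - m) / 100)) hW.gap hu' hS' hSh hη0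
        hη10 hij hil hjl (hg' i hi) (hsmallfar j hj) (hsmallfar l hl) hV0 hV1
      have hm1 : (1 - area u' i 0) / 100 ≤ 9 * e := by
        rcases le_total (1 / 10 ^ 9 : ℝ) ((1 - area u' i 0) / 100) with h' | h'
        · rw [min_eq_left h'] at h; linarith
        · rw [min_eq_right h'] at h; linarith
      exact ⟨j, gap_flat hu' hS' hij (hg' i hi) hκ hκ1 he0.le heκ hηe hmv (by linarith) hm1⟩
    · exact ⟨j, tube hij.symm hjl hil (hg' i hi) (hg' l hl) (hsmallfar j hj)⟩
    · exact ⟨l, tube hil.symm hjl.symm hij (hg' i hi) (hg' j hj) (hsmallfar l hl)⟩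
    · have hall : ∀ x, HasGap u' x := by
        intro x
        rcases (show x = i ∨ x = j ∨ x = l by omega) with rfl | rfl | rfl
        exacts [hg' _ hi, hg' _ hj, hg' _ hl]
      exact (nogap u' (2 * η) hu' hall (by linarith) hmv (hd'.trans hηs) hEv).elim

/-- In the middle range a symmetrical near minimiser has a flat axis. -/
theorem windowFlat (hW : WindowStrict) (hRow : WindowRowStrict) (hSy : Win.SymCut) (hT : ThreeGaps)
    (hL : Lower) : WindowFlat := by
  intro v hv0 hv1 κ hκ
  obtain ⟨δ, hδ, h⟩ := flat_node hW hRow hSy hT hL hv0 hv1 3 (min κ 1) (by positivity)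
    (min_le_right _ _)
  refine ⟨δ, hδ, fun u hu hS hm hd hE => ?_⟩
  obtain ⟨i, hi⟩ := h u hu hS Finset.univ le_rfl (fun j hj => absurd (Finset.mem_univ j) hj) hm hd hE
  exact ⟨i, hi.trans (min_le_left _ _)⟩

end Vale.Agent.P232.Classify
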