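import Vale.Agent.P232.Classify.Pins
import Vale.Agent.P232.Win.Scalar

/-!
# P232: the scalar facts of the middle range with margins
-/

noncomputable section

namespace Vale.Agent.P232.Classify

theorem windowStrict : WindowStrict :=
  ⟨Win.windowMargins.1, Win.windowMargins.2.1, Win.windowMargins.2.2⟩

end Vale.Agent.P232.Classify
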