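import Vale.Agent.P232.Approx
import Vale.Agent.P232.Competitors
import Vale.Agent.P232.CutStep
import Vale.Agent.P232.Excursion
import Vale.Agent.P232.Profile
import Vale.Agent.P232.ProfileSquare
import Vale.Agent.P232.RowBound
import Vale.Agent.P232.Scalar.Main
import Vale.Agent.P232.Sobolev
import Vale.Agent.P232.ThreeGaps
import Vale.Agent.P232.TinyBound
import Vale.Agent.P232.Win.Main
import Vale.Agent.P232.Win.Row
import Vale.Agent.P232.Win.Scalar
import Vale.Agent.P232.Win.SymCut
import Vale.Agent.P232.Classify.Ball
import Vale.Agent.P232.Classify.Converse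
import Vale.Agent.P232.Classify.Disc
import Vale.Agent.P232.Classify.Main
import Vale.Agent.P232.Classify.Shapes
import Vale.Agent.P232.Classify.SymSpread
import Vale.Agent.P232.Classify.WindowFlat
import Vale.Agent.P232.Classify.WindowStrict

/-!
# P232: the least perimeter and all the sets which attain it
-/

noncomputable section

open MeasureTheory Set

namespace Vale.Agent.P232.Classify

/-- The isoperimetric problem of the cubic torus is solved by balls, tubes, slabs and their
complements. -/
theorem solution (hR : RowFlat) (hI : InvFlat) (hO : OtherAxis) (hSR : SlabRigid) (hL : Lower)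
    (hRow : WindowRowStrict) : ∀ V : ℝ, 0 < V → V < 1 → IsLeast (perimeters V) (J V) ∧
      ∀ E, IsTorusSet E → torusVolume E = V →
        (PerimeterLE E (J V) ↔ ∃ F, (F = E ∨ F = Eᶜ) ∧ torusVolume F = min V (1 - V) ∧
          IsCanonicalSet (min V (1 - V)) F) := by
  intro V hV0 hV1
  have hSl : Slicing := slicing (Square.profileSquare sobolevPlane)
  have hT := threeGaps sobolevSpace
  refine ⟨⟨competitors V hV0 hV1, fun A hA => Win.lower_bound_all approx hT
    (rowBound hSl excursion) (tinyBound hSl excursion) (Cut.cutStep hSl) scalar Win.windowScalar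
    Win.windowRow (Win.symCut hSl) hV0 hV1 hA⟩, fun E hE hV => ⟨fun hP => ?_, ?_⟩⟩
  · exact classification hR (windowFlat windowStrict hRow (Win.symCut hSl) hT hL) symSpread hRow
      hI hO hL (Cut.cutStep hSl) ballMoment ballShape discMoment tubeShape hSR hE hV hV0 hV1 hP
  · rintro ⟨F, hF, hvol, hcan⟩
    have hv0 : 0 < min V (1 - V) := lt_min hV0 (by linarith)
    have hv1 : min V (1 - V) ≤ 1 / 2 := by
      rcases le_total V (1 / 2) with h | h
      exacts [(min_le_left _ _).trans h, (min_le_right _ _).trans (by linarith)]
    rcases hF with rfl | rfl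
    · exact perimeterLE_of_canonical hv0 hv1 hE hvol hcan
    · exact compl_compl E ▸ perimeterLE_compl (isTorusSet_compl hE)
        (perimeterLE_of_canonical hv0 hv1 (isTorusSet_compl hE) hvol hcan)

end Vale.Agent.P232.Classify
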