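import Vale.Agent.P232.Classify.Base
import Vale.Agent.P232.ProfileSquare
import Vale.Agent.P232.Sobolev

/-!
# P232: flat slices make the axial variation disappear
-/

noncomputable section

open MeasureTheory Filter Topology Set

namespace Vale.Agent.P232.Classify

theorem canonical_le_prof {v : ℝ} (hv1 : v ≤ 1 / 2) : canonical v ≤ prof v := by
  have h : Real.sqrt (Real.pi * v) ≤ Real.sqrt (Real.pi * (1 - v)) :=
    Real.sqrt_le_sqrt (mul_le_mul_of_nonneg_left (by linarith) Real.pi_pos.le)
  rw [prof, min_eq_left ((min_le_left _ _).trans h)]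
  rcases le_total (Real.sqrt (Real.pi * v)) 1 with h1 | h1
  · rw [min_eq_left h1]
    exact (min_le_left _ _).trans (min_le_right _ _)
  · rw [min_eq_right h1, mul_one]
    exact min_le_right _ _

/-- The profile is continuous with a linear bound away from a point. -/
theorem prof_ge_linear (v : ℝ) {ε : ℝ} (hε : 0 < ε) :
    ∃ C, 0 ≤ C ∧ ∀ b, prof v - ε - C * |b - v| ≤ prof b := by
  obtain ⟨δ, hδ, h⟩ := Metric.continuous_iff.1 Axis.continuous_prof v ε hε
  refine ⟨2 / δ, by positivity, fun b => ?_⟩
  rcases lt_or_ge |b - v| δ with hb | hb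
  · have := h b (by rwa [Real.dist_eq])
    rw [Real.dist_eq, abs_lt] at this
    have : 0 ≤ 2 / δ * |b - v| := by positivity
    linarith
  · have h2 : 2 ≤ 2 / δ * |b - v| := by
      refine le_trans (le_of_eq ?_) (mul_le_mul_of_nonneg_left hb (by positivity))
      field_simp
    have hle : prof v ≤ 2 := by
      unfold prof
      linarith [(min_le_left (min (Real.sqrt (Real.pi * v)) 1)
        (Real.sqrt (Real.pi * (1 - v)))).trans (min_le_right _ _)]
    linarith [Axis.prof_nonneg b]

/-- The slices of a function carry at least the profile of their areas. -/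
theorem slices_ge {u : (Fin 3 → ℝ) → ℝ} (hu : Adm u) (i : Fin 3) (v : ℝ) {ε C : ℝ}
    (hC : ∀ b, prof v - ε - C * |b - v| ≤ prof b) :
    prof v - ε - C * flat v u i - err (dfct u) ≤
      ∫ z in (0 : ℝ)..1, energy (slice u i z) := by
  have hP : Continuous fun z => prof (area u i z) :=
    Axis.continuous_prof.comp (area_continuous hu i)
  have hd : Continuous fun z => err (dfct (slice u i z)) :=
    continuous_const.mul ((continuous_dfct_slice hu i).rpow_const fun _ => Or.inr (by norm_num))
  have hF : IntervalIntegrable (fun z => |area u i z - v|) volume 0 1 :=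
    ((area_continuous hu i).sub continuous_const).abs.intervalIntegrable _ _
  have h1 : prof v - ε - C * flat v u i ≤ ∫ z in (0 : ℝ)..1, prof (area u i z) := by
    refine le_trans (le_of_eq ?_) (intervalIntegral.integral_mono_on zero_le_one
      (intervalIntegrable_const.sub (hF.const_mul C)) (hP.intervalIntegrable _ _)
      fun z _ => hC (area u i z))
    rw [intervalIntegral.integral_sub intervalIntegrable_const (hF.const_mul C),
      intervalIntegral.integral_const_mul, intervalIntegral.integral_const]
    simp [flat]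
  have h2 := intervalIntegral.integral_mono_on zero_le_one
    ((hP.intervalIntegrable (μ := volume) 0 1).sub (hd.intervalIntegrable _ _))
    ((continuous_sliceEnergy hu i).intervalIntegrable _ _)
    fun z _ => Square.profileSquare sobolevPlane _ (hu.slice i z)
  rw [intervalIntegral.integral_sub (hP.intervalIntegrable _ _) (hd.intervalIntegrable _ _)] at h2
  linarith [integral_err_le hu i]

theorem invFlat : InvFlat := by
  intro v f u h i hflat
  set P := prof v with hP
  have hP0 : 0 < P := Axis.prof_pos h.v_pos (by linarith [h.v_le])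
  have hle : canonical v ≤ P := canonical_le_prof h.v_le
  refine Metric.tendsto_nhds.2 fun κ hκ => ?_
  set t := min 1 (κ / (2 * P)) with ht
  have ht0 : 0 < t := lt_min one_pos (by positivity)
  have ht1 : t ≤ 1 := min_le_left _ _
  have htκ : P * t ≤ κ / 2 := by
    calc P * t ≤ P * (κ / (2 * P)) := mul_le_mul_of_nonneg_left (min_le_right _ _) hP0.le
      _ = κ / 2 := by field_simp
  set σ := t * κ / 8 with hσ
  have hσ0 : 0 < σ := by positivity
  obtain ⟨C, hC0, hC⟩ := prof_ge_linear v hσ0
  have hsum : Tendsto (fun n => C * flat v (u n) i + err (dfct (u n))) atTop (𝓝 0) := by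
    simpa using (hflat.const_mul C).add h.err_tendsto
  filter_upwards [h.energy_le σ hσ0, hsum.eventually (eventually_le_nhds hσ0)] with n hE hs
  rw [Real.dist_eq, sub_zero, abs_of_nonneg (axial_nonneg _ _)]
  have hu := h.adm n
  have hst : (1 - t ^ 2) ^ 2 + t ^ 2 ≤ 1 := by
    nlinarith [mul_le_mul_of_nonneg_left (pow_le_one₀ ht0.le ht1 (n := 2)) (sq_nonneg t)]
  have hs0 : 0 ≤ 1 - t ^ 2 := sub_nonneg.2 (pow_le_one₀ ht0.le ht1)
  have key := slices_axial_le hu i hs0 ht0.le hst
  have h1 := mul_le_mul_of_nonneg_left (slices_ge hu i v hC) hs0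
  have h2 : 0 ≤ C * flat v (u n) i + err (dfct (u n)) := add_nonneg
    (mul_nonneg hC0 (flat_nonneg _ _ _))
    (mul_nonneg (by norm_num) (Real.rpow_nonneg (dfct_nonneg hu) _))
  have h3 : t * axial (u n) i ≤ P * t ^ 2 + 3 * σ := by
    nlinarith [mul_nonneg (sq_nonneg t) (add_nonneg hσ0.le h2)]
  by_contra hbad
  have h4 := mul_le_mul_of_nonneg_left (not_lt.1 hbad) ht0.le
  have h5 := mul_le_mul_of_nonneg_left htκ ht0.le
  nlinarith [mul_pos ht0 hκ]

end Vale.Agent.P232.Classify
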