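import Vale.Agent.P232.Classify.Defs
import Vale.Agent.P232.Pins
import Vale.Agent.P232.Win.Pins
import Vale.Agent.P232.Win.Calib

/-!
# P232: the statements used to determine all minimisers

A minimiser is followed through smooth functions which tend to its indicator in mean and whose
energy tends to the canonical value.
-/

noncomputable section

open MeasureTheory Filter Topology Set

namespace Vale.Agent.P232.Classify

/-- Functions tending to the indicator `f` with energy at most the canonical value in the limit. -/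
structure MinSeq (v : ℝ) (f : (Fin 3 → ℝ) → ℝ) (u : ℕ → (Fin 3 → ℝ) → ℝ) : Prop where
  v_pos : 0 < v
  v_le : v ≤ 1 / 2
  meas : Measurable f
  val : ∀ x, f x = 0 ∨ f x = 1
  mean_eq : ∫ x in box 3, f x = v
  adm : ∀ n, Adm (u n)
  mean_le : ∀ n, mean (u n) ≤ v
  lim : Tendsto (fun n => ∫ x in box 3, |u n x - f x|) atTop (𝓝 0)
  energy_le : ∀ ε : ℝ, 0 < ε → ∀ᶠ n in atTop, energy (u n) ≤ canonical v + ε

/-- The mean distance of the slice areas from `v`. -/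
def flat (v : ℝ) (u : (Fin 3 → ℝ) → ℝ) (i : Fin 3) : ℝ :=
  ∫ z in (0 : ℝ)..1, |area u i z - v|

/-- The variation along an axis. -/
def axial (u : (Fin 3 → ℝ) → ℝ) (i : Fin 3) : ℝ := ∫ x in box 3, |pd u i x|

/-- The mean square of the slice areas. -/
def spread (u : (Fin 3 → ℝ) → ℝ) (i : Fin 3) : ℝ := ∫ z in (0 : ℝ)..1, area u i z ^ 2

/-- A tail across the axis `i` may be cut off with a gain. -/
def Cuttable (u : (Fin 3 → ℝ) → ℝ) (i : Fin 3) : Prop :=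
  ∃ β η : ℝ, 0 ≤ β ∧ 0 < η ∧ η ≤ 1 / 4 ∧ β * Real.sqrt η ≤ 2 * Real.sqrt Real.pi ∧
    canonical (mean u) * (1 + 1 / 10 ^ 6) ≤ β * mean u ∧ CanCut (area u i) β η

/-- Flat slices make the axial variation disappear. -/
def InvFlat : Prop :=
  ∀ v f u, MinSeq v f u → ∀ i, Tendsto (fun n => flat v (u n) i) atTop (𝓝 0) →
    Tendsto (fun n => axial (u n) i) atTop (𝓝 0)

/-- With an invariant axis, another axis without thin slices is flat. -/
def OtherAxis : Prop :=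
  ∀ v f u, MinSeq v f u → v < 1 / 2 → ∀ i j, i ≠ j →
    Tendsto (fun n => axial (u n) i) atTop (𝓝 0) →
      ∀ p : ℝ, 0 < p → (∀ n z, p ≤ area (u n) j z) →
        Tendsto (fun n => flat v (u n) j) atTop (𝓝 0)

/-- Gaps across all axes: the second moment is at most that of the ball. -/
def BallMoment : Prop :=
  ∀ v f u, MinSeq v f u → (∀ n i, HasGap (u n) i) →
    ballPer v = canonical v ∧ ∃ (r : ℝ) (c : Fin 3 → ℝ), 0 < r ∧ r ≤ 1 / 2 ∧
      v = 4 / 3 * Real.pi * r ^ 3 ∧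
      ∫ x in box 3, f x * (∑ i, circDist (x i - c i) ^ 2) ≤ 4 * Real.pi / 5 * r ^ 5

/-- An invariant axis and gaps across the two others: the second moment is that of the tube. -/
def DiscMoment : Prop :=
  ∀ v f u, MinSeq v f u → ∀ i, Tendsto (fun n => axial (u n) i) atTop (𝓝 0) →
    (∀ n k, k ≠ i → HasGap (u n) k) →
    tubePer v = canonical v ∧ ∃ (r : ℝ) (c : Fin 3 → ℝ), 0 < r ∧ r ≤ 1 / 2 ∧
      v = Real.pi * r ^ 2 ∧
      ∫ x in box 3, f x * (∑ k ∈ Finset.univ.erase i, circDist (x k - c k) ^ 2) ≤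
        Real.pi / 2 * r ^ 4

/-- Two invariant axes leave a slab. -/
def SlabRigid : Prop :=
  ∀ v f u, MinSeq v f u → ∀ i, (∀ k, k ≠ i → Tendsto (fun n => axial (u n) k) atTop (𝓝 0)) →
    canonical v = 2 ∧
      ∃ a : ℝ, f =ᵐ[volume.restrict (box 3)] {x | Int.fract (x i - a) < v}.indicator fun _ => 1

/-- The ball is the set of its volume with least second moment. -/
def BallShape : Prop :=
  ∀ (f : (Fin 3 → ℝ) → ℝ) (r : ℝ) (c : Fin 3 → ℝ), Measurable f → (∀ x, f x = 0 ∨ f x = 1) →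
    0 < r → r ≤ 1 / 2 → ∫ x in box 3, f x = 4 / 3 * Real.pi * r ^ 3 →
    ∫ x in box 3, f x * (∑ i, circDist (x i - c i) ^ 2) ≤ 4 * Real.pi / 5 * r ^ 5 →
      f =ᵐ[volume.restrict (box 3)]
        {x | ∑ i, circDist (x i - c i) ^ 2 < r ^ 2}.indicator fun _ => 1

/-- The tube is the set of its volume with least second moment about the axis. -/
def TubeShape : Prop :=
  ∀ (f : (Fin 3 → ℝ) → ℝ) (i : Fin 3) (r : ℝ) (c : Fin 3 → ℝ), Measurable f →
    (∀ x, f x = 0 ∨ f x = 1) → 0 < r → r ≤ 1 / 2 → ∫ x in box 3, f x = Real.pi * r ^ 2 →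
    ∫ x in box 3, f x * (∑ k ∈ Finset.univ.erase i, circDist (x k - c k) ^ 2) ≤
        Real.pi / 2 * r ^ 4 →
      f =ᵐ[volume.restrict (box 3)]
        {x | ∑ k ∈ Finset.univ.erase i, circDist (x k - c k) ^ 2 < r ^ 2}.indicator fun _ => 1

/-- A function which runs from `0` to `r` with unit speed except near both ends. -/
def ProfileLine : Prop :=
  ∀ r : ℝ, 0 < r → ∀ ε : ℝ, 0 < ε → ∃ σ δ : ℝ, 0 < σ ∧ σ < r / 4 ∧ 0 < δ ∧
    ∀ (R R' : ℝ → ℝ) (z₀ z₁ : ℝ), z₀ ≤ z₁ → z₁ ≤ z₀ + 1 → ContinuousOn R (Icc z₀ z₁) →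
      ContinuousOn R' {z ∈ Icc z₀ z₁ | R z ∈ Icc σ (r - σ)} →
      (∀ z ∈ Ioo z₀ z₁, R z ∈ Icc σ (r - σ) → HasDerivAt R (R' z) z) →
      R z₀ ≤ σ → r - σ ≤ R z₁ →
      ∫ z in {z ∈ Icc z₀ z₁ | R z ∈ Icc σ (r - σ)}, |1 - R' z| ≤ δ →
      ∃ L : ℝ, 0 ≤ L ∧ L + r ≤ z₁ - z₀ + ε ∧
        ∀ z ∈ Icc z₀ z₁, |max 0 (min r (R z)) - max 0 (min r (z - z₀ - L))| ≤ ε

/-- Symmetrisation keeps the slice areas at least as spread out. -/
def SymSpread : Prop :=
  ∀ u : (Fin 3 → ℝ) → ℝ, Adm u → ∀ δ : ℝ, 0 < δ →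
    ∃ w, Adm w ∧ Win.Sym w ∧ mean w = mean u ∧ dfct w ≤ dfct u + δ ∧ energy w ≤ energy u ∧
      ∀ i, spread u i ≤ spread w i + δ

/-- Off the middle range, an axis is flat unless a tail may be cut. -/
def RowFlat : Prop :=
  ∀ v : ℝ, 0 < v → (v < 262 / 1000 ∨ (365 / 1000 < v ∧ v ≤ 1 / 2)) →
    ∀ κ : ℝ, 0 < κ → ∃ δ > 0, ∀ (u : (Fin 3 → ℝ) → ℝ) (i : Fin 3), Adm u → mean u ≤ 1 / 2 →
      |mean u - v| ≤ δ → dfct u ≤ δ → energy u ≤ canonical v + δ →
        Cuttable u i ∨ flat v u i ≤ κ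

/-- In the middle range an axis without cut has no thin slice, with a margin. -/
def WindowRowStrict : Prop :=
  ∀ u : (Fin 3 → ℝ) → ℝ, Adm u → ∀ i : Fin 3, ¬ CanCut (area u i) 7 (1 / 100) →
    259 / 1000 ≤ mean u → mean u ≤ 368 / 1000 → (∃ z, area u i z ≤ 16 / 10000) →
      canonical (mean u) + 1 / 10 ^ 9 - err (dfct u) ≤ energy u

/-- The scalar facts of the middle range, with margins. -/
structure WindowStrict : Prop where
  contact : ∀ c m v, 1595 / 1000000 ≤ c → c ≤ v → v ≤ m → m ≤ 1 →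
    259 / 1000 ≤ v → v ≤ 368 / 1000 →
      Win.Reaches Win.okPlain (Win.durContact c m) c m v (canonical v / 2 + 1 / 10 ^ 9)
  small : ∀ c m v, 1595 / 1000000 ≤ c → c ≤ 405 / 10000 → c ≤ v → v ≤ m → m ≤ 1 →
    259 / 1000 ≤ v → v ≤ 368 / 1000 →
      Win.Reaches Win.okPlain (fun _ _ => True) c m v (canonical v / 2 + 1 / 10 ^ 9)
  gap : ∀ θ m v, 0 ≤ θ → θ ≤ m → v ≤ m → m ≤ 1 → 259 / 1000 ≤ v → v ≤ 368 / 1000 →
      Win.Reaches (Win.okTheta θ) (Win.durGap θ m) 0 m v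
        (canonical v / 2 + min (1 / 10 ^ 9) ((1 - m) / 100))

/-- The calibration of a slice inequality in the plane of the square root, with a margin. -/
def TubeStrict : Prop :=
  ∀ c v m : ℝ, 39 / 1000 ≤ c → c ≤ v → v ≤ m → m ≤ 1 → 259 / 1000 ≤ v → v ≤ 368 / 1000 →
    ∃ α β : ℝ, |α| ≤ 20 ∧ |β| ≤ 20 ∧
      (∀ a ∈ Icc c m, 0 ≤ α + β * a ∧ α + β * a ≤ Real.sqrt (Real.pi * a)) ∧
      Real.sqrt (Real.pi * v) + (m - c) ^ 2 / 10 ^ 6 ≤ α + β * v +
        ∫ a in c..m, Real.sqrt (max 0 (1 - (α + β * a) ^ 2 / (Real.pi * a)))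

/-- In the middle range a symmetrical near minimiser has a flat axis. -/
def WindowFlat : Prop :=
  ∀ v : ℝ, 262 / 1000 ≤ v → v ≤ 365 / 1000 → ∀ κ : ℝ, 0 < κ → ∃ δ > 0,
    ∀ u : (Fin 3 → ℝ) → ℝ, Adm u → Win.Sym u → |mean u - v| ≤ δ → dfct u ≤ δ →
      energy u ≤ canonical v + δ → ∃ i, flat v u i ≤ κ

/-- The canonical value bounds the energy up to a small error. -/
def Lower : Prop :=
  ∀ ε : ℝ, 0 < ε → ∃ δ > 0, ∀ u : (Fin 3 → ℝ) → ℝ, Adm u → mean u ≤ 1 / 2 → dfct u ≤ δ →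
    canonical (mean u) ≤ energy u + ε

end Vale.Agent.P232.Classify
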