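import Vale.Agent.P232.Approx
import Vale.Agent.P232.CutStep
import Vale.Agent.P232.Excursion
import Vale.Agent.P232.Profile
import Vale.Agent.P232.ProfileSquare
import Vale.Agent.P232.RowBound
import Vale.Agent.P232.Scalar.Main
import Vale.Agent.P232.Sobolev
import Vale.Agent.P232.ThreeGaps
import Vale.Agent.P232.TinyBound
import Vale.Agent.P232.Classify.Pins
import Vale.Agent.P232.Win.Main
import Vale.Agent.P232.Win.Row
import Vale.Agent.P232.Win.Scalar
import Vale.Agent.P232.Win.SymCut

/-!
# P232: the canonical value bounds the energy of every near indicator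
-/

noncomputable section

open MeasureTheory Set

namespace Vale.Agent.P232.Classify

/-- The canonical value bounds the energy up to a small error. -/
theorem lower : Lower := by
  have hSl : Slicing := slicing (Square.profileSquare sobolevPlane)
  have hT := threeGaps sobolevSpace
  have hR := rowBound hSl excursion
  have hC := Cut.cutStep hSl
  intro ε hε
  set e := min (ε / 2) 1 with he
  have he0 : 0 < e := by positivity
  obtain ⟨δw, hδw, hnode⟩ := Win.window_node hT hR (tinyBound hSl excursion) hC scalar
    Win.windowScalar Win.windowRow (Win.symCut hSl) 3 e he0 (min_le_right _ _) 3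
  obtain ⟨δs, hδs, hsmall⟩ := exists_small_slack ε hε
  refine ⟨min δs (δw / 2), by positivity, fun u hu hm hd => ?_⟩
  have huniv : ∀ j ∉ (Finset.univ : Finset (Fin 3)), HasGap u j := fun j hj =>
    absurd (Finset.mem_univ j) hj
  have hs := hsmall _ (dfct_nonneg hu) (hd.trans (min_le_left _ _))
  have hc2 : canonical (mean u) ≤ 2 := min_le_right _ _
  rcases le_or_gt (mean u) (262 / 1000) with h | h
  · linarith [low_bound hT hR hC scalar (tinyBound hSl excursion) 3 u hu Finset.univ le_rfl huniv h
      δs hδs]
  rcases le_or_gt (365 / 1000) (mean u) with h' | h'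
  · have := high_bound hT hR hC scalar 3 u hu Finset.univ le_rfl huniv (by push_cast; linarith) hm
      δs hδs
    rw [max_eq_left (by linarith)] at this
    linarith
  rcases le_or_gt (energy u) 3 with hE | hE
  swap
  · linarith
  obtain ⟨w, hw, hmw, hdw, hEw, heven, hanti⟩ := Symm.exists_symmetric hu (half_pos hδw)
  have := hnode w hw ⟨heven, hanti⟩ Finset.univ le_rfl (fun j hj => absurd (Finset.mem_univ j) hj)
    (by rw [hmw]; push_cast; linarith) (by linarith [hd.trans (min_le_right _ _)]) (by linarith)
  rw [hmw] at this
  linarith [min_le_left (ε / 2) 1]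

end Vale.Agent.P232.Classify
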