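import Vale.Agent.P232.Classify.Lines

/-!
# P232: with an invariant axis, an axis without thin slices is flat
-/

noncomputable section

open MeasureTheory Filter Topology Set

namespace Vale.Agent.P232.Classify

variable {u : (Fin 3 → ℝ) → ℝ}

/-- The empty part lies in the product of the slices which are neither empty nor full. -/
theorem share_bound (hu : Adm u) {j k : Fin 3} (hjk : j ≠ k) {p d : ℝ} (hp : 0 < p)
    (hd : 0 < d) (harea : ∀ z, p ≤ area u j z) :
    (1 - ∫ z in (0 : ℝ)..1, share d (area u j z)) *
        (1 - mean u - (∫ z in (0 : ℝ)..1, share d (area u j z)) *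
          (∫ z in (0 : ℝ)..1, share d (area u k z)) - d / p) ≤ d / p + d := by
  set F := fun z => share d (area u j z) with hFdef
  set G := fun z => share d (area u k z) with hGdef
  set H := fun z => (1 - G z) * (1 - area u k z) with hHdef
  set A := ∫ z in (0 : ℝ)..1, F z with hA
  set B := ∫ z in (0 : ℝ)..1, G z with hB
  have hju : ∀ z, area u j z ∈ Icc (0 : ℝ) 1 := fun z => mean_mem (hu.slice j z)
  have hku : ∀ z, area u k z ∈ Icc (0 : ℝ) 1 := fun z => mean_mem (hu.slice k z)
  have hF : Continuous F := (continuous_share d).comp (area_continuous hu j)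
  have hG : Continuous G := (continuous_share d).comp (area_continuous hu k)
  have hH : Continuous H :=
    (continuous_const.sub hG).mul (continuous_const.sub (area_continuous hu k))
  have hFm : ∀ z, F z ∈ Icc (0 : ℝ) 1 := fun z => share_mem hd (hju z)
  have hGm : ∀ z, G z ∈ Icc (0 : ℝ) 1 := fun z => share_mem hd (hku z)
  have hc := hu.smooth.continuous
  have h1u : Continuous fun x => 1 - u x := continuous_const.sub hc
  have hS : ∫ x in box 3, (1 - F (x j)) * (1 - u x) ≤ d / p := by
    rw [Cut.integral_axis (ψ := fun z => 1 - F z) h1u (continuous_const.sub hF) j]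
    refine le_trans (intervalIntegral.integral_mono_on zero_le_one
      (((continuous_const.sub hF).mul (continuous_sliceInt h1u j)).intervalIntegrable _ _)
      (intervalIntegrable_const (c := d / p)) fun z _ => ?_) (le_of_eq (by simp))
    show (1 - F z) * mean (fun y => 1 - slice u j z y) ≤ _
    rw [mean_one_sub (hu.slice j z), le_div_iff₀ hp]
    refine le_trans ?_ (share_compl hd (hju z))
    have h0 := mul_nonneg (sub_nonneg.2 (hFm z).2) (sub_nonneg.2 (hju z).2)
    have := mul_le_mul_of_nonneg_left (harea z) h0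
    simp only [hFdef, area] at this ⊢
    linarith
  have hR : ∫ x in box 3, H (x k) * u x ≤ d := by
    rw [Cut.integral_axis hc hH k]
    refine le_trans (intervalIntegral.integral_mono_on zero_le_one
      ((hH.mul (continuous_sliceInt hc k)).intervalIntegrable _ _)
      (intervalIntegrable_const (c := d)) fun z _ => ?_) (le_of_eq (by simp))
    refine le_trans (le_of_eq ?_) (share_compl hd (hku z))
    simp only [hHdef, hGdef]
    show (1 - share d (area u k z)) * (1 - area u k z) * area u k z = _
    ring
  set R := ∫ z in (0 : ℝ)..1, H z with hRdef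
  have hR' : ∫ x in box 3, (1 - G (x k)) * (1 - u x) = R := by
    rw [Cut.integral_axis (ψ := fun z => 1 - G z) h1u (continuous_const.sub hG) k]
    refine intervalIntegral.integral_congr fun z _ => ?_
    show (1 - G z) * mean (fun y => 1 - slice u k z y) = _
    rw [mean_one_sub (hu.slice k z)]
    rfl
  have cF : Continuous fun x : Fin 3 → ℝ => F (x j) := hF.comp (continuous_apply j)
  have cG : Continuous fun x : Fin 3 → ℝ => G (x k) := hG.comp (continuous_apply k)
  have cH : Continuous fun x : Fin 3 → ℝ => H (x k) := hH.comp (continuous_apply k)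
  have c1 : Continuous fun x => (1 - F (x j)) * (1 - u x) := (continuous_const.sub cF).mul h1u
  have c2 : Continuous fun x => H (x k) * u x := cH.mul hc
  have c3 : Continuous fun x => (1 - G (x k)) * (1 - u x) := (continuous_const.sub cG).mul h1u
  have c4 : Continuous fun x : Fin 3 → ℝ => F (x j) * G (x k) := cF.mul cG
  have key1 : (1 - A) * R ≤ d / p + d := by
    have h1 : 1 - A = ∫ z in (0 : ℝ)..1, (1 - F z) := by
      rw [intervalIntegral.integral_sub intervalIntegrable_const (hF.intervalIntegrable _ _)]
      simp [hA]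
    rw [h1, hRdef, ← integral_coord_mul (F := fun z => 1 - F z) (continuous_const.sub hF) hH hjk]
    have h2 : ∫ x in box 3, (1 - F (x j)) * H (x k) ≤
        ∫ x in box 3, ((1 - F (x j)) * (1 - u x) + H (x k) * u x) := by
      refine setIntegral_box_mono ((continuous_const.sub cF).mul cH) (c1.add c2) fun x _ => ?_
      have a := sub_nonneg.2 (hFm (x j)).2
      have b : 0 ≤ H (x k) := mul_nonneg (sub_nonneg.2 (hGm _).2) (sub_nonneg.2 (hku _).2)
      have b' : H (x k) ≤ 1 := mul_le_one₀ (by linarith [(hGm (x k)).1])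
        (sub_nonneg.2 (hku _).2) (by linarith [(hku (x k)).1])
      have := mul_le_mul_of_nonneg_left b' (mul_nonneg a (sub_nonneg.2 (hu.mem x).2))
      have := mul_le_mul_of_nonneg_right (show 1 - F (x j) ≤ 1 by linarith [(hFm (x j)).1])
        (mul_nonneg b (hu.mem x).1)
      linarith
    rw [integral_add (integrableOn_box c1) (integrableOn_box c2)] at h2
    linarith
  have key2 : 1 - mean u ≤ A * B + d / p + R := by
    rw [← mean_one_sub hu, mean]
    have h2 : ∫ x in box 3, (1 - u x) ≤
        ∫ x in box 3, (F (x j) * G (x k) + (1 - F (x j)) * (1 - u x) +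
          (1 - G (x k)) * (1 - u x)) := by
      refine setIntegral_box_mono h1u ((c4.add c1).add c3) fun x _ => ?_
      have a := hu.mem x
      have := mul_nonneg (mul_nonneg (sub_nonneg.2 (hFm (x j)).2)
        (sub_nonneg.2 (hGm (x k)).2)) (sub_nonneg.2 a.2)
      have := mul_nonneg (mul_nonneg (hFm (x j)).1 (hGm (x k)).1) a.1
      linarith
    rw [integral_add (f := fun x : Fin 3 → ℝ => F (x j) * G (x k) + (1 - F (x j)) * (1 - u x))
      (g := fun x => (1 - G (x k)) * (1 - u x)) (integrableOn_box (c4.add c1)) (integrableOn_box c3),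
      integral_add (integrableOn_box c4) (integrableOn_box c1),
      integral_coord_mul hF hG hjk] at h2
    linarith
  have hA1 : 0 ≤ 1 - A :=
    sub_nonneg.2 (Axis.integral_le_of_slice hF rfl fun z => (hFm z).2)
  have := mul_le_mul_of_nonneg_left key2 hA1
  linarith

/-- Two axes with a full share each cost more than two. -/
theorem full_share {A B e g Pj Pk E : ℝ} (hj : 2 * B - e ≤ Pj) (hk : 2 * A - e ≤ Pk)
    (hA : 0 ≤ A) (hB : 0 ≤ B) (hg : 0 < g) (hg1 : g ≤ 1) (he : 0 ≤ e) (heg : e ≤ g / 16)
    (hAB : 1 / 2 + g / 4 ≤ A * B) (hE : E ≤ 2 + e)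
    (hp : ∀ r : ℝ, r ^ 2 = 1 / 2 → r * Pj + r * Pk ≤ E) : False := by
  have hr2 := Real.sq_sqrt (show (0 : ℝ) ≤ 1 / 2 by norm_num)
  set r := Real.sqrt (1 / 2)
  have hr0 : 0 ≤ r := Real.sqrt_nonneg _
  have hr1 : r ≤ 1 := by nlinarith
  have h2 := mul_le_mul_of_nonneg_left
    (show 2 * (A + B) - 2 * e ≤ Pj + Pk by linarith) hr0
  have h3 : 2 * r * (A + B) ≤ 2 + 3 * e := by
    linarith [mul_le_mul_of_nonneg_right hr1 he, hp r hr2]
  have h4 := pow_le_pow_left₀ (by positivity) h3 2
  rw [mul_pow, mul_pow, hr2] at h4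
  nlinarith [sq_nonneg (A - B)]

theorem otherAxis : OtherAxis := by
  intro v f u h hv i j hij hax p hp harea
  obtain ⟨k, hik, hjk⟩ : ∃ k : Fin 3, i ≠ k ∧ j ≠ k := by
    exact (by decide : ∀ i j : Fin 3, i ≠ j → ∃ k : Fin 3, i ≠ k ∧ j ≠ k) i j hij
  have hp1 : p ≤ 1 := (harea 0 0).trans (mean_mem ((h.adm 0).slice j 0)).2
  refine Metric.tendsto_nhds.2 fun κ hκ => ?_
  set g := 1 - 2 * v with hg
  have hg0 : 0 < g := by linarith
  have hg1 : g ≤ 1 := by linarith [h.v_pos]
  set t := min 1 (κ / 8) with ht
  have ht0 : 0 < t := lt_min one_pos (by positivity)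
  have ht1 : t ≤ 1 := min_le_left _ _
  have htκ : t ≤ κ / 8 := min_le_right _ _
  set η := t ^ 2 / 2 with hη
  have hη0 : 0 < η := by positivity
  have hη1 : η ≤ 1 := by nlinarith [pow_le_one₀ ht0.le ht1 (n := 2)]
  set d := p * η * g / 32 with hd
  have hd0 : 0 < d := by positivity
  set e := min (g / 16) (t ^ 2 / 2) with he
  have he0 : 0 < e := lt_min (by positivity) (by positivity)
  have herr : Tendsto (fun n => (2 * dfct (u n) + axial (u n) i) / d) atTop (𝓝 0) := by
    simpa using ((h.dfct_tendsto.const_mul 2).add hax).div_const d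
  have hmean : Tendsto (fun n => |mean (u n) - v|) atTop (𝓝 0) := by
    simpa using (h.mean_tendsto.sub_const v).abs
  filter_upwards [h.energy_le e he0, herr.eventually (eventually_le_nhds he0),
    hmean.eventually (eventually_le_nhds (show (0 : ℝ) < min (g / 16) (κ / 4) by positivity))]
    with n hE hn hm
  rw [Real.dist_eq, sub_zero, abs_of_nonneg (flat_nonneg _ _ _)]
  have hu := h.adm n
  set A := ∫ z in (0 : ℝ)..1, share d (area (u n) j z) with hA
  set B := ∫ z in (0 : ℝ)..1, share d (area (u n) k z) with hB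
  have hk1 := axial_share hu hij hik hjk hd0
  have hj1 := axial_share hu hik hij hjk.symm hd0
  have hE2 : energy (u n) ≤ 2 + e := by linarith [show canonical v ≤ 2 from min_le_right _ _]
  have hcapI : ∀ (l : Fin 3), (∫ z in (0 : ℝ)..1, share d (area (u n) l z)) ∈ Icc (0 : ℝ) 1 :=
    fun l => ⟨Axis.le_integral_of_slice ((continuous_share d).comp (area_continuous hu l)) rfl
        fun z => (share_mem hd0 (mean_mem (hu.slice l z))).1,
      Axis.integral_le_of_slice ((continuous_share d).comp (area_continuous hu l)) rfl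
        fun z => (share_mem hd0 (mean_mem (hu.slice l z))).2⟩
  have hA0 : 0 ≤ A := (hcapI j).1
  have hB0 : 0 ≤ B := (hcapI k).1
  have hm1 := hm.trans (min_le_left _ _)
  have hm2 := hm.trans (min_le_right _ _)
  have he1 : e ≤ g / 16 := min_le_left _ _
  have he2 : e ≤ t ^ 2 / 2 := min_le_right _ _
  rcases le_or_gt η (1 - A) with hbig | hsmall
  · -- a full share makes the energy more than two
    exfalso
    have hs := share_bound hu hjk hp hd0 fun z => harea n z
    rw [← hA, ← hB] at hs
    have hdp : d / p = η * g / 32 := by rw [hd]; field_simp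
    have hdle : d ≤ d / p := by rw [le_div_iff₀ hp]; nlinarith
    have hAB : 1 / 2 + g / 4 ≤ A * B := by
      by_contra hlt
      have hX : g / 8 ≤ 1 - mean (u n) - A * B - d / p := by
        rw [hdp]
        nlinarith [(abs_le.1 hm1).2, mul_le_mul_of_nonneg_right hη1 hg0.le]
      have := mul_le_mul hbig hX (by positivity) (hη0.le.trans hbig)
      nlinarith [mul_pos hη0 hg0]
    exact full_share (by linarith) (by linarith) hA0 hB0 hg0 hg1 he0.le he1 hAB hE2
      fun r hr => axial_pair_le hu hjk (s := r) (t := r) (by linarith)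
  · -- the lines cost two, and nothing is left across the axis
    have hst : (1 - t ^ 2) ^ 2 + t ^ 2 ≤ 1 := by
      nlinarith [mul_le_mul_of_nonneg_left (pow_le_one₀ ht0.le ht1 (n := 2)) (sq_nonneg t)]
    have hp2 := axial_pair_le hu hjk.symm hst
    have h1 : (1 - t ^ 2) * (2 - 2 * η - e) ≤ (1 - t ^ 2) * axial (u n) k :=
      mul_le_mul_of_nonneg_left (by linarith) (sub_nonneg.2 (pow_le_one₀ ht0.le ht1))
    have h2 : t * axial (u n) j ≤ t * (κ / 2) := by
      linarith [mul_le_mul_of_nonneg_left htκ ht0.le,
        mul_nonneg (sq_nonneg t) (show (0 : ℝ) ≤ 2 * η + e by positivity)]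
    have h3 := le_of_mul_le_mul_left h2 ht0
    have := flat_le_axial hu v j
    linarith

end Vale.Agent.P232.Classify
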