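import Vale.Agent.P232.Classify.RowSpare
import Vale.Agent.P232.Classify.Base
import Vale.Agent.P232.Sobolev
import Vale.Agent.P232.ProfileSquare
import Vale.Agent.P232.Excursion
import Vale.Agent.P232.TinyBound
import Vale.Agent.P232.Recursion

/-!
# P232: off the middle range an axis is flat unless a tail may be cut

Without a cut, slice areas of a range `κ` exceed the canonical value by a fixed amount.
-/

noncomputable section

open MeasureTheory Filter Topology Set

namespace Vale.Agent.P232.Classify

open Axis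

variable {u : (Fin 3 → ℝ) → ℝ}

/-- The mean distance is at most the range and the distance of the mean. -/
theorem flat_le_range (hu : Adm u) (i : Fin 3) (v : ℝ) {zm zM : ℝ}
    (hz : ∀ z, area u i zm ≤ area u i z ∧ area u i z ≤ area u i zM) :
    flat v u i ≤ area u i zM - area u i zm + |mean u - v| := by
  have hac := area_continuous hu i
  have hlo := le_integral_of_slice hac (integral_area hu i) fun z => (hz z).1
  have hhi := integral_le_of_slice hac (integral_area hu i) fun z => (hz z).2
  unfold flat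
  refine (intervalIntegral.integral_mono_on zero_le_one
    ((hac.sub continuous_const).abs.intervalIntegrable _ _)
    (intervalIntegrable_const (c := area u i zM - area u i zm + |mean u - v|))
    fun z _ => ?_).trans_eq (by simp)
  obtain ⟨h1, h2⟩ := hz z
  refine (abs_sub_le (area u i z) (mean u) v).trans (add_le_add ?_ le_rfl)
  rw [abs_le]
  constructor <;> linarith

/-- Slices near the greatest profile and a range `d` of their areas exceed the slab. -/
theorem steep_bound (hSl : Slicing) (hu : Adm u) (i : Fin 3) {zm zM : ℝ}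
    (hz : ∀ z, area u i zm ≤ area u i z ∧ area u i z ≤ area u i zM) {d : ℝ} (hd : 0 ≤ d)
    (hd1 : d ≤ 1) (hdr : d ≤ area u i zM - area u i zm)
    (hc : 1 - prof (area u i zm) / 2 ≤ d ^ 2 / 8) (hM : 1 - prof (area u i zM) / 2 ≤ d ^ 2 / 8) :
    2 + d ^ 2 / 4 - err (dfct u) ≤ energy u := by
  obtain ⟨hder, hsl, hper, hmem, -, -⟩ := hSl u hu i
  have hac : Continuous (area u i) := continuous_area hSl hu i
  set s := 1 - d ^ 2 / 4 with hs
  have hd2 : d ^ 2 ≤ 1 := pow_le_one₀ hd hd1
  have hs0 : 0 ≤ s := by linarith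
  have h1 := slice_bound hSl hu i (s := fun _ => s) (t := fun _ => d / 2) continuous_const
    continuous_const (fun _ => hs0) (fun _ => by positivity) fun _ => by
      simp only [hs]
      nlinarith [mul_nonneg (sq_nonneg d) (sub_nonneg.2 hd2)]
  have i1 : IntervalIntegrable (fun z => s * prof (area u i z)) volume 0 1 :=
    (continuous_const.mul (continuous_prof.comp hac)).intervalIntegrable _ _
  have i2 : IntervalIntegrable (fun z => d / 2 * |slope u i z|) volume 0 1 :=
    (continuous_const.mul hsl.abs).intervalIntegrable _ _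
  rw [intervalIntegral.integral_add i1 i2, intervalIntegral.integral_const_mul,
    intervalIntegral.integral_const_mul] at h1
  have hlow : ∀ z, 2 - d ^ 2 / 4 ≤ prof (area u i z) := by
    intro z
    obtain ⟨h3, h4⟩ := hz z
    rcases (h3.trans h4).eq_or_lt with h | h
    · rw [show area u i z = area u i zm by linarith]
      linarith
    refine le_trans ?_ (chord_mem (hmem zm).1 (hmem zM).2 h3 h4).2
    rw [Scalar.chord_eq]
    set l := (area u i z - area u i zm) / (area u i zM - area u i zm)
    have hl0 : 0 ≤ l := div_nonneg (by linarith) (by linarith)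
    have hl1 : 0 ≤ 1 - l := sub_nonneg.2 ((div_le_one (by linarith)).2 (by linarith))
    linarith [mul_le_mul_of_nonneg_left (show 2 - d ^ 2 / 4 ≤ prof (area u i zm) by linarith) hl1,
      mul_le_mul_of_nonneg_left (show 2 - d ^ 2 / 4 ≤ prof (area u i zM) by linarith) hl0]
  have h2 : 2 - d ^ 2 / 4 ≤ ∫ z in (0 : ℝ)..1, prof (area u i z) := by
    refine le_trans (le_of_eq ?_) (intervalIntegral.integral_mono_on zero_le_one
      intervalIntegrable_const ((continuous_prof.comp hac).intervalIntegrable _ _) fun z _ => hlow z)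
    simp
  have h3 : 2 * d ≤ ∫ z in (0 : ℝ)..1, |slope u i z| := by
    have := periodic_variation hder hsl hper zM zm
    linarith [le_abs_self (area u i zM - area u i zm)]
  have h4 := mul_le_mul_of_nonneg_left h2 hs0
  have h5 := mul_le_mul_of_nonneg_left h3 (show 0 ≤ d / 2 by linarith)
  simp only [hs] at h1 h4
  nlinarith [pow_nonneg hd 4]

/-- A row and its spare give the target with the spare at the range of the areas. -/
theorem spare_bound (hSl : Slicing) (hEx : Excursion) {r : Row} (hr : r.Good)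
    {G : ℝ → ℝ → ℝ} (hG : Spare r G) (hu : Adm u) (i : Fin 3)
    (hnc : ¬ CanCut (area u i) r.β r.η) (hv0 : r.v0 ≤ mean u) (hv1 : mean u ≤ r.v1) {γ : ℝ}
    (hγ : ∀ zm zM, (∀ z, area u i zm ≤ area u i z ∧ area u i z ≤ area u i zM) →
      γ ≤ G (max r.p (area u i zm)) (area u i zM)) :
    r.target (mean u) + γ - err (dfct u) ≤ energy u := by
  obtain ⟨-, -, -, hmem, hint, -⟩ := hSl u hu i
  have hac : Continuous (area u i) := continuous_area hSl hu i
  refine rowBound_at hSl hEx hr hu i hnc hv0 hv1 fun zm zM hz => ?_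
  obtain ⟨C, N, h1, h2, h3, h4, h5⟩ := hG _ _ _ (le_max_left r.p (area u i zm))
    (max_le (hr.p_lt.trans_le hv0).le (le_integral_of_slice hac hint fun z => (hz z).1))
    (integral_le_of_slice hac hint fun z => (hz z).2) (hmem zM).2 hv0 hv1
  exact ⟨C, N, h1, h2, h3, h4, by linarith [hγ zm zM hz]⟩

/-- The rate of every row exceeds the ball with room. -/
theorem lowRows_room : ∀ r ∈ lowRows,
    36 * Real.pi ≤ (r.β / (1 + 1 / 10 ^ 6)) ^ 3 * r.v0 ∧ r.p + 2 / 10 ^ 5 ≤ r.v0 := by
  have hπ : Real.pi ≤ 3141593 / 1000000 := by linarith [Real.pi_lt_d6]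
  intro r hr
  simp only [lowRows, List.mem_cons, List.not_mem_nil, or_false] at hr
  rcases hr with rfl | rfl | rfl | rfl | rfl | rfl | rfl | rfl | rfl | rfl | rfl <;>
    exact ⟨by norm_num; linarith, by norm_num⟩

/-- Below the middle range: a cut, a small range or a fixed excess. -/
theorem low_case (hSl : Slicing) (hEx : Excursion) {v : ℝ} (hv : 0 < v) {d : ℝ} (hd : 0 < d)
    (hd1 : d ≤ 1 / 10 ^ 5) :
    ∃ γ > 0, ∀ (u : (Fin 3 → ℝ) → ℝ) (i : Fin 3), Adm u → v / 2 ≤ mean u →
      mean u ≤ 262 / 1000 → ∀ zm zM, (∀ z, area u i zm ≤ area u i z ∧ area u i z ≤ area u i zM) →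
        d ≤ area u i zM - area u i zm →
          Cuttable u i ∨ canonical (mean u) + γ - err (dfct u) ≤ energy u := by
  have hB : 0 < ballPer (v / 2) :=
    mul_pos (by positivity) (Real.rpow_pos_of_pos (by positivity) _)
  have hsp : 0 < min (1 / 10 ^ 8 : ℝ) (d ^ 2 / 500) := lt_min (by norm_num) (by positivity)
  refine ⟨min (ballPer (v / 2) / 100) (2 * min (1 / 10 ^ 8) (d ^ 2 / 500)),
    lt_min (by positivity) (by linarith), fun u i hu hlo hhi zm zM hz hdr => ?_⟩
  set m := mean u
  have hm0 : 0 < m := by linarith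
  rcases le_or_gt (25 / 1000000) m with hbig | htiny
  · obtain ⟨r, hr, htar, hr0, hr1, -⟩ := exists_lowRow hbig hhi
    have hgood := scalar.1 r hr
    obtain ⟨hroom, hpv⟩ := lowRows_room r hr
    by_cases hcut : CanCut (area u i) r.β r.η
    · refine Or.inl ⟨r.β, r.η, hgood.beta_nonneg, hgood.eta_pos, by linarith [hgood.eta_le],
        hgood.beta_eta', ?_, hcut⟩
      have h1 := ballPer_le_mul (β := r.β / (1 + 1 / 10 ^ 6)) hr0
        (hgood.p_pos.trans hgood.p_lt).le (div_nonneg hgood.beta_nonneg (by norm_num)) hroom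
      have h2 := mul_le_mul_of_nonneg_right ((canonical_le_ball m).trans h1)
        (show (0 : ℝ) ≤ 1 + 1 / 10 ^ 6 by norm_num)
      refine h2.trans_eq ?_
      ring
    · refine Or.inr ?_
      have h := spare_bound hSl hEx hgood (lowSpare r hr) hu i hcut hr0 hr1
        (γ := 2 * min (1 / 10 ^ 8) (d ^ 2 / 500)) fun zm' zM' hz' => by
        refine mul_le_mul_of_nonneg_left (min_le_min le_rfl ?_) zero_le_two
        refine div_le_div_of_nonneg_right (pow_le_pow_left₀ hd.le ?_ 2) (by norm_num)
        have e0 : area u i zm' ≤ area u i zm := (hz' zm).1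
        have e1 : area u i zM ≤ area u i zM' := (hz' zM).2
        have e2 : m ≤ area u i zM' := integral_le_of_slice (area_continuous hu i)
          (integral_area hu i) fun z => (hz' z).2
        rcases max_choice r.p (area u i zm') with e | e <;> rw [e] <;> linarith
      rw [htar] at h
      linarith [min_le_right (ballPer (v / 2) / 100) (2 * min (1 / 10 ^ 8) (d ^ 2 / 500))]
  · obtain ⟨p, T, ℓ, hp0, hpη, hη1, hβ, -, -, -, -, -, -, -, hβ0, -⟩ := tiny_params hm0 htiny.le
    have hBm : ballPer (v / 2) ≤ ballPer m := ballPer_mono (by positivity) hlo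
    by_cases hcut : CanCut (area u i) (1001 / 1000 * (ballPer m / m))
        (105 / 2 * m ^ (4 / 3 : ℝ))
    · refine Or.inl ⟨_, _, mul_nonneg (by norm_num) hβ0, by positivity, by linarith, ?_, ?_, hcut⟩
      · rw [hpη]
        linarith [Real.sqrt_nonneg Real.pi]
      · rw [mul_assoc, div_mul_cancel₀ _ hm0.ne']
        linarith [mul_le_mul_of_nonneg_right (canonical_le_ball m)
          (show (0 : ℝ) ≤ 1 + 1 / 10 ^ 6 by norm_num), ballPer_nonneg hm0.le]
    · refine Or.inr ?_
      linarith [tinyBound_spare hSl hEx hu i hm0 htiny.le (by norm_num) le_rfl hcut,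
        canonical_le_ball m,
        min_le_left (ballPer (v / 2) / 100) (2 * min (1 / 10 ^ 8) (d ^ 2 / 500))]

/-- In the slab range: a cut, a small range or a fixed excess. -/
theorem high_case (hSl : Slicing) (hEx : Excursion) {d : ℝ} (hd : 0 < d) (hd1 : d ≤ 1) :
    ∃ γ > 0, ∀ (u : (Fin 3 → ℝ) → ℝ) (i : Fin 3), Adm u → 365 / 1000 ≤ mean u →
      mean u ≤ 1 / 2 → ∀ zm zM, (∀ z, area u i zm ≤ area u i z ∧ area u i z ≤ area u i zM) →
        d ≤ area u i zM - area u i zm →
          Cuttable u i ∨ canonical (mean u) + γ - err (dfct u) ≤ energy u := by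
  refine ⟨min (d ^ 2 / 4) (2 * min (1 / 10 ^ 8) (d ^ 2 / 3200)),
    lt_min (by positivity) (mul_pos two_pos (lt_min (by norm_num) (by positivity))),
    fun u i hu hlo hhi zm zM hz hdr => ?_⟩
  have hgood : slabRow.Good := scalar.2.2
  have h2 : canonical (mean u) ≤ 2 := min_le_right _ _
  by_cases hcut : CanCut (area u i) slabRow.β slabRow.η
  · refine Or.inl ⟨slabRow.β, slabRow.η, hgood.beta_nonneg, hgood.eta_pos,
      by linarith [hgood.eta_le], hgood.beta_eta', ?_, hcut⟩
    show canonical (mean u) * (1 + 1 / 10 ^ 6) ≤ 69 / 10 * mean u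
    linarith [mul_le_mul_of_nonneg_right h2 (show (0 : ℝ) ≤ 1 + 1 / 10 ^ 6 by norm_num)]
  refine Or.inr ?_
  have hmin := min_le_left (d ^ 2 / 4) (2 * min (1 / 10 ^ 8) (d ^ 2 / 3200))
  have hmin' := min_le_right (d ^ 2 / 4) (2 * min (1 / 10 ^ 8) (d ^ 2 / 3200))
  by_cases hflat : 1 - prof (area u i zm) / 2 ≤ d ^ 2 / 8 ∧ 1 - prof (area u i zM) / 2 ≤ d ^ 2 / 8
  · linarith [steep_bound hSl hu i hz hd.le hd1 hdr hflat.1 hflat.2]
  have h := spare_bound hSl hEx hgood slabSpare hu i hcut hlo hhi
    (γ := 2 * min (1 / 10 ^ 8) (d ^ 2 / 3200)) fun zm' zM' hz' => by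
    refine mul_le_mul_of_nonneg_left (min_le_min le_rfl ?_) zero_le_two
    have a0 : area u i zm' = area u i zm := le_antisymm (hz' zm).1 (hz zm').1
    have a1 : area u i zM' = area u i zM := le_antisymm (hz zM').2 (hz' zM).2
    have hd2 : d ^ 2 ≤ 1 := pow_le_one₀ hd.le hd1
    rw [a0, a1]
    have n0 := Scalar.prof_le_two (area u i zm)
    have n1 := Scalar.prof_le_two (area u i zM)
    rcases max_choice slabRow.p (area u i zm) with e | e <;> rw [e]
    · have hp : prof slabRow.p ≤ 1 := by
        refine (Scalar.prof_le_sqrt _).trans ?_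
        have : Real.sqrt (Real.pi * slabRow.p) ≤ 1 / 2 := Real.sqrt_le_iff.2
          ⟨by norm_num, by simp only [slabRow]; linarith [Real.pi_lt_four]⟩
        linarith
      linarith
    · rw [not_and_or, not_le, not_le] at hflat
      rcases hflat with h' | h' <;> linarith
  have htar : slabRow.target (mean u) = 2 := rfl
  linarith

/-- Off the middle range, an axis is flat unless a tail may be cut. -/
theorem rowFlat : RowFlat := by
  have hSl : Slicing := slicing (Square.profileSquare sobolevPlane)
  intro v hv hrange κ hκ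
  set d := min (κ / 2) (1 / 10 ^ 5) with hdd
  have hd : 0 < d := lt_min (by positivity) (by norm_num)
  have hdκ : d ≤ κ / 2 := min_le_left _ _
  obtain ⟨γ, hγ, ρ, hρ, hmain⟩ : ∃ γ > 0, ∃ ρ > 0, ∀ (u : (Fin 3 → ℝ) → ℝ) (i : Fin 3), Adm u →
      |mean u - v| ≤ ρ → mean u ≤ 1 / 2 →
      ∀ zm zM, (∀ z, area u i zm ≤ area u i z ∧ area u i z ≤ area u i zM) →
        d ≤ area u i zM - area u i zm →
          Cuttable u i ∨ canonical (mean u) + γ - err (dfct u) ≤ energy u := by
    rcases hrange with h | ⟨h, -⟩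
    · obtain ⟨γ, hγ, hg⟩ := low_case hSl excursion hv hd (min_le_right _ _)
      refine ⟨γ, hγ, min (v / 2) (262 / 1000 - v), lt_min (by positivity) (by linarith),
        fun u i hu hm _ => ?_⟩
      obtain ⟨h1, h2⟩ := abs_le.1 hm
      exact hg u i hu (by linarith [min_le_left (v / 2) (262 / 1000 - v)])
        (by linarith [min_le_right (v / 2) (262 / 1000 - v)])
    · obtain ⟨γ, hγ, hg⟩ := high_case hSl excursion hd
        ((min_le_right _ _).trans (by norm_num))
      refine ⟨γ, hγ, v - 365 / 1000, by linarith, fun u i hu hm hhalf => ?_⟩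
      exact hg u i hu (by linarith [(abs_le.1 hm).1]) hhalf
  have hcan : Continuous canonical := by
    unfold canonical ballPer tubePer
    have : Continuous fun x : ℝ => x ^ (2 / 3 : ℝ) :=
      continuous_id.rpow_const fun _ => Or.inr (by norm_num)
    fun_prop
  have herr : Continuous err :=
    continuous_const.mul (continuous_id.rpow_const fun _ => Or.inr (by norm_num))
  obtain ⟨a, ha, hca⟩ := Metric.continuousAt_iff.1 (hcan.continuousAt (x := v)) (γ / 4)
    (by positivity)
  obtain ⟨b, hb, heb⟩ := Metric.continuousAt_iff.1 (herr.continuousAt (x := 0)) (γ / 4)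
    (by positivity)
  refine ⟨min (min ρ (κ / 2)) (min (min (a / 2) (b / 2)) (γ / 4)), by positivity,
    fun u i hu hhalf hm hD he => ?_⟩
  have hD0 := dfct_nonneg hu
  simp only [le_min_iff] at hm hD
  obtain ⟨⟨hmρ, hmκ⟩, ⟨hma, -⟩, -⟩ := hm
  obtain ⟨-, ⟨-, hDb⟩, -⟩ := hD
  obtain ⟨zm, zM, hz⟩ := exists_extrema (area_continuous hu i) (area_periodic hu i)
  by_cases hr : area u i zM - area u i zm < d
  · exact Or.inr (by linarith [flat_le_range hu i v hz])
  refine (hmain u i hu hmρ hhalf zm zM hz (not_lt.1 hr)).imp_right fun h => absurd he ?_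
  have h1 := hca (show dist (mean u) v < a by rw [Real.dist_eq]; linarith)
  have h2 := heb (show dist (dfct u) 0 < b by
    rw [Real.dist_eq, sub_zero, abs_of_nonneg hD0]; linarith)
  rw [Real.dist_eq] at h1 h2
  rw [show err 0 = 0 by simp [err], sub_zero] at h2
  have := (min_le_right (min ρ (κ / 2)) (min (min (a / 2) (b / 2)) (γ / 4))).trans (min_le_right _ _)
  rw [not_le]
  linarith [(abs_lt.1 h1).1, (abs_lt.1 h2).2]

end Vale.Agent.P232.Classify
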