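import Vale.Agent.P232.Classify.Pins
import Vale.Agent.P232.RowBound
import Vale.Agent.P232.Scalar.Main

/-!
# P232: the scalar facts of the rows, with a spare

Off the boxes left to the calibrations of the tube and of the slab every certificate has `10⁻⁸` in
hand; on these boxes the spare is that of the calibration.
-/

noncomputable section

open MeasureTheory Set

namespace Vale.Agent.P232.Classify

open Scalar

/-- The scalar fact of a row, with the spare `G c m`. -/
def Spare (r : Row) (G : ℝ → ℝ → ℝ) : Prop :=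
  ∀ c m v, r.p ≤ c → c ≤ v → v ≤ m → m ≤ 1 → r.v0 ≤ v → v ≤ r.v1 →
    ∃ C M, r.p ≤ C ∧ C ≤ c ∧ m ≤ M ∧ M ≤ 1 ∧
      r.target v + G c m + (if c = r.p then 2 * r.T * r.ℓ else 0) ≤
        chord C M v + 2 * ∫ a in c..m, weight C M a

theorem calibrated_mono {lo lo' c m v tg tg' : ℝ} (h : Calibrated lo c m v tg) (hlo : lo' ≤ lo)
    (htg : tg' ≤ tg) : Calibrated lo' c m v tg' := by
  obtain ⟨C, M, h1, h2, h3, h4, h5⟩ := h
  exact ⟨C, M, hlo.trans h1, h2, h3, h4, by linarith⟩

/-- A certificate gives the target with the spare `g`, if each skipped box does. -/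
theorem check_spare {tg : ℝ → ℝ} {g : ℝ → ℝ → ℝ} {bins : List Bin} {lo hi D : ℕ}
    (hb : covers lo hi bins = true) (hlh : lo < hi)
    (hdom : ∀ q ∈ bins, ∀ v : ℝ, (q.a : ℝ) / 10 ^ 8 ≤ v → v ≤ (q.b : ℝ) / 10 ^ 8 →
      tg v ≤ q.line v)
    (hg : ∀ c m, g c m ≤ (D : ℝ) / 10 ^ 16) {sk : ℕ → ℕ → ℕ → ℕ → Bool}
    (hsk : ∀ C0 C1 M0 M1, sk C0 C1 M0 M1 = true → ∀ c m v : ℝ, (C0 : ℝ) / 10 ^ 8 ≤ c →
      m ≤ (M1 : ℝ) / 10 ^ 8 → c ≤ v → v ≤ m → v ≤ (hi : ℝ) / 10 ^ 8 → (lo : ℝ) / 10 ^ 8 ≤ v →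
        Calibrated ((C0 : ℝ) / 10 ^ 8) c m v (tg v + g c m)) :
    ∀ (T : Cert) (C0 C1 M0 M1 : ℕ), check bins D sk T C0 C1 M0 M1 = true → C0 ≤ C1 → M0 ≤ M1 →
      ∀ c m v : ℝ, v ∈ Icc ((lo : ℝ) / 10 ^ 8) ((hi : ℝ) / 10 ^ 8) →
        c ∈ Icc ((C0 : ℝ) / 10 ^ 8) ((C1 : ℝ) / 10 ^ 8) →
        m ∈ Icc ((M0 : ℝ) / 10 ^ 8) ((M1 : ℝ) / 10 ^ 8) → c ≤ v → v ≤ m →
          Calibrated ((C0 : ℝ) / 10 ^ 8) c m v (tg v + g c m) := by
  intro T
  induction T with
  | leaf P0 P1 U0 U1 xs =>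
    intro C0 C1 M0 M1 h hC hM c m v hv hc hm hcv hvm
    exact calibrated_mono (leaf_sound hb hlh hdom h hC hM c m v hv hc hm hcv hvm) le_rfl
      (by linarith [hg c m])
  | skip =>
    intro C0 C1 M0 M1 h _ _ c m v hv hc hm hcv hvm
    exact hsk _ _ _ _ h c m v hc.1 hm.2 hcv hvm hv.2 hv.1
  | splitC s l r ihl ihr =>
    intro C0 C1 M0 M1 h hC hM c m v hv hc hm hcv hvm
    simp only [check, Bool.and_eq_true, decide_eq_true_eq] at h
    by_cases hs : c ≤ (s : ℝ) / 10 ^ 8
    · exact ihl _ _ _ _ h.1.2 h.1.1 hM c m v hv ⟨hc.1, hs⟩ hm hcv hvm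
    · have hsC : s ≤ C1 := by
        have : (s : ℝ) ≤ C1 := by linarith [hc.2, lt_of_not_ge hs]
        exact_mod_cast this
      have h0 : (C0 : ℝ) ≤ s := by exact_mod_cast h.1.1
      exact calibrated_mono (ihr _ _ _ _ h.2 hsC hM c m v hv ⟨(lt_of_not_ge hs).le, hc.2⟩ hm hcv hvm)
        (by linarith) le_rfl
  | splitM s l r ihl ihr =>
    intro C0 C1 M0 M1 h hC hM c m v hv hc hm hcv hvm
    simp only [check, Bool.and_eq_true] at h
    by_cases hs : m ≤ (s : ℝ) / 10 ^ 8
    · have : M0 ≤ s := by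
        have : (M0 : ℝ) ≤ s := by linarith [hm.1]
        exact_mod_cast this
      exact ihl _ _ _ _ h.1 hC this c m v hv hc ⟨hm.1, hs⟩ hcv hvm
    · have : s ≤ M1 := by
        have : (s : ℝ) ≤ M1 := by linarith [hm.2, lt_of_not_ge hs]
        exact_mod_cast this
      exact ihr _ _ _ _ h.2 hC this c m v hv hc ⟨(lt_of_not_ge hs).le, hm.2⟩ hcv hvm

theorem spare_of {r : Row} {tg : ℝ → ℝ} {g : ℝ → ℝ → ℝ} {V0 V1 P T l : ℕ}
    (hr : r.v0 = (V0 : ℝ) / 10 ^ 8 ∧ r.v1 = (V1 : ℝ) / 10 ^ 8 ∧ r.p = (P : ℝ) / 10 ^ 8 ∧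
      r.T = (T : ℝ) / 10 ^ 5 ∧ r.ℓ = (l : ℝ) / 10 ^ 5)
    (htg : ∀ v, r.target v = 2 * tg v) (hside : P ≤ V0 ∧ V1 ≤ 10 ^ 8)
    {bins : List Bin} (hcov : covers V0 V1 bins = true) (hV : V0 < V1)
    (hdom : ∀ q ∈ bins, ∀ v : ℝ, (q.a : ℝ) / 10 ^ 8 ≤ v → v ≤ (q.b : ℝ) / 10 ^ 8 →
      tg v ≤ q.line v)
    (hg : ∀ c m, g c m ≤ 1 / 10 ^ 8) {sk : ℕ → ℕ → ℕ → ℕ → Bool}
    (hsk : ∀ C0 C1 M0 M1, sk C0 C1 M0 M1 = true → ∀ c m v : ℝ, (C0 : ℝ) / 10 ^ 8 ≤ c →
      m ≤ (M1 : ℝ) / 10 ^ 8 → c ≤ v → v ≤ m → v ≤ (V1 : ℝ) / 10 ^ 8 → (V0 : ℝ) / 10 ^ 8 ≤ v →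
        Calibrated ((C0 : ℝ) / 10 ^ 8) c m v (tg v + g c m))
    {main floor : Cert} (hmain : check bins (10 ^ 8) sk main P V1 V0 (10 ^ 8) = true)
    (hfloor : check bins (T * l * 10 ^ 6 + 10 ^ 8) noSkip floor P P V0 (10 ^ 8) = true) :
    Spare r fun c m => 2 * g c m := by
  obtain ⟨e0, e1, ep, eT, el⟩ := hr
  intro c m v hpc hcv hvm hm1 hv0 hv1
  rw [ep] at hpc
  rw [e0] at hv0
  rw [e1] at hv1
  have hvI : v ∈ Icc ((V0 : ℝ) / 10 ^ 8) ((V1 : ℝ) / 10 ^ 8) := ⟨hv0, hv1⟩
  have hmI : m ∈ Icc ((V0 : ℝ) / 10 ^ 8) (((10 ^ 8 : ℕ) : ℝ) / 10 ^ 8) :=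
    ⟨hv0.trans hvm, by push_cast; linarith⟩
  have hV0 : V0 ≤ 10 ^ 8 := by omega
  rw [ep, htg, eT, el]
  rcases eq_or_lt_of_le hpc with h | h
  · obtain ⟨C, M, h1, h2, h3, h4, h5⟩ := check_sound hcov hV hdom noSkip_sound floor P P V0
      (10 ^ 8) hfloor le_rfl hV0 c m v hvI ⟨h.le, h.ge⟩ hmI hcv hvm
    refine ⟨C, M, h1, h2, h3, h4, ?_⟩
    rw [if_pos h.symm]
    push_cast at h5
    linarith [hg c m]
  · obtain ⟨C, M, h1, h2, h3, h4, h5⟩ := check_spare hcov hV hdom
      (fun c m => (hg c m).trans (by norm_num)) hsk main P V1 V0 (10 ^ 8) hmain (by omega) hV0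
      c m v hvI ⟨h.le, hcv.trans hv1⟩ hmI hcv hvm
    refine ⟨C, M, h1, h2, h3, h4, ?_⟩
    rw [if_neg h.ne']
    linarith

/-- The spare of a low row, in half units. -/
def spareTube (c m : ℝ) : ℝ := min (1 / 10 ^ 8) ((m - c) ^ 2 / 500)

/-- The spare of the slab row, in half units. -/
def spareSlab (c m : ℝ) : ℝ :=
  min (1 / 10 ^ 8) (((1 - prof c / 2) + (1 - prof m / 2)) / 400)

theorem tubeSkip_spare (lo hi C0 C1 M0 M1 : ℕ) (h : tubeSkip C0 C1 M0 M1 = true) (c m v : ℝ)
    (hc : (C0 : ℝ) / 10 ^ 8 ≤ c) (hm : m ≤ (M1 : ℝ) / 10 ^ 8) (hcv : c ≤ v) (hvm : v ≤ m)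
    (_hhi : v ≤ (hi : ℝ) / 10 ^ 8) (_hlo : (lo : ℝ) / 10 ^ 8 ≤ v) :
    Calibrated ((C0 : ℝ) / 10 ^ 8) c m v (canonicalHalf v + spareTube c m) := by
  simp only [tubeSkip, decide_eq_true_eq] at h
  have h1 : (10000000 : ℝ) ≤ C0 := by exact_mod_cast h.1
  have h2 : (M1 : ℝ) ≤ 31830000 := by exact_mod_cast h.2
  refine calibrated_tube (by linarith) (by linarith) hcv hvm hc ?_
  have h3 : canonical v ≤ tubePer v := (min_le_left _ _).trans (min_le_right _ _)
  rw [tubePer] at h3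
  have h4 : spareTube c m ≤ (m - c) ^ 2 / 500 := min_le_right _ _
  simp only [canonicalHalf]
  linarith [sq_nonneg (m - c)]

theorem slabSkip_spare (C0 C1 M0 M1 : ℕ) (h : slabSkip C0 C1 M0 M1 = true) (c m v : ℝ)
    (hc : (C0 : ℝ) / 10 ^ 8 ≤ c) (hm : m ≤ (M1 : ℝ) / 10 ^ 8) (hcv : c ≤ v) (hvm : v ≤ m)
    (hhi : v ≤ ((50000000 : ℕ) : ℝ) / 10 ^ 8) (hlo : ((36500000 : ℕ) : ℝ) / 10 ^ 8 ≤ v) :
    Calibrated ((C0 : ℝ) / 10 ^ 8) c m v (slabHalf v + spareSlab c m) := by
  simp only [slabSkip, decide_eq_true_eq] at h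
  have h1 : (31100000 : ℝ) ≤ C0 := by exact_mod_cast h.1
  have h2 : (M1 : ℝ) ≤ 68900000 := by exact_mod_cast h.2
  push_cast at hhi hlo
  have h4 : spareSlab c m ≤ ((1 - prof c / 2) + (1 - prof m / 2)) / 400 := min_le_right _ _
  refine calibrated_slab (by linarith) (by linarith) hcv hvm (by linarith) hc ?_
    fun h' => absurd h' (by linarith)
  simp only [slabHalf]
  linarith

theorem row0_spare :
    Spare ⟨25/1000000, 50/1000000, 2/1000000, 30/1000000, 16539/100, 256/1000, 108/100000, 546/100000, canonical⟩ fun c m => 2 * spareTube c m :=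
  spare_of (tg := canonicalHalf) (V0 := 2500) (V1 := 5000) (P := 200) (T := 108) (l := 546)
    (by norm_num) (fun v => by simp only [canonicalHalf]; ring) (by norm_num)
    row0Bins_covers (by norm_num)
    (canonical_dom row0Bins row0Bins_dom (v0 := 2500) (by decide +kernel))
    (fun _ _ => min_le_left _ _) (tubeSkip_spare _ _) row0Main_ok row0Floor_ok

theorem row1_spare :
    Spare ⟨50/1000000, 100/1000000, 4/1000000, 60/1000000, 13127/100, 287/1000, 159/100000, 771/100000, canonical⟩ fun c m => 2 * spareTube c m :=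
  spare_of (tg := canonicalHalf) (V0 := 5000) (V1 := 10000) (P := 400) (T := 159) (l := 771)
    (by norm_num) (fun v => by simp only [canonicalHalf]; ring) (by norm_num)
    row1Bins_covers (by norm_num)
    (canonical_dom row1Bins row1Bins_dom (v0 := 5000) (by decide +kernel))
    (fun _ _ => min_le_left _ _) (tubeSkip_spare _ _) row1Main_ok row1Floor_ok

theorem row2_spare :
    Spare ⟨100/1000000, 250/1000000, 6/1000000, 100/1000000, 10419/100, 294/1000, 196/100000, 924/100000, canonical⟩ fun c m => 2 * spareTube c m :=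
  spare_of (tg := canonicalHalf) (V0 := 10000) (V1 := 25000) (P := 600) (T := 196) (l := 924)
    (by norm_num) (fun v => by simp only [canonicalHalf]; ring) (by norm_num)
    row2Bins_covers (by norm_num)
    (canonical_dom row2Bins row2Bins_dom (v0 := 10000) (by decide +kernel))
    (fun _ _ => min_le_left _ _) (tubeSkip_spare _ _) row2Main_ok row2Floor_ok

theorem row3_spare :
    Spare ⟨250/1000000, 600/1000000, 15/1000000, 220/1000000, 7677/100, 322/1000, 323/100000, 1461/100000, canonical⟩ fun c m => 2 * spareTube c m :=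
  spare_of (tg := canonicalHalf) (V0 := 25000) (V1 := 60000) (P := 1500) (T := 323) (l := 1461)
    (by norm_num) (fun v => by simp only [canonicalHalf]; ring) (by norm_num)
    row3Bins_covers (by norm_num)
    (canonical_dom row3Bins row3Bins_dom (v0 := 25000) (by decide +kernel))
    (fun _ _ => min_le_left _ _) (tubeSkip_spare _ _) row3Main_ok row3Floor_ok

theorem row4_spare :
    Spare ⟨600/1000000, 1600/1000000, 40/1000000, 500/1000000, 5734/100, 362/1000, 560/100000, 2403/100000, canonical⟩ fun c m => 2 * spareTube c m :=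
  spare_of (tg := canonicalHalf) (V0 := 60000) (V1 := 160000) (P := 4000) (T := 560) (l := 2403)
    (by norm_num) (fun v => by simp only [canonicalHalf]; ring) (by norm_num)
    row4Bins_covers (by norm_num)
    (canonical_dom row4Bins row4Bins_dom (v0 := 60000) (by decide +kernel))
    (fun _ _ => min_le_left _ _) (tubeSkip_spare _ _) row4Main_ok row4Floor_ok

theorem row5_spare :
    Spare ⟨1600/1000000, 4000/1000000, 100/1000000, 1100/1000000, 4135/100, 387/1000, 921/100000, 3782/100000, canonical⟩ fun c m => 2 * spareTube c m :=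
  spare_of (tg := canonicalHalf) (V0 := 160000) (V1 := 400000) (P := 10000) (T := 921) (l := 3782)
    (by norm_num) (fun v => by simp only [canonicalHalf]; ring) (by norm_num)
    row5Bins_covers (by norm_num)
    (canonical_dom row5Bins row5Bins_dom (v0 := 160000) (by decide +kernel))
    (fun _ _ => min_le_left _ _) (tubeSkip_spare _ _) row5Main_ok row5Floor_ok

theorem row6_spare :
    Spare ⟨4/1000, 16/1000, 3/10000, 3/1000, 3047/100, 471/1000, 1848/100000, 6640/100000, canonical⟩ fun c m => 2 * spareTube c m :=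
  spare_of (tg := canonicalHalf) (V0 := 400000) (V1 := 1600000) (P := 30000) (T := 1848) (l := 6640)
    (by norm_num) (fun v => by simp only [canonicalHalf]; ring) (by norm_num)
    row6Bins_covers (by norm_num)
    (canonical_dom row6Bins row6Bins_dom (v0 := 400000) (by decide +kernel))
    (fun _ _ => min_le_left _ _) (tubeSkip_spare _ _) row6Main_ok row6Floor_ok

theorem row7_spare :
    Spare ⟨16/1000, 60/1000, 8/10000, 6/1000, 1920/100, 420/1000, 2752/100000, 10557/100000, canonical⟩ fun c m => 2 * spareTube c m :=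
  spare_of (tg := canonicalHalf) (V0 := 1600000) (V1 := 6000000) (P := 80000) (T := 2752) (l := 10557)
    (by norm_num) (fun v => by simp only [canonicalHalf]; ring) (by norm_num)
    row7Bins_covers (by norm_num)
    (canonical_dom row7Bins row7Bins_dom (v0 := 1600000) (by decide +kernel))
    (fun _ _ => min_le_left _ _) (tubeSkip_spare _ _) row7Main_ok row7Floor_ok

theorem row8_spare :
    Spare ⟨60/1000, 90/1000, 13/10000, 8/1000, 1236/100, 312/1000, 2958/100000, 13068/100000, canonical⟩ fun c m => 2 * spareTube c m :=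
  spare_of (tg := canonicalHalf) (V0 := 6000000) (V1 := 9000000) (P := 130000) (T := 2958) (l := 13068)
    (by norm_num) (fun v => by simp only [canonicalHalf]; ring) (by norm_num)
    row8Bins_covers (by norm_num)
    (canonical_dom row8Bins row8Bins_dom (v0 := 6000000) (by decide +kernel))
    (fun _ _ => min_le_left _ _) (tubeSkip_spare _ _) row8Main_ok row8Floor_ok

theorem row9_spare :
    Spare ⟨90/1000, 150/1000, 16/10000, 98/10000, 1080/100, 302/1000, 3234/100000, 14440/100000, canonical⟩ fun c m => 2 * spareTube c m :=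
  spare_of (tg := canonicalHalf) (V0 := 9000000) (V1 := 15000000) (P := 160000) (T := 3234) (l := 14440)
    (by norm_num) (fun v => by simp only [canonicalHalf]; ring) (by norm_num)
    row9Bins_covers (by norm_num)
    (canonical_dom row9Bins row9Bins_dom (v0 := 9000000) (by decide +kernel))
    (fun _ _ => min_le_left _ _) (tubeSkip_spare _ _) row9Main_ok row9Floor_ok

theorem row10_spare :
    Spare ⟨150/1000, 262/1000, 16/10000, 1/100, 911/100, 258/1000, 3043/100000, 14336/100000, canonical⟩ fun c m => 2 * spareTube c m :=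
  spare_of (tg := canonicalHalf) (V0 := 15000000) (V1 := 26200000) (P := 160000) (T := 3043) (l := 14336)
    (by norm_num) (fun v => by simp only [canonicalHalf]; ring) (by norm_num)
    row10Bins_covers (by norm_num)
    (canonical_dom row10Bins row10Bins_dom (v0 := 15000000) (by decide +kernel))
    (fun _ _ => min_le_left _ _) (tubeSkip_spare _ _) row10Main_ok row10Floor_ok

theorem lowSpare : ∀ r ∈ lowRows, Spare r fun c m => 2 * spareTube c m := by
  simp only [lowRows, List.forall_mem_cons, List.not_mem_nil, IsEmpty.forall_iff, implies_true,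
    and_true]
  exact ⟨row0_spare, row1_spare, row2_spare, row3_spare, row4_spare, row5_spare, row6_spare, row7_spare, row8_spare, row9_spare, row10_spare⟩

theorem slabSpare : Spare slabRow fun c m => 2 * spareSlab c m :=
  spare_of (tg := slabHalf) (V0 := 36500000) (V1 := 50000000) (P := 160000) (T := 2804)
    (l := 14249) (by norm_num [slabRow]) (fun v => by simp only [slabHalf, slabRow]; ring)
    (by norm_num) row12Bins_covers (by norm_num) slab_dom (fun _ _ => min_le_left _ _)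
    slabSkip_spare row12Main_ok row12Floor_ok

end Vale.Agent.P232.Classify
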