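import Vale.Agent.P232.Classify.Base
import Vale.Agent.P232.Approx
import Vale.Agent.P232.Profile
import Vale.Agent.P232.CutStep

/-!
# P232: minimising sequences and the cuts which they allow
-/

noncomputable section

open MeasureTheory Filter Topology Set

namespace Vale.Agent.P232.Classify

variable {f : (Fin 3 → ℝ) → ℝ} {u : ℕ → (Fin 3 → ℝ) → ℝ} {v : ℝ}

theorem continuous_canonical : Continuous canonical := by
  unfold canonical ballPer tubePer
  exact ((continuous_const.mul (continuous_id.rpow_const fun _ => Or.inr (by norm_num))).min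
    (continuous_const.mul (Real.continuous_sqrt.comp (continuous_const.mul continuous_id)))).min
      continuous_const

theorem canonical_pos (hv : 0 < v) : 0 < canonical v :=
  lt_min (lt_min (by unfold ballPer; positivity) (by unfold tubePer; positivity)) two_pos

/-- The indicator of a set of the torus in coordinates. -/
def indFun (F : Set Point) (x : Fin 3 → ℝ) : ℝ := ApproxAux.ind F (WithLp.toLp 2 x)

theorem measurable_indFun {F : Set Point} (hF : MeasurableSet F) : Measurable (indFun F) :=
  (measurable_const.indicator hF).comp (WithLp.measurable_toLp 2 _)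

theorem indFun_val (F : Set Point) (x : Fin 3 → ℝ) : indFun F x = 0 ∨ indFun F x = 1 := by
  by_cases h : WithLp.toLp 2 x ∈ F <;> simp [indFun, ApproxAux.ind, h]

theorem indFun_mem (F : Set Point) (x : Fin 3 → ℝ) : indFun F x ∈ Icc (0 : ℝ) 1 :=
  ApproxAux.ind_mem F _

theorem integral_indFun {F : Set Point} (hF : MeasurableSet F) :
    ∫ x in box 3, indFun F x = torusVolume F := by
  rw [show (indFun F : (Fin 3 → ℝ) → ℝ) = fun x => ApproxAux.ind F (WithLp.toLp 2 x) from rfl,
    Periodic.integral_box (fun x => ApproxAux.ind F x), ApproxAux.ind, setIntegral_indicator hF,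
    setIntegral_const, smul_eq_mul, mul_one, torusVolume, inter_comm]

/-- A minimiser of volume `v` is approached by a minimising sequence. -/
theorem exists_minSeq {F : Set Point} (hF : IsTorusSet F) (hv0 : 0 < v) (hv1 : v ≤ 1 / 2)
    (hvol : torusVolume F = v) (hP : PerimeterLE F (canonical v)) :
    ∃ u, MinSeq v (indFun F) u := by
  choose w hw hm _ hE hl using fun n : ℕ =>
    approx_l1 hF hP (δ := 1 / (n + 1 : ℝ)) (by positivity)
  have h0 : Tendsto (fun n : ℕ => 1 / (n + 1 : ℝ)) atTop (𝓝 0) :=
    tendsto_one_div_add_atTop_nhds_zero_nat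
  have hlim : Tendsto (fun n => mean (w n)) atTop (𝓝 v) := by
    rw [tendsto_iff_dist_tendsto_zero]
    refine squeeze_zero (fun _ => dist_nonneg) (fun n => ?_) h0
    rw [Real.dist_eq, ← hvol]
    exact hm n
  set c : ℕ → ℝ := fun n => v / max v (mean (w n)) with hc
  have hpos : ∀ n, 0 < max v (mean (w n)) := fun n => hv0.trans_le (le_max_left _ _)
  have hcI : ∀ n, c n ∈ Icc (0 : ℝ) 1 := fun n =>
    ⟨div_nonneg hv0.le (hpos n).le, (div_le_one (hpos n)).2 (le_max_left _ _)⟩
  have hc1 : Tendsto c atTop (𝓝 1) := by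
    have h := (tendsto_const_nhds (x := v)).div ((tendsto_const_nhds (x := v)).max hlim)
      (by rw [max_self]; exact hv0.ne')
    simpa [hc, hv0.ne', Pi.div_def] using h
  refine ⟨fun n x => c n * w n x, ⟨hv0, hv1, measurable_indFun hF.1, indFun_val F,
    (integral_indFun hF.1).trans hvol, fun n => (hw n).scale (hcI n), fun n => ?_, ?_, ?_⟩⟩
  · rw [(scale_spec (hw n) (hcI n)).1, hc]
    simp only
    rw [div_mul_eq_mul_div, div_le_iff₀ (hpos n)]
    exact mul_le_mul_of_nonneg_left (le_max_right _ _) hv0.le
  · have hsum : Tendsto (fun n : ℕ => (1 - c n) + 1 / (n + 1 : ℝ)) atTop (𝓝 0) := by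
      simpa using (hc1.const_sub 1).add h0
    refine squeeze_zero (fun n => setIntegral_nonneg measurableSet_box fun _ _ => abs_nonneg _)
      (fun n => ?_) hsum
    have hi : IntegrableOn (indFun F) (box 3) := by
      simpa using integrableOn_mul_of_bounded (continuous_const (y := (1 : ℝ)))
        (measurable_indFun hF.1) (indFun_mem F)
    have hwi := integrableOn_box (hw n).smooth.continuous
    have h2 : IntegrableOn (fun x => |w n x - indFun F x|) (box 3) := (hwi.sub hi).abs
    refine (setIntegral_mono_on
      ((integrableOn_box ((hw n).scale (hcI n)).smooth.continuous).sub hi).abs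
      ((integrableOn_box (continuous_const (y := 1 - c n))).add h2) measurableSet_box
      fun x _ => ?_).trans ?_
    · show |c n * w n x - indFun F x| ≤ (1 - c n) + |w n x - indFun F x|
      refine (abs_sub_le _ (w n x) _).trans (add_le_add ?_ le_rfl)
      rw [abs_sub_comm, ← one_sub_mul,
        abs_of_nonneg (mul_nonneg (sub_nonneg.2 (hcI n).2) ((hw n).mem x).1)]
      exact mul_le_of_le_one_right (sub_nonneg.2 (hcI n).2) ((hw n).mem x).2
    · rw [integral_add' (integrableOn_box continuous_const) h2, setIntegral_const, volume_box,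
        one_smul]
      linarith [show ∫ x in box 3, |w n x - indFun F x| ≤ 1 / (n + 1 : ℝ) from hl n]
  · intro ε hε
    filter_upwards [h0.eventually (eventually_le_nhds hε)] with n hn
    linarith [(scale_spec (hw n) (hcI n)).2.2, hE n]

/-- A sequence below a minimising one, with nearly the same mean, is minimising too. -/
theorem MinSeq.of_le (h : MinSeq v f u) {w : ℕ → (Fin 3 → ℝ) → ℝ} (hw : ∀ n, Adm (w n))
    (hle : ∀ n x, w n x ≤ u n x)
    (hloss : Tendsto (fun n => mean (u n) - mean (w n)) atTop (𝓝 0))
    (hE : ∀ ε : ℝ, 0 < ε → ∀ᶠ n in atTop, energy (w n) ≤ canonical v + ε) : MinSeq v f w := by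
  refine ⟨h.v_pos, h.v_le, h.meas, h.val, h.mean_eq, hw,
    fun n => (mean_mono (h.adm n) (hw n) (hle n)).trans (h.mean_le n), ?_, hE⟩
  have hsum := hloss.add h.lim
  rw [add_zero] at hsum
  refine squeeze_zero (fun n => setIntegral_nonneg measurableSet_box fun _ _ => abs_nonneg _)
    (fun n => ?_) hsum
  have hw' := integrableOn_box (hw n).smooth.continuous
  have hu' := integrableOn_box (h.adm n).smooth.continuous
  refine (setIntegral_mono_on (hw'.sub h.integrableOn).abs ((hu'.sub hw').add
    (h.integrableOn_diff n)) measurableSet_box fun x _ => ?_).trans_eq ?_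
  · show |w n x - f x| ≤ (u n x - w n x) + |u n x - f x|
    refine (abs_sub_le _ (u n x) _).trans (add_le_add (le_of_eq ?_) le_rfl)
    rw [abs_sub_comm, abs_of_nonneg (sub_nonneg.2 (hle n x))]
  · rw [integral_add' (hu'.sub hw') (h.integrableOn_diff n), integral_sub' hu' hw']
    rfl

/-- Cuts which are possible lose no volume in the limit. -/
theorem exists_cut (hL : Lower) (hC : CutStep) (h : MinSeq v f u) {i : Fin 3}
    (hc : ∀ n, Cuttable (u n) i) :
    ∃ w, MinSeq v f w ∧ (∀ n x, w n x ≤ u n x) ∧ ∀ n, HasGap (w n) i := by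
  choose β η hβ hη hη4 hβη hgain hcut using hc
  choose w hw hle hgap hd _ hE using fun n : ℕ =>
    hC (u n) (h.adm n) i (β n) (η n) (hβ n) (hη n) (hη4 n) (hβη n) (hcut n) (1 / (n + 1 : ℝ))
      (by positivity)
  set l := fun n => mean (u n) - mean (w n) with hl
  have hl0 : ∀ n, 0 ≤ l n := fun n => sub_nonneg.2 (mean_mono (h.adm n) (hw n) (hle n))
  set e := fun n : ℕ => err (dfct (u n)) + 1 / (n + 1 : ℝ) with he
  have he0 : Tendsto e atTop (𝓝 0) := by
    simpa [he] using h.err_tendsto.add tendsto_one_div_add_atTop_nhds_zero_nat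
  have hbl : ∀ n, 0 ≤ β n * l n := fun n => mul_nonneg (hβ n) (hl0 n)
  have hEw : ∀ ε : ℝ, 0 < ε → ∀ᶠ n in atTop, energy (w n) ≤ canonical v + ε := by
    intro ε hε
    filter_upwards [h.energy_le (ε / 2) (by positivity),
      he0.eventually (eventually_le_nhds (half_pos hε))] with n h1 h2
    linarith [hE n, hbl n]
  have hK : 0 < canonical v / v := div_pos (canonical_pos h.v_pos) h.v_pos
  have hdw : Tendsto (fun n : ℕ => dfct (u n) + 1 / (n + 1 : ℝ)) atTop (𝓝 0) := by
    simpa using h.dfct_tendsto.add tendsto_one_div_add_atTop_nhds_zero_nat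
  have hcan : Tendsto (fun n => canonical (mean (u n))) atTop (𝓝 (canonical v)) :=
    (continuous_canonical.tendsto v).comp h.mean_tendsto
  have hloss : Tendsto l atTop (𝓝 0) := by
    refine Metric.tendsto_nhds.2 fun ε hε => ?_
    set γ := canonical v / v / 2 * (1 / 10 ^ 6) * ε / 8 with hγ
    have hγ0 : 0 < γ := by positivity
    obtain ⟨δ, hδ, hlow⟩ := hL γ hγ0
    filter_upwards [h.energy_le γ hγ0, he0.eventually (eventually_le_nhds hγ0),
      hdw.eventually (eventually_le_nhds hδ),
      (hcan.div h.mean_tendsto h.v_pos.ne').eventually (eventually_ge_nhds (half_lt_self hK)),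
      hcan.eventually (eventually_ge_nhds (show canonical v - γ < canonical v by linarith)),
      h.mean_tendsto.eventually (eventually_gt_nhds h.v_pos)] with n hEn hen hdn hKn hcn hmn
    set b := mean (u n)
    set a := mean (w n) with ha
    set C := canonical b
    have hlo : canonical a ≤ energy (w n) + γ :=
      hlow (w n) (hw n) (((mean_mono (h.adm n) (hw n) (hle n)).trans (h.mean_le n)).trans h.v_le)
        ((hd n).trans hdn)
    -- the gain of the cut and the star shape of the canonical value
    have hstar : C * a ≤ canonical a * b :=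
      canonical_star (mean_mem (hw n)).1 (mean_mono (h.adm n) (hw n) (hle n))
    have e1 := mul_le_mul_of_nonneg_right (hgain n) (hl0 n)
    have e2 := mul_le_mul_of_nonneg_right
      (show canonical a + β n * l n ≤ C + 4 * γ by linarith [hE n]) hmn.le
    have e4 : C * (1 / 10 ^ 6) * l n ≤ 4 * γ * b := by
      have : l n = b - a := rfl
      rw [this] at e1 e2 ⊢
      linarith
    have e3 : canonical v / v / 2 * b ≤ C := (le_div_iff₀ hmn).1 hKn
    have e5 : canonical v / v / 2 * (1 / 10 ^ 6) * l n * b ≤ 4 * γ * b := by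
      refine le_trans (le_of_eq ?_) (le_trans (mul_le_mul_of_nonneg_right e3
        (mul_nonneg (by norm_num : (0 : ℝ) ≤ 1 / 10 ^ 6) (hl0 n))) ?_)
      · ring
      · linarith
    have e6 := le_of_mul_le_mul_right e5 hmn
    rw [Real.dist_eq, sub_zero, abs_of_nonneg (hl0 n)]
    have hk0 : 0 < canonical v / v / 2 * (1 / 10 ^ 6) := by positivity
    by_contra hbad
    have := mul_le_mul_of_nonneg_left (not_lt.1 hbad) hk0.le
    have hpe : 0 < canonical v / v / 2 * (1 / 10 ^ 6) * ε := mul_pos hk0 hε
    linarith
  exact ⟨w, h.of_le hw hle hloss hEw, hle, hgap⟩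

end Vale.Agent.P232.Classify
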