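import Vale.Agent.P232.Classify.Lines

/-!
# P232: two invariant axes leave a slab
-/

noncomputable section

open MeasureTheory Filter Topology Set

namespace Vale.Agent.P232.Classify

/-- The interval `[s, s + v)` of the circle. -/
def arc (v s z : ℝ) : ℝ := if Int.fract (z - s) < v then 1 else 0

theorem measurable_arc (v s : ℝ) : Measurable (arc v s) :=
  Measurable.ite (measurableSet_lt (measurable_fract.comp (measurable_id.sub_const s))
    measurable_const) measurable_const measurable_const

theorem arc_mem (v s z : ℝ) : arc v s z ∈ Icc (0 : ℝ) 1 := by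
  unfold arc; split_ifs <;> simp

theorem arc_periodic (v s : ℝ) : Function.Periodic (arc v s) 1 := fun z => by
  simp only [arc, add_sub_right_comm, Int.fract_add_one]

theorem arc_fract (v s z : ℝ) : arc v (Int.fract s) z = arc v s z := by
  unfold arc
  rw [show z - Int.fract s = (z - s) + (⌊s⌋ : ℝ) by rw [Int.fract]; ring, Int.fract_add_intCast]

/-- One before `c` and zero from there on. -/
def step (c z : ℝ) : ℝ := if z < c then 1 else 0

theorem step_antitone (c : ℝ) : Antitone (step c) := fun a b hab => by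
  unfold step
  split_ifs <;> linarith

theorem integral_step {L c : ℝ} (h0 : L ≤ c) (h1 : c ≤ L + 1) :
    ∫ z in L..L + 1, step c z = c - L := by
  rw [show step c = (Iio c).indicator fun _ => (1 : ℝ) from funext fun z => by
      simp [step, indicator],
    intervalIntegral.integral_of_le (by linarith), setIntegral_indicator measurableSet_Iio,
    show Ioc L (L + 1) ∩ Iio c = Ioo L c by
      ext z; simp only [mem_inter_iff, mem_Ioc, mem_Iio, mem_Ioo]
      exact ⟨fun h => ⟨h.1.1, h.2⟩, fun h => ⟨⟨h.1, h.2.le.trans h1⟩, h.2⟩⟩,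
    setIntegral_const, smul_eq_mul, mul_one, Real.volume_real_Ioo_of_le h0]

theorem abs_step_sub (a b z : ℝ) :
    |step a z - step b z| = step (max a b) z - step (min a b) z := by
  unfold step
  rcases le_total a b with h | h
  · rw [max_eq_right h, min_eq_left h]
    split_ifs <;> first | linarith | simp
  · rw [max_eq_left h, min_eq_right h]
    split_ifs <;> first | linarith | simp

/-- Nearly least variation between nearly extreme values: one rise and one fall. -/
theorem near_step {g g' : ℝ → ℝ} (hd : ∀ z, HasDerivAt g (g' z) z) (hc : Continuous g')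
    (hp : Function.Periodic g 1) (hI : ∀ z, g z ∈ Icc (0 : ℝ) 1) {x y : ℝ}
    (hy : g y < 1 / 2) (hV : ∫ z in (0 : ℝ)..1, |g' z| ≤ 2 * (g x - g y) + 1 / 4) :
    ∃ L R, L ≤ R ∧ R ≤ L + 1 ∧
      ∀ z ∈ Ioo L (L + 1), z ≠ R → |g z - step R z| ≤ 4 * (g z * (1 - g z)) := by
  obtain ⟨y', hy', hyy⟩ := hp.exists_mem_Ico one_pos y x
  rw [hyy] at hy hV
  clear hyy y
  have hp' : Function.Periodic (fun z => |g' z|) 1 := by
    intro z
    have h1 : HasDerivAt (fun z => g (z + 1)) (g' (z + 1)) z := (hd (z + 1)).comp_add_const z 1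
    rw [show (fun z => g (z + 1)) = g from funext hp] at h1
    simp only [h1.unique (hd z)]
  have hshift := hp'.intervalIntegral_add_eq 0 x
  rw [zero_add] at hshift
  rw [hshift] at hV
  have hi : ∀ a b : ℝ, IntervalIntegrable (fun z => |g' z|) volume a b :=
    fun a b => hc.abs.intervalIntegrable a b
  have hab : ∀ a b : ℝ, a ≤ b → |g b - g a| ≤ ∫ z in a..b, |g' z| := by
    intro a b hle
    rw [← intervalIntegral.integral_eq_sub_of_hasDerivAt (fun z _ => hd z)
      (hc.intervalIntegrable _ _)]
    exact intervalIntegral.abs_integral_le_integral_abs hle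
  have hsplit : ∀ a b c : ℝ, (∫ z in a..b, |g' z|) + ∫ z in b..c, |g' z| =
      ∫ z in a..c, |g' z| := fun a b c =>
    intervalIntegral.integral_add_adjacent_intervals (hi a b) (hi b c)
  have down : ∀ w z, x ≤ w → w ≤ z → z ≤ y' → g z ≤ g w + 1 / 8 := by
    intro w z h1 h2 h3
    have := hab x w h1
    have := hab w z h2
    have := hab z y' h3
    have e := hab y' (x + 1) hy'.2.le
    rw [hp x] at e
    linarith [hsplit x w z, hsplit x z y', hsplit x y' (x + 1),
      neg_abs_le (g w - g x), le_abs_self (g z - g w), neg_abs_le (g y' - g z),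
      le_abs_self (g x - g y')]
  have up : ∀ z w, y' ≤ z → z ≤ w → w ≤ x + 1 → g z ≤ g w + 1 / 8 := by
    intro z w h1 h2 h3
    have := hab x y' hy'.1
    have := hab y' z h1
    have := hab z w h2
    have e := hab w (x + 1) h3
    rw [hp x] at e
    linarith [hsplit x y' z, hsplit x z w, hsplit x w (x + 1),
      neg_abs_le (g y' - g x), le_abs_self (g z - g y'), neg_abs_le (g w - g z),
      le_abs_self (g x - g w)]
  set S := {z ∈ Icc x y' | g z ≤ 1 / 2} with hS
  set T := {z ∈ Icc y' (x + 1) | g z ≤ 1 / 2} with hT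
  have hSy : y' ∈ S := ⟨⟨hy'.1, le_rfl⟩, hy.le⟩
  have hTy : y' ∈ T := ⟨⟨le_rfl, hy'.2.le⟩, hy.le⟩
  have hSb : BddBelow S := ⟨x, fun z hz => hz.1.1⟩
  have hTb : BddAbove T := ⟨x + 1, fun z hz => hz.1.2⟩
  set R₀ := sInf S with hR₀
  set L := sSup T with hL
  have hR0y : R₀ ≤ y' := csInf_le hSb hSy
  have hxR : x ≤ R₀ := le_csInf ⟨y', hSy⟩ fun z hz => hz.1.1
  have hyL : y' ≤ L := le_csSup hTb hTy
  have hLx : L ≤ x + 1 := csSup_le ⟨y', hTy⟩ fun z hz => hz.1.2
  refine ⟨L, R₀ + 1, by linarith, by linarith, fun z hz hne => ?_⟩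
  obtain ⟨hz0, hz1⟩ := hz
  rcases lt_or_gt_of_ne hne with hlt | hgt
  · have hhigh : 1 / 4 ≤ g z := by
      rcases le_or_gt z (x + 1) with h | h
      · by_contra hbad
        exact hz0.not_ge (le_csSup hTb ⟨⟨by linarith, h⟩, by linarith⟩)
      · by_contra hbad
        have e : g (z - 1) = g z := hp.sub_eq z
        have := csInf_le hSb (show z - 1 ∈ S from ⟨⟨by linarith, by linarith⟩, by linarith⟩)
        linarith
    rw [step, if_pos hlt, abs_sub_comm, abs_of_nonneg (by linarith [(hI z).2])]
    nlinarith [(hI z).2]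
  · have hlow : g z ≤ 3 / 4 := by
      have e : g (z - 1) = g z := hp.sub_eq z
      rw [← e]
      rcases le_or_gt (z - 1) y' with h | h
      · obtain ⟨w, hw, hwz⟩ := exists_lt_of_csInf_lt ⟨y', hSy⟩ (show R₀ < z - 1 by linarith)
        linarith [down w (z - 1) hw.1.1 hwz.le h, hw.2]
      · obtain ⟨w, hw, hwz⟩ := exists_lt_of_lt_csSup ⟨y', hTy⟩ (show z - 1 < L by linarith)
        linarith [up (z - 1) w h.le hwz.le hw.1.2, hw.2]
    rw [step, if_neg hgt.not_gt, sub_zero, abs_of_nonneg (hI z).1]
    nlinarith [(hI z).1]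

/-- Nearly least variation: near an interval of the circle. -/
theorem near_arc {g g' : ℝ → ℝ} (hd : ∀ z, HasDerivAt g (g' z) z) (hc : Continuous g')
    (hp : Function.Periodic g 1) (hI : ∀ z, g z ∈ Icc (0 : ℝ) 1) {x y : ℝ}
    (hy : g y < 1 / 2) (hV : ∫ z in (0 : ℝ)..1, |g' z| ≤ 2 * (g x - g y) + 1 / 4) {v : ℝ}
    (hv : v ∈ Icc (0 : ℝ) 1) :
    ∃ s ∈ Icc (0 : ℝ) 1, ∫ z in (0 : ℝ)..1, |g z - arc v s z| ≤
      8 * (∫ z in (0 : ℝ)..1, g z * (1 - g z)) + |(∫ z in (0 : ℝ)..1, g z) - v| := by
  obtain ⟨L, R, hLR, hR1, hstep⟩ := near_step hd hc hp hI hy hV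
  refine ⟨Int.fract L, ⟨Int.fract_nonneg L, (Int.fract_lt_one L).le⟩, ?_⟩
  simp only [arc_fract]
  have hg : Continuous g := continuous_iff_continuousAt.2 fun z => (hd z).continuousAt
  have hq : Continuous fun z => g z * (1 - g z) := hg.mul (continuous_const.sub hg)
  have shift : ∀ {h : ℝ → ℝ}, Function.Periodic h 1 →
      ∫ z in (0 : ℝ)..1, h z = ∫ z in L..L + 1, h z := fun hh => by
    simpa using hh.intervalIntegral_add_eq 0 L
  rw [shift (fun z => by simp only [hp z, arc_periodic v L z]), shift hp,
    shift (h := fun z => g z * (1 - g z)) (fun z => by simp only [hp z])]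
  set e := ∫ z in L..L + 1, g z * (1 - g z) with he
  have hL1 : L ≤ L + 1 := by linarith
  have iS : ∀ c, IntervalIntegrable (step c) volume L (L + 1) := fun c =>
    (step_antitone c).intervalIntegrable
  have hae : ∀ᵐ z ∂volume.restrict (Icc L (L + 1)), z ∈ Ioo L (L + 1) ∧ z ≠ R := by
    rw [← Measure.restrict_congr_set Ioo_ae_eq_Icc]
    filter_upwards [ae_restrict_mem measurableSet_Ioo,
      ae_restrict_of_ae ((countable_singleton R).ae_notMem volume)] with z h1 h2
    exact ⟨h1, h2⟩
  have hnear : ∫ z in L..L + 1, |g z - step R z| ≤ 4 * e := by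
    rw [he, ← intervalIntegral.integral_const_mul]
    refine intervalIntegral.integral_mono_ae_restrict hL1
      ((hg.intervalIntegrable _ _).sub (iS R)).abs ((hq.intervalIntegrable _ _).const_mul 4) ?_
    filter_upwards [hae] with z hz
    exact hstep z hz.1 hz.2
  set c := L + v with hcdef
  have hc0 : L ≤ c := by linarith [hv.1]
  have hc1 : c ≤ L + 1 := by linarith [hv.2]
  have hdiff : ∫ z in L..L + 1, |step R z - step c z| = |R - c| := by
    simp only [abs_step_sub]
    rw [intervalIntegral.integral_sub (iS _) (iS _), integral_step (le_max_of_le_left hLR)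
      (max_le hR1 hc1), integral_step (le_min hLR hc0) (min_le_of_left_le hR1),
      ← max_sub_min_eq_abs' R c]
    ring
  have hlen : |(R - L) - ∫ z in L..L + 1, g z| ≤ 4 * e := by
    rw [← integral_step hLR hR1, ← intervalIntegral.integral_sub (iS R) (hg.intervalIntegrable _ _)]
    refine (intervalIntegral.abs_integral_le_integral_abs hL1).trans (le_trans (le_of_eq ?_) hnear)
    exact intervalIntegral.integral_congr fun z _ => abs_sub_comm _ _
  have harc : ∫ z in L..L + 1, |g z - arc v L z| = ∫ z in L..L + 1, |g z - step c z| := by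
    refine intervalIntegral.integral_congr_ae ?_
    filter_upwards [(countable_singleton (L + 1)).ae_notMem volume] with z hz hzI
    rw [uIoc_of_le hL1] at hzI
    have hz1 : z < L + 1 := lt_of_le_of_ne hzI.2 hz
    have hfr : Int.fract (z - L) = z - L :=
      Int.fract_eq_self.2 ⟨by linarith [hzI.1], by linarith⟩
    simp only [arc, step, hfr, hcdef, sub_lt_iff_lt_add']
  rw [harc]
  have htri : ∫ z in L..L + 1, |g z - step c z| ≤
      (∫ z in L..L + 1, |g z - step R z|) + ∫ z in L..L + 1, |step R z - step c z| := by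
    rw [← intervalIntegral.integral_add ((hg.intervalIntegrable _ _).sub (iS R)).abs
      ((iS R).sub (iS c)).abs]
    exact intervalIntegral.integral_mono_on hL1 ((hg.intervalIntegrable _ _).sub (iS c)).abs
      (((hg.intervalIntegrable _ _).sub (iS R)).abs.add ((iS R).sub (iS c)).abs)
      fun z _ => abs_sub_le _ _ _
  have := abs_sub_le (R - L) (∫ z in L..L + 1, g z) v
  rw [show R - L - v = R - c by ring] at this
  linarith

theorem measurePreserving_coord (i : Fin 3) :
    MeasurePreserving (fun x : Fin 3 → ℝ => x i) (volume.restrict (box 3))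
      (volume.restrict (Ioc (0 : ℝ) 1)) := by
  have : IsProbabilityMeasure (volume.restrict (Ico (0 : ℝ) 1)) := ⟨by simp⟩
  rw [← Measure.restrict_congr_set Ico_ae_eq_Ioc, box_eq, volume_pi, Measure.restrict_pi_pi]
  exact measurePreserving_eval (fun _ : Fin 3 => volume.restrict (Ico (0 : ℝ) 1)) i

theorem integral_coord_meas {H : ℝ → ℝ} (hH : Measurable H) (i : Fin 3) :
    ∫ x in box 3, H (x i) = ∫ z in (0 : ℝ)..1, H z := by
  have hm := measurePreserving_coord i
  rw [intervalIntegral.integral_of_le zero_le_one, ← hm.map_eq,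
    integral_map hm.aemeasurable hH.aestronglyMeasurable]

/-- The arcs move continuously in mean. -/
theorem arc_tendsto {v : ℝ} {s : ℕ → ℝ} {a : ℝ} (hs : Tendsto s atTop (𝓝 a)) (i : Fin 3) :
    Tendsto (fun n => ∫ x in box 3, |arc v (s n) (x i) - arc v a (x i)|) atTop (𝓝 0) := by
  have hcount : {z : ℝ | Int.fract (z - a) = 0 ∨ Int.fract (z - a) = v}.Countable := by
    refine ((countable_range fun k : ℤ => a + k).union
      (countable_range fun k : ℤ => a + v + k)).mono ?_
    rintro z (h | h)
    · exact Or.inl ⟨⌊z - a⌋, by rw [Int.fract] at h; simp only; linarith⟩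
    · exact Or.inr ⟨⌊z - a⌋, by rw [Int.fract] at h; simp only; linarith⟩
  have hae : ∀ᵐ x ∂volume.restrict (box 3),
      Int.fract (x i - a) ≠ 0 ∧ Int.fract (x i - a) ≠ v := by
    filter_upwards [(measurePreserving_coord i).quasiMeasurePreserving.ae
      (ae_restrict_of_ae (hcount.ae_notMem volume))] with x hx
    exact not_or.1 hx
  have h := tendsto_integral_of_dominated_convergence (μ := volume.restrict (box 3))
    (F := fun n x => |arc v (s n) (x i) - arc v a (x i)|) (f := fun _ => (0 : ℝ))
    (fun _ => (1 : ℝ))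
    (fun n => ((((measurable_arc v (s n)).sub (measurable_arc v a)).comp
      (measurable_pi_apply i)).abs).aestronglyMeasurable)
    (integrableOn_box continuous_const)
    (fun n => ae_of_all _ fun x => by
      obtain ⟨p0, p1⟩ := arc_mem v (s n) (x i)
      obtain ⟨q0, q1⟩ := arc_mem v a (x i)
      rw [Real.norm_eq_abs, abs_abs, abs_le]
      constructor <;> linarith) ?_
  · simpa using h
  filter_upwards [hae] with x hx
  obtain ⟨hx0, hxv⟩ := hx
  set b := x i - a with hb
  have hlim : Tendsto (fun n => x i - s n) atTop (𝓝 b) := hs.const_sub (x i)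
  have hnhds : Ico (⌊b⌋ : ℝ) (⌊b⌋ + 1) ∈ 𝓝 b := by
    refine Ico_mem_nhds ?_ (Int.lt_floor_add_one b)
    refine lt_of_le_of_ne (Int.floor_le b) fun h => hx0 ?_
    rw [Int.fract]; linarith
  have hfr := ((continuousOn_fract ⌊b⌋).continuousAt hnhds).tendsto.comp hlim
  refine Tendsto.congr' ?_ tendsto_const_nhds
  rcases lt_or_gt_of_ne hxv with h1 | h1
  · filter_upwards [hfr.eventually (eventually_lt_nhds h1)] with n hn
    simp only [Function.comp_apply] at hn
    simp [arc, hn, ← hb, h1]
  · filter_upwards [hfr.eventually (eventually_gt_nhds h1)] with n hn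
    simp only [Function.comp_apply] at hn
    simp [arc, hn.not_gt, ← hb, h1.not_gt]

theorem slabRigid : SlabRigid := by
  intro v f u h i hax
  obtain ⟨j, k, hij, hik, hjk⟩ :=
    (by decide : ∀ i : Fin 3, ∃ j k : Fin 3, i ≠ j ∧ i ≠ k ∧ j ≠ k) i
  set q := v * (1 - v) with hq
  have hq0 : 0 < q := mul_pos h.v_pos (by linarith [h.v_le])
  set D := fun n => ∫ x in box 3, |u n x - area (u n) i (x i)| with hD
  set e := fun n => ∫ z in (0 : ℝ)..1, area (u n) i z * (1 - area (u n) i z) with he
  have hDlim : Tendsto D atTop (𝓝 0) := by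
    refine squeeze_zero (fun n => setIntegral_nonneg measurableSet_box fun _ _ => abs_nonneg _)
      (fun n => slice_L1 (h.adm n) hij hik hjk) ?_
    simpa using ((hax j hij.symm).add (hax k hik.symm)).div_const 2
  have he0 : ∀ n, 0 ≤ e n := fun n => intervalIntegral.integral_nonneg zero_le_one fun z _ =>
    mul_nonneg (mean_mem ((h.adm n).slice i z)).1 (sub_nonneg.2 (mean_mem ((h.adm n).slice i z)).2)
  have helim : Tendsto e atTop (𝓝 0) := by
    refine squeeze_zero he0 (fun n => ?_) (by simpa using h.dfct_tendsto.add hDlim)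
    have hu := h.adm n
    have ha : Continuous fun x : Fin 3 → ℝ => area (u n) i (x i) :=
      (area_continuous hu i).comp (continuous_apply i)
    have c1 : Continuous fun x => u n x * (1 - u n x) :=
      hu.smooth.continuous.mul (continuous_const.sub hu.smooth.continuous)
    have c2 : Continuous fun x => |u n x - area (u n) i (x i)| :=
      (hu.smooth.continuous.sub ha).abs
    simp only [he, hD, dfct]
    rw [← integral_coord (G := fun z => area (u n) i z * (1 - area (u n) i z))
        ((area_continuous hu i).mul (continuous_const.sub (area_continuous hu i))) i, ← integral_add (integrableOn_box c1) (integrableOn_box c2)]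
    refine setIntegral_box_mono (ha.mul (continuous_const.sub ha)) (c1.add c2) fun x _ => ?_
    set a := area (u n) i (x i)
    have a01 : a ∈ Icc (0 : ℝ) 1 := mean_mem (hu.slice i (x i))
    have u01 := hu.mem x
    rcases le_total a (u n x) with hle | hle
    · rw [abs_of_nonneg (sub_nonneg.2 hle)]
      nlinarith [mul_nonneg (sub_nonneg.2 hle)
        (show 0 ≤ 2 - u n x - a by linarith [u01.2, a01.2])]
    · rw [abs_of_nonpos (sub_nonpos.2 hle)]
      nlinarith [mul_nonneg (sub_nonneg.2 hle) (add_nonneg u01.1 a01.1)]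
  have hqlim : Tendsto (fun n => mean (u n) * (1 - mean (u n))) atTop (𝓝 q) :=
    h.mean_tendsto.mul (h.mean_tendsto.const_sub 1)
  -- for large indices the slice areas run from nearly zero to nearly one and back
  have hrange : ∀ σ : ℝ, 0 < σ → ∀ᶠ n in atTop, ∃ x y,
      1 - σ ≤ area (u n) i x - area (u n) i y ∧
      2 * (area (u n) i x - area (u n) i y) ≤ ∫ z in (0 : ℝ)..1, |slope (u n) i z| := by
    intro σ hσ
    filter_upwards [hqlim.eventually (eventually_ge_nhds (half_lt_self hq0)),
      helim.eventually (eventually_le_nhds (show 0 < q / 2 * σ by positivity))] with n hqn hen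
    have hu := h.adm n
    obtain ⟨x, y, -, hxy⟩ := range_defect (area_continuous hu i) (area_periodic hu i)
      fun z => mean_mem (hu.slice i z)
    rw [integral_area hu i] at hxy
    refine ⟨x, y, ?_, ?_⟩
    · simp only [he] at hen
      by_contra hbad
      have := mul_le_mul hqn (show σ ≤ 1 - (area (u n) i x - area (u n) i y) by linarith)
        hσ.le ((half_pos hq0).le.trans hqn)
      nlinarith [mul_lt_mul_of_pos_left (not_le.1 hbad) (lt_of_lt_of_le (half_pos hq0) hqn)]
    · exact le_trans (by linarith [le_abs_self (area (u n) i x - area (u n) i y)])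
        (periodic_variation (hasDerivAt_area hu i)
          (continuous_sliceInt (continuous_pd hu.smooth i) i) (area_periodic hu i) x y)
  have hVle : ∀ n, ∫ z in (0 : ℝ)..1, |slope (u n) i z| ≤ energy (u n) := fun n =>
    (integral_slope_le_axial (h.adm n) i).trans (axial_le_energy (h.adm n) i)
  have hcan : canonical v = 2 := by
    refine le_antisymm (min_le_right _ _) (le_of_forall_pos_le_add fun ε hε => ?_)
    obtain ⟨n, ⟨x, y, h1, h2⟩, hE⟩ :=
      ((hrange (ε / 4) (by positivity)).and (h.energy_le (ε / 2) (by positivity))).exists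
    linarith [hVle n]
  refine ⟨hcan, ?_⟩
  have hgood : ∀ᶠ n in atTop, ∃ s ∈ Icc (0 : ℝ) 1,
      ∫ z in (0 : ℝ)..1, |area (u n) i z - arc v s z| ≤ 8 * e n + |mean (u n) - v| := by
    filter_upwards [hrange (1 / 16) (by norm_num), h.energy_le (1 / 8) (by norm_num)]
      with n ⟨x, y, h1, h2⟩ hE
    have hu := h.adm n
    have hx := mean_mem (hu.slice i x)
    have hy := mean_mem (hu.slice i y)
    have hV := hVle n
    simp only [area] at h1
    obtain ⟨s, hs, hb⟩ := near_arc (hasDerivAt_area hu i)
      (continuous_sliceInt (continuous_pd hu.smooth i) i) (area_periodic hu i)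
      (fun z => mean_mem (hu.slice i z)) (x := x) (y := y)
      (by simp only [area]; linarith [hx.2])
      (by simp only [area, slope] at hV ⊢; linarith) (v := v)
      ⟨h.v_pos.le, h.v_le.trans (by norm_num)⟩
    rw [integral_area hu i] at hb
    exact ⟨s, hs, hb⟩
  obtain ⟨N, hN⟩ := eventually_atTop.1 hgood
  choose s hs hsb using fun n => hN (n + N) (Nat.le_add_left _ _)
  obtain ⟨a, -, φ, hφ, hlim⟩ := isCompact_Icc.tendsto_subseq hs
  set ψ := fun n => φ n + N with hψdef
  have hψ : Tendsto ψ atTop atTop := (tendsto_add_atTop_nat N).comp hφ.tendsto_atTop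
  refine ⟨a, ?_⟩
  have hmA : ∀ b, Measurable fun x : Fin 3 → ℝ => arc v b (x i) := fun b =>
    (measurable_arc v b).comp (measurable_pi_apply i)
  have hiA : ∀ b, IntegrableOn (fun x : Fin 3 → ℝ => arc v b (x i)) (box 3) := fun b => by
    simpa using integrableOn_mul_of_bounded (continuous_const (y := (1 : ℝ))) (hmA b)
      fun x => arc_mem v b (x i)
  have hbound : ∀ n, ∫ x in box 3, |f x - arc v a (x i)| ≤
      (∫ x in box 3, |u (ψ n) x - f x|) + D (ψ n) +
        (8 * e (ψ n) + |mean (u (ψ n)) - v|) +
        ∫ x in box 3, |arc v (s (φ n)) (x i) - arc v a (x i)| := by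
    intro n
    have hu := h.adm (ψ n)
    have ha : Continuous fun x : Fin 3 → ℝ => area (u (ψ n)) i (x i) :=
      (area_continuous hu i).comp (continuous_apply i)
    have iu := integrableOn_box hu.smooth.continuous
    have i1 := h.integrableOn_diff (ψ n)
    have i2 := (iu.sub (integrableOn_box ha)).abs
    have i3 := ((integrableOn_box ha).sub (hiA (s (φ n)))).abs
    have i4 := ((hiA (s (φ n))).sub (hiA a)).abs
    have h3 : ∫ x in box 3, |area (u (ψ n)) i (x i) - arc v (s (φ n)) (x i)| ≤
        8 * e (ψ n) + |mean (u (ψ n)) - v| := by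
      rw [integral_coord_meas (H := fun z => |area (u (ψ n)) i z - arc v (s (φ n)) z|)
        (((area_continuous hu i).measurable.sub (measurable_arc v _)).abs) i]
      exact hsb (φ n)
    refine le_trans ?_ (add_le_add (add_le_add le_rfl h3) le_rfl)
    simp only [hD]
    refine le_trans (setIntegral_mono_on (h.integrableOn.sub (hiA a)).abs
      (((i1.add i2).add i3).add i4) measurableSet_box fun x _ => ?_) (le_of_eq ?_)
    · simp only [Pi.add_apply, Pi.sub_apply]
      have := abs_sub_le (f x) (u (ψ n) x) (arc v a (x i))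
      have := abs_sub_le (u (ψ n) x) (area (u (ψ n)) i (x i)) (arc v a (x i))
      have := abs_sub_le (area (u (ψ n)) i (x i)) (arc v (s (φ n)) (x i)) (arc v a (x i))
      have := abs_sub_comm (f x) (u (ψ n) x)
      linarith
    · rw [integral_add' ((i1.add i2).add i3) i4, integral_add' (i1.add i2) i3,
        integral_add' i1 i2]
      rfl
  have hzero : Tendsto (fun n => (∫ x in box 3, |u (ψ n) x - f x|) + D (ψ n) +
      (8 * e (ψ n) + |mean (u (ψ n)) - v|) +
        ∫ x in box 3, |arc v (s (φ n)) (x i) - arc v a (x i)|) atTop (𝓝 0) := by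
    simpa using (((h.lim.comp hψ).add (hDlim.comp hψ)).add (((helim.comp hψ).const_mul 8).add
      (((h.mean_tendsto.comp hψ).sub_const v).abs))).add (arc_tendsto (v := v) hlim i)
  have hI : ∫ x in box 3, |f x - arc v a (x i)| = 0 :=
    le_antisymm (ge_of_tendsto hzero (Eventually.of_forall hbound))
      (setIntegral_nonneg measurableSet_box fun _ _ => abs_nonneg _)
  rw [integral_eq_zero_iff_of_nonneg (f := fun x : Fin 3 → ℝ => |f x - arc v a (x i)|)
    (fun x => abs_nonneg _) (h.integrableOn.sub (hiA a)).abs] at hI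
  filter_upwards [hI] with x hx
  simp only [Pi.zero_apply, abs_eq_zero, sub_eq_zero] at hx
  rw [hx]
  simp [arc, indicator]

end Vale.Agent.P232.Classify
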