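import Vale.Agent.P232.Classify.Pins
import Vale.Agent.P232.Win.Row

/-!
# P232: the row of the middle range with its margin
-/

noncomputable section

namespace Vale.Agent.P232.Classify

theorem windowRowStrict : WindowRowStrict := Win.windowRow_margin

end Vale.Agent.P232.Classify
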